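import Vale.Agent.P141.H483.Flow
import Mathlib.Algebra.Order.Star.Real

/-!
# P141, line (A): the gap at `s = 1/2` with exact half differences (row 12126 (2))

`P`, `M` positive definite (the square roots of the two children), `B = (P + M) / 2`,
`D = (P - M) / 2`, `y = B⁻¹ q`, `z = dq - D y`.

* `ridge_half` : `P⁻¹ (q + dq) = y + P⁻¹ z`, `M⁻¹ (q - dq) = y - M⁻¹ z`;
* `mean_inv` : the exact value of the mean of the two weighted forms;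
* `mean_inv_ge`, `mean_inv_gap`, `gap_half` : the convexity gaps;
* `sqrt_mono`, `inv_anti` : monotonicity of the square root and of the inverse;
* `mean_le_root` : `B ≤ K` if `K² = (P² + M²) / 2`;
* `xi_energy`, `root_top` : the energy of the flow slot and its telescoping bound.
-/

namespace Vale.Agent.P141.H483

open Matrix Finset

variable {ι : Type*} [Fintype ι] [DecidableEq ι]

theorem symm_dot_aux {T : Matrix ι ι ℝ} (hT : T.PosDef) (y z : ι → ℝ) :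
    (T⁻¹ *ᵥ z) ⬝ᵥ (T *ᵥ y) = y ⬝ᵥ z := by
  rw [symm_dot hT.isHermitian, mulVec_mulVec, mul_nonsing_inv _ hT.det_pos.ne'.isUnit, one_mulVec]

theorem mul_inv_vec {T : Matrix ι ι ℝ} (hT : T.PosDef) (z : ι → ℝ) : T *ᵥ (T⁻¹ *ᵥ z) = z := by
  rw [mulVec_mulVec, mul_nonsing_inv _ hT.det_pos.ne'.isUnit, one_mulVec]

theorem inv_mul_vec {T : Matrix ι ι ℝ} (hT : T.PosDef) (z : ι → ℝ) : T⁻¹ *ᵥ (T *ᵥ z) = z := by
  rw [mulVec_mulVec, nonsing_inv_mul _ hT.det_pos.ne'.isUnit, one_mulVec]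

/-- half sum and half difference. -/
theorem half_facts (P M : Matrix ι ι ℝ) :
    (1 / 2 : ℝ) • (P + M) + (1 / 2 : ℝ) • (P - M) = P ∧
      (1 / 2 : ℝ) • (P + M) - (1 / 2 : ℝ) • (P - M) = M := by
  constructor
  · rw [← smul_add, add_add_sub_cancel, ← two_smul ℝ P, smul_smul]; norm_num
  · rw [← smul_sub, add_sub_sub_cancel, ← two_smul ℝ M, smul_smul]; norm_num

theorem half_posDef {P M : Matrix ι ι ℝ} (hP : P.PosDef) (hM : M.PosDef) :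
    ((1 / 2 : ℝ) • (P + M)).PosDef := (hP.add hM).smul (by norm_num)

variable {P M B D : Matrix ι ι ℝ}

/-- **(b)** the exact ridge identity at the two children. -/
theorem ridge_half (hP : P.PosDef) (hM : M.PosDef) (hB : B.PosDef) (eP : B + D = P)
    (eM : B - D = M) (q dq : ι → ℝ) :
    P⁻¹ *ᵥ (q + dq) = B⁻¹ *ᵥ q + P⁻¹ *ᵥ (dq - D *ᵥ (B⁻¹ *ᵥ q)) ∧
      M⁻¹ *ᵥ (q - dq) = B⁻¹ *ᵥ q - M⁻¹ *ᵥ (dq - D *ᵥ (B⁻¹ *ᵥ q)) := by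
  have h1 : P *ᵥ (B⁻¹ *ᵥ q) = q + D *ᵥ (B⁻¹ *ᵥ q) := by
    rw [← eP, add_mulVec, mul_inv_vec hB]
  have h2 : M *ᵥ (B⁻¹ *ᵥ q) = q - D *ᵥ (B⁻¹ *ᵥ q) := by
    rw [← eM, sub_mulVec, mul_inv_vec hB]
  constructor
  · have : q + dq = P *ᵥ (B⁻¹ *ᵥ q) + (dq - D *ᵥ (B⁻¹ *ᵥ q)) := by rw [h1]; abel
    conv_lhs => rw [this]
    rw [mulVec_add, inv_mul_vec hP]
  · have : q - dq = M *ᵥ (B⁻¹ *ᵥ q) - (dq - D *ᵥ (B⁻¹ *ᵥ q)) := by rw [h2]; abel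
    conv_lhs => rw [this]
    rw [mulVec_sub, inv_mul_vec hM]

/-- **(a)** the exact mean of the two weighted forms. -/
theorem mean_inv (hP : P.PosDef) (hM : M.PosDef) (hB : B.PosDef) (eP : B + D = P)
    (eM : B - D = M) (q dq : ι → ℝ) :
    (1 / 2) * ((q + dq) ⬝ᵥ P⁻¹ *ᵥ (q + dq) + (q - dq) ⬝ᵥ M⁻¹ *ᵥ (q - dq)) =
      q ⬝ᵥ B⁻¹ *ᵥ q + (1 / 2) *
        ((dq - D *ᵥ (B⁻¹ *ᵥ q)) ⬝ᵥ P⁻¹ *ᵥ (dq - D *ᵥ (B⁻¹ *ᵥ q)) +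
          (dq - D *ᵥ (B⁻¹ *ᵥ q)) ⬝ᵥ M⁻¹ *ᵥ (dq - D *ᵥ (B⁻¹ *ᵥ q))) := by
  obtain ⟨r1, r2⟩ := ridge_half hP hM hB eP eM q dq
  set y := B⁻¹ *ᵥ q with hy
  set z := dq - D *ᵥ y with hz
  have h1 : q + dq = P *ᵥ y + z := by
    rw [← eP, add_mulVec, hy, mul_inv_vec hB, ← hy, hz]; abel
  have h2 : q - dq = M *ᵥ y - z := by
    rw [← eM, sub_mulVec, hy, mul_inv_vec hB, ← hy, hz]; abel
  have hq : q ⬝ᵥ y = y ⬝ᵥ B *ᵥ y := by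
    rw [hy, mul_inv_vec hB, dotProduct_comm]
  have e1 : (q + dq) ⬝ᵥ P⁻¹ *ᵥ (q + dq) = y ⬝ᵥ P *ᵥ y + 2 * (y ⬝ᵥ z) + z ⬝ᵥ P⁻¹ *ᵥ z := by
    rw [r1, h1]
    simp only [add_dotProduct, dotProduct_add]
    have a1 : (P *ᵥ y) ⬝ᵥ P⁻¹ *ᵥ z = y ⬝ᵥ z := by
      rw [dotProduct_comm, symm_dot_aux hP]
    rw [a1, dotProduct_comm (P *ᵥ y) y, dotProduct_comm z y]
    ring
  have e2 : (q - dq) ⬝ᵥ M⁻¹ *ᵥ (q - dq) = y ⬝ᵥ M *ᵥ y - 2 * (y ⬝ᵥ z) + z ⬝ᵥ M⁻¹ *ᵥ z := by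
    rw [r2, h2]
    simp only [sub_dotProduct, dotProduct_sub]
    have a1 : (M *ᵥ y) ⬝ᵥ M⁻¹ *ᵥ z = y ⬝ᵥ z := by
      rw [dotProduct_comm, symm_dot_aux hM]
    rw [a1, dotProduct_comm (M *ᵥ y) y, dotProduct_comm z y]
    ring
  have e3 : y ⬝ᵥ P *ᵥ y + y ⬝ᵥ M *ᵥ y = 2 * (y ⬝ᵥ B *ᵥ y) := by
    rw [← eP, ← eM, add_mulVec, sub_mulVec, dotProduct_add, dotProduct_sub]
    ring
  rw [e1, e2, hq]
  linarith

/-- **(c0)** operator convexity of the inverse, midpoint form. -/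
theorem mean_inv_ge (hP : P.PosDef) (hM : M.PosDef) (hB : B.PosDef) (eP : B + D = P)
    (eM : B - D = M) (v : ι → ℝ) :
    v ⬝ᵥ B⁻¹ *ᵥ v ≤ (1 / 2) * (v ⬝ᵥ P⁻¹ *ᵥ v + v ⬝ᵥ M⁻¹ *ᵥ v) := by
  have h := mean_inv hP hM hB eP eM v 0
  rw [add_zero, sub_zero] at h
  have h1 := quad_nonneg hP.inv.posSemidef (0 - D *ᵥ (B⁻¹ *ᵥ v))
  have h2 := quad_nonneg hM.inv.posSemidef (0 - D *ᵥ (B⁻¹ *ᵥ v))
  linarith

/-- **(a)** the gap inequality. -/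
theorem gap_half (hP : P.PosDef) (hM : M.PosDef) (hB : B.PosDef) (eP : B + D = P)
    (eM : B - D = M) (q dq : ι → ℝ) :
    q ⬝ᵥ B⁻¹ *ᵥ q + (dq - D *ᵥ (B⁻¹ *ᵥ q)) ⬝ᵥ B⁻¹ *ᵥ (dq - D *ᵥ (B⁻¹ *ᵥ q)) ≤
      (1 / 2) * ((q + dq) ⬝ᵥ P⁻¹ *ᵥ (q + dq) + (q - dq) ⬝ᵥ M⁻¹ *ᵥ (q - dq)) := by
  rw [mean_inv hP hM hB eP eM q dq]
  have h := mean_inv_ge hP hM hB eP eM (dq - D *ᵥ (B⁻¹ *ᵥ q))
  linarith

/-- **(c)** `mean K±⁻¹ ≥ B⁻¹ + B⁻¹ D B⁻¹ D B⁻¹`. -/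
theorem mean_inv_gap (hP : P.PosDef) (hM : M.PosDef) (hB : B.PosDef) (eP : B + D = P)
    (eM : B - D = M) (v : ι → ℝ) :
    v ⬝ᵥ B⁻¹ *ᵥ v + (D *ᵥ (B⁻¹ *ᵥ v)) ⬝ᵥ B⁻¹ *ᵥ (D *ᵥ (B⁻¹ *ᵥ v)) ≤
      (1 / 2) * (v ⬝ᵥ P⁻¹ *ᵥ v + v ⬝ᵥ M⁻¹ *ᵥ v) := by
  have h := gap_half hP hM hB eP eM v 0
  rw [add_zero, sub_zero] at h
  have e : (0 - D *ᵥ (B⁻¹ *ᵥ v)) ⬝ᵥ B⁻¹ *ᵥ (0 - D *ᵥ (B⁻¹ *ᵥ v)) =
      (D *ᵥ (B⁻¹ *ᵥ v)) ⬝ᵥ B⁻¹ *ᵥ (D *ᵥ (B⁻¹ *ᵥ v)) := by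
    rw [zero_sub, mulVec_neg, neg_dotProduct_neg]
  rw [e] at h
  exact h

/-- a symmetric matrix with nonnegative diagonal in a diagonal frame is positive semidefinite. -/
theorem psd_of_diag {Y U : Matrix ι ι ℝ} {d : ι → ℝ} (h3 : Y = U * diagonal d * Uᵀ)
    (hd : ∀ i, 0 ≤ d i) (v : ι → ℝ) : 0 ≤ v ⬝ᵥ Y *ᵥ v := by
  have e : v ⬝ᵥ Y *ᵥ v = ∑ i, d i * (Uᵀ *ᵥ v) i ^ 2 := by
    rw [h3, ← mulVec_mulVec, ← mulVec_mulVec, dot_mulVec U]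
    simp only [dotProduct, mulVec_diagonal]
    exact Finset.sum_congr rfl fun i _ => by ring
  rw [e]
  exact Finset.sum_nonneg fun i _ => mul_nonneg (hd i) (sq_nonneg _)

/-- eigenvector form: `Y (U eᵢ) = dᵢ U eᵢ`. -/
theorem diag_mulVec {Y U : Matrix ι ι ℝ} {d : ι → ℝ} (h1 : Uᵀ * U = 1)
    (h3 : Y = U * diagonal d * Uᵀ) (i : ι) :
    Y *ᵥ (U *ᵥ (Pi.single i (1 : ℝ))) = d i • (U *ᵥ (Pi.single i (1 : ℝ))) := by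
  rw [h3, mulVec_mulVec, Matrix.mul_assoc, Matrix.mul_assoc, h1, Matrix.mul_one,
    ← mulVec_mulVec, ← mulVec_smul]
  congr 1
  ext j
  by_cases hj : j = i
  · subst hj; simp [mulVec_diagonal]
  · simp [mulVec_diagonal, hj]

theorem col_ne_zero {U : Matrix ι ι ℝ} (h1 : Uᵀ * U = 1) (i : ι) :
    U *ᵥ (Pi.single i (1 : ℝ)) ≠ 0 := by
  intro h0
  have : Uᵀ *ᵥ (U *ᵥ (Pi.single i (1 : ℝ))) = 0 := by rw [h0, mulVec_zero]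
  rw [mulVec_mulVec, h1, one_mulVec] at this
  have := congrFun this i
  simp at this

/-- **operator monotonicity of the square root**: `B² ≤ K²` implies `B ≤ K`. -/
theorem sqrt_mono {K B : Matrix ι ι ℝ} (hK : K.PosDef) (hB : B.PosDef)
    (h : ∀ a : ι → ℝ, a ⬝ᵥ (B * B) *ᵥ a ≤ a ⬝ᵥ (K * K) *ᵥ a) (v : ι → ℝ) :
    v ⬝ᵥ B *ᵥ v ≤ v ⬝ᵥ K *ᵥ v := by
  have hY : (K - B).IsHermitian := hK.isHermitian.sub hB.isHermitian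
  obtain ⟨U, d, h1, h2, h3⟩ := exists_diag hY
  have hd : ∀ i, 0 ≤ d i := by
    intro i
    set x := U *ᵥ (Pi.single i (1 : ℝ)) with hx
    have hx0 : x ≠ 0 := col_ne_zero h1 i
    have hYx : (K - B) *ᵥ x = d i • x := diag_mulVec h1 h3 i
    have hpos : 0 < x ⬝ᵥ (K + B) *ᵥ x := by
      have := (hK.add hB).dotProduct_mulVec_pos hx0
      simpa using this
    have e1 : x ⬝ᵥ (K * K) *ᵥ x - x ⬝ᵥ (B * B) *ᵥ x = d i * (x ⬝ᵥ (K + B) *ᵥ x) := by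
      have a1 : x ⬝ᵥ ((K - B) * (K + B)) *ᵥ x = d i * (x ⬝ᵥ (K + B) *ᵥ x) := by
        rw [← mulVec_mulVec, dot_mulVec, tr_eq hY, hYx, smul_dotProduct, smul_eq_mul]
      have a2 : x ⬝ᵥ ((K + B) * (K - B)) *ᵥ x = d i * (x ⬝ᵥ (K + B) *ᵥ x) := by
        rw [← mulVec_mulVec, hYx, mulVec_smul, dotProduct_smul, smul_eq_mul]
      have a3 : (2 : ℝ) * (x ⬝ᵥ (K * K) *ᵥ x - x ⬝ᵥ (B * B) *ᵥ x) =
          x ⬝ᵥ ((K - B) * (K + B)) *ᵥ x + x ⬝ᵥ ((K + B) * (K - B)) *ᵥ x := by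
        rw [← dotProduct_add, ← add_mulVec]
        have : (K - B) * (K + B) + (K + B) * (K - B) = (2 : ℝ) • (K * K - B * B) := by
          simp only [Matrix.sub_mul, Matrix.add_mul, Matrix.mul_add, Matrix.mul_sub, two_smul]
          abel
        rw [this, smul_mulVec, dotProduct_smul, sub_mulVec, dotProduct_sub, smul_eq_mul]
      linarith
    have := h x
    by_contra hneg
    push Not at hneg
    have := mul_neg_of_neg_of_pos hneg hpos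
    linarith
  have := psd_of_diag h3 hd v
  rw [sub_mulVec, dotProduct_sub] at this
  linarith

/-- the inverse is antitone. -/
theorem inv_anti {K B : Matrix ι ι ℝ} (hK : K.PosDef) (hB : B.PosDef)
    (h : ∀ a : ι → ℝ, a ⬝ᵥ B *ᵥ a ≤ a ⬝ᵥ K *ᵥ a) (q : ι → ℝ) :
    q ⬝ᵥ K⁻¹ *ᵥ q ≤ q ⬝ᵥ B⁻¹ *ᵥ q := by
  have hc := cs_inv hB (K⁻¹ *ᵥ q) q (c := 1) one_pos 1 (by norm_num)
  have h1 := h (K⁻¹ *ᵥ q)
  rw [mul_inv_vec hK] at h1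
  have h2 : (K⁻¹ *ᵥ q) ⬝ᵥ q = q ⬝ᵥ K⁻¹ *ᵥ q := dotProduct_comm _ _
  rw [h2] at hc h1
  simp only [mul_one, inv_one, one_mul] at hc
  linarith

/-- `B = (P + M) / 2 ≤ K` if `K² = (P² + M²) / 2`. -/
theorem mean_le_root {K : Matrix ι ι ℝ} (hK : K.PosDef) (hB : B.PosDef) (hD : D.IsHermitian)
    (hKK : K * K = B * B + D * D) (v : ι → ℝ) : v ⬝ᵥ B *ᵥ v ≤ v ⬝ᵥ K *ᵥ v := by
  refine sqrt_mono hK hB (fun a => ?_) v
  rw [hKK, add_mulVec, dotProduct_add]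
  have : a ⬝ᵥ (D * D) *ᵥ a = (D *ᵥ a) ⬝ᵥ (D *ᵥ a) := by
    rw [← mulVec_mulVec, dot_mulVec, tr_eq hD]
  rw [this]
  have : 0 ≤ (D *ᵥ a) ⬝ᵥ (D *ᵥ a) := Finset.sum_nonneg fun i _ => mul_self_nonneg _
  linarith

/-- `(P² + M²) / 2 = B² + D²`. -/
theorem sq_mean (eP : B + D = P) (eM : B - D = M) :
    (1 / 2 : ℝ) • (P * P + M * M) = B * B + D * D := by
  rw [← eP, ← eM]
  have : (B + D) * (B + D) + (B - D) * (B - D) = (2 : ℝ) • (B * B + D * D) := by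
    simp only [Matrix.sub_mul, Matrix.add_mul, Matrix.mul_add, Matrix.mul_sub, two_smul]
    abel
  rw [this, smul_smul]
  norm_num

/-- **(a)** the gap with the root `K` of the parent: `K² = (P² + M²) / 2`. -/
theorem gap_root {K : Matrix ι ι ℝ} (hK : K.PosDef) (hP : P.PosDef) (hM : M.PosDef)
    (hB : B.PosDef) (hD : D.IsHermitian) (eP : B + D = P) (eM : B - D = M)
    (hKK : K * K = (1 / 2 : ℝ) • (P * P + M * M)) (q dq : ι → ℝ) :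
    q ⬝ᵥ K⁻¹ *ᵥ q + (dq - D *ᵥ (B⁻¹ *ᵥ q)) ⬝ᵥ B⁻¹ *ᵥ (dq - D *ᵥ (B⁻¹ *ᵥ q)) ≤
      (1 / 2) * ((q + dq) ⬝ᵥ P⁻¹ *ᵥ (q + dq) + (q - dq) ⬝ᵥ M⁻¹ *ᵥ (q - dq)) := by
  have h1 := gap_half hP hM hB eP eM q dq
  have h2 := inv_anti hK hB (mean_le_root hK hB hD (hKK.trans (sq_mean eP eM))) q
  linarith

/-- **(e)** energy of the flow slot `xi = B⁻¹ D B⁻¹ v`: one node. -/
theorem xi_energy {K : Matrix ι ι ℝ} (hK : K.PosDef) (hP : P.PosDef) (hM : M.PosDef)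
    (hB : B.PosDef) (hD : D.IsHermitian) (eP : B + D = P) (eM : B - D = M)
    (hKK : K * K = (1 / 2 : ℝ) • (P * P + M * M)) (v : ι → ℝ) :
    (B⁻¹ *ᵥ (D *ᵥ (B⁻¹ *ᵥ v))) ⬝ᵥ B *ᵥ (B⁻¹ *ᵥ (D *ᵥ (B⁻¹ *ᵥ v))) ≤
      (1 / 2) * (v ⬝ᵥ P⁻¹ *ᵥ v + v ⬝ᵥ M⁻¹ *ᵥ v) - v ⬝ᵥ K⁻¹ *ᵥ v := by
  have h1 := mean_inv_gap hP hM hB eP eM v
  have h2 := inv_anti hK hB (mean_le_root hK hB hD (hKK.trans (sq_mean eP eM))) v
  rw [mul_inv_vec hB, dotProduct_comm (B⁻¹ *ᵥ _)]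
  linarith

/-- the form of the inverse in a diagonal frame. -/
theorem inv_diag {Y U : Matrix ι ι ℝ} {d : ι → ℝ} (h1 : Uᵀ * U = 1) (h2 : U * Uᵀ = 1)
    (h3 : Y = U * diagonal d * Uᵀ) (hd : ∀ i, d i ≠ 0) (v : ι → ℝ) :
    v ⬝ᵥ Y⁻¹ *ᵥ v = ∑ i, (d i)⁻¹ * (Uᵀ *ᵥ v) i ^ 2 := by
  have hinv : Y⁻¹ = U * diagonal (fun i => (d i)⁻¹) * Uᵀ := by
    apply inv_eq_right_inv
    rw [h3]
    calc U * diagonal d * Uᵀ * (U * diagonal (fun i => (d i)⁻¹) * Uᵀ)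
        = U * diagonal d * (Uᵀ * U) * diagonal (fun i => (d i)⁻¹) * Uᵀ := by
          simp only [Matrix.mul_assoc]
      _ = 1 := by
        rw [h1, Matrix.mul_one, Matrix.mul_assoc U, diagonal_mul_diagonal]
        have : (fun i => d i * (d i)⁻¹) = fun _ => (1 : ℝ) := by
          ext i; exact mul_inv_cancel₀ (hd i)
        rw [this, diagonal_one, Matrix.mul_one, h2]
  rw [hinv, ← mulVec_mulVec, ← mulVec_mulVec, dot_mulVec U]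
  simp only [dotProduct, mulVec_diagonal]
  exact Finset.sum_congr rfl fun i _ => by ring

theorem quad_diag {Y U : Matrix ι ι ℝ} {d : ι → ℝ} (h3 : Y = U * diagonal d * Uᵀ)
    (v : ι → ℝ) : v ⬝ᵥ Y *ᵥ v = ∑ i, d i * (Uᵀ *ᵥ v) i ^ 2 := by
  rw [h3, ← mulVec_mulVec, ← mulVec_mulVec, dot_mulVec U]
  simp only [dotProduct, mulVec_diagonal]
  exact Finset.sum_congr rfl fun i _ => by ring

theorem norm_diag {U : Matrix ι ι ℝ} (h2 : U * Uᵀ = 1) (v : ι → ℝ) :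
    v ⬝ᵥ v = ∑ i, (Uᵀ *ᵥ v) i ^ 2 := by
  have : v ⬝ᵥ v = (Uᵀ *ᵥ v) ⬝ᵥ (Uᵀ *ᵥ v) := by
    rw [dot_mulVec, transpose_transpose, mulVec_mulVec, h2, one_mulVec]
  rw [this]
  simp only [dotProduct]
  exact Finset.sum_congr rfl fun i _ => by ring

theorem eig_pos {Y U : Matrix ι ι ℝ} {d : ι → ℝ} (hY : Y.PosDef) (h1 : Uᵀ * U = 1)
    (h3 : Y = U * diagonal d * Uᵀ) (i : ι) : 0 < d i := by
  have hp := hY.dotProduct_mulVec_pos (col_ne_zero h1 i)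
  rw [diag_mulVec h1 h3 i] at hp
  simp only [star_trivial, dotProduct_smul, smul_eq_mul] at hp
  exact pos_of_mul_pos_left hp (dot_self_pos (col_ne_zero h1 i)).le

/-- **telescoping value of the flow slot**: `K² = r² + G`, `G ≥ 0`:
`r⁻¹ |v|² - v·K⁻¹ v ≤ (2 r³)⁻¹ v·G v`, and `v·K⁻¹ v ≤ r⁻¹ |v|²`. -/
theorem root_top {K G : Matrix ι ι ℝ} (hK : K.PosDef) (hG : G.PosSemidef) {r : ℝ} (hr : 0 < r)
    (hKG : K * K = (r ^ 2) • (1 : Matrix ι ι ℝ) + G) (v : ι → ℝ) :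
    r⁻¹ * (v ⬝ᵥ v) - v ⬝ᵥ K⁻¹ *ᵥ v ≤ (2 * r ^ 3)⁻¹ * (v ⬝ᵥ G *ᵥ v) ∧
      v ⬝ᵥ K⁻¹ *ᵥ v ≤ r⁻¹ * (v ⬝ᵥ v) := by
  obtain ⟨U, d, h1, h2, h3⟩ := exists_diag hK.isHermitian
  have hd : ∀ i, 0 < d i := eig_pos hK h1 h3
  have hG3 : G = U * diagonal (fun i => d i ^ 2 - r ^ 2) * Uᵀ := by
    have e : K * K = U * diagonal (fun i => d i ^ 2) * Uᵀ := by
      rw [h3]
      calc U * diagonal d * Uᵀ * (U * diagonal d * Uᵀ)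
          = U * (diagonal d * (Uᵀ * U) * diagonal d) * Uᵀ := by simp only [Matrix.mul_assoc]
        _ = U * diagonal (fun i => d i ^ 2) * Uᵀ := by
          rw [h1, Matrix.mul_one, diagonal_mul_diagonal]
          simp only [sq]
    have e2 : diagonal (fun i => d i ^ 2 - r ^ 2) =
        diagonal (fun i => d i ^ 2) - (r ^ 2) • (1 : Matrix ι ι ℝ) := by
      rw [← diagonal_one, ← diagonal_smul, diagonal_sub]
      congr 1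
      ext i
      simp
    rw [e2, Matrix.mul_sub, Matrix.sub_mul, ← e, hKG, Matrix.mul_smul, Matrix.smul_mul,
      Matrix.mul_one, h2]
    abel
  have hdr : ∀ i, r ≤ d i := by
    intro i
    have hq := quad_nonneg hG (U *ᵥ (Pi.single i (1 : ℝ)))
    rw [diag_mulVec h1 hG3 i, dotProduct_smul, smul_eq_mul] at hq
    have hp := dot_self_pos (col_ne_zero h1 i)
    have : 0 ≤ d i ^ 2 - r ^ 2 := nonneg_of_mul_nonneg_left hq hp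
    nlinarith [hd i]
  have eK := inv_diag h1 h2 h3 (fun i => (hd i).ne') v
  have eG := quad_diag hG3 v
  have eN := norm_diag h2 v
  constructor
  · rw [eK, eG, eN, Finset.mul_sum, Finset.mul_sum, ← Finset.sum_sub_distrib]
    refine Finset.sum_le_sum fun i _ => ?_
    have hi := hd i
    have hri := hdr i
    have hs := sq_nonneg ((Uᵀ *ᵥ v) i)
    have key : r⁻¹ - (d i)⁻¹ ≤ (2 * r ^ 3)⁻¹ * (d i ^ 2 - r ^ 2) := by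
      rw [inv_sub_inv hr.ne' hi.ne', inv_mul_eq_div, div_le_div_iff₀ (by positivity)
        (by positivity)]
      nlinarith [mul_nonneg (sub_nonneg.2 hri) (mul_nonneg hr.le (sub_nonneg.2 hri)),
        mul_pos hr hi, mul_pos hr hr, mul_nonneg (sub_nonneg.2 hri) hr.le,
        mul_nonneg (mul_nonneg (sub_nonneg.2 hri) (sub_nonneg.2 hri)) hi.le,
        mul_nonneg (mul_nonneg (mul_nonneg (sub_nonneg.2 hri) hr.le) hi.le) hi.le,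
        mul_nonneg (mul_nonneg (mul_nonneg (sub_nonneg.2 hri) hr.le) hr.le) hi.le]
    nlinarith [mul_le_mul_of_nonneg_right key hs]
  · rw [eK, eN, Finset.mul_sum]
    refine Finset.sum_le_sum fun i _ => ?_
    have : (d i)⁻¹ ≤ r⁻¹ := inv_anti₀ hr (hdr i)
    exact mul_le_mul_of_nonneg_right this (sq_nonneg _)

end Vale.Agent.P141.H483
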