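import Vale.Agent.P141.H186.SqA
import Vale.Agent.P141.H420.FlowM
import Vale.Agent.P141.H483.Gap

/-!
# P141, line (A), M2: chain forms on the dyadic tree

Letters of `H420.FlowM`: scale `k`, index `m`, children `(k, 2 m)`, `(k, 2 m + 1)` of `(k + 1, m)`;
`tsum f k m` = the normalised sum of `f` over the cells of the scales `1, ..., k` below `(k, m)`;
`tmean f k m` = the mean of `f` over the cells of scale `0` below `(k, m)`.

* `tsum_le_mean`, `tsum_eq_mean` : telescoping with the mean at the END;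
* `gap_tree` : (N) on the tree;
* `xi_tree`, `rho_tree`, `w_tree` : the flow of `⟪v, K⁻¹ v⟫`;
* `gap_tree_one` : the exact identity for `s = 1` (weight `l + G`);
* `log_det_tree` : `SUM tr (T⁻¹ dG T⁻¹ dG) ≤ 2 tr G / l` for `T = l + G`.
-/

namespace Vale.Agent.P141.H483

open Matrix Finset
open Vale.Agent.P141.H420 hiding tsum

set_option linter.unusedSectionVars false

/-- the mean over the cells of scale `0` below `(k, m)`. -/
noncomputable def tmean (f : ℤ → ℝ) : ℕ → ℤ → ℝ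
  | 0, m => f m
  | (k + 1), m => (1 / 2) * (tmean f k (2 * m) + tmean f k (2 * m + 1))

theorem tmean_mono {f g : ℤ → ℝ} (h : ∀ m, f m ≤ g m) : ∀ k m, tmean f k m ≤ tmean g k m := by
  intro k
  induction k with
  | zero => intro m; exact h m
  | succ k ih =>
    intro m
    have h1 := ih (2 * m)
    have h2 := ih (2 * m + 1)
    simp only [tmean]
    linarith

theorem tmean_const (c : ℝ) : ∀ k m, tmean (fun _ => c) k m = c := by
  intro k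
  induction k with
  | zero => intro m; rfl
  | succ k ih => intro m; simp only [tmean, ih]; ring

theorem tmean_mul (c : ℝ) (f : ℤ → ℝ) : ∀ k m, tmean (fun i => c * f i) k m = c * tmean f k m := by
  intro k
  induction k with
  | zero => intro m; rfl
  | succ k ih => intro m; simp only [tmean, ih]; ring

theorem tsum_mono {f g : ℕ → ℤ → ℝ} {n : ℕ} (h : ∀ k < n, ∀ m, f (k + 1) m ≤ g (k + 1) m) :
    ∀ k ≤ n, ∀ m, H420.tsum f k m ≤ H420.tsum g k m := by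
  intro k
  induction k with
  | zero => intro _ m; simp [H420.tsum]
  | succ k ih =>
    intro hk m
    have h0 := h k (by omega) m
    have h1 := ih (by omega) (2 * m)
    have h2 := ih (by omega) (2 * m + 1)
    simp only [H420.tsum]
    linarith

/-- telescoping with the mean at the END. -/
theorem tsum_le_mean {f F : ℕ → ℤ → ℝ} {n : ℕ}
    (hf : ∀ k < n, ∀ m, f (k + 1) m ≤ (1 / 2) * (F k (2 * m) + F k (2 * m + 1)) - F (k + 1) m) :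
    ∀ k ≤ n, ∀ m, H420.tsum f k m ≤ tmean (F 0) k m - F k m := by
  intro k
  induction k with
  | zero => intro _ m; simp [H420.tsum, tmean]
  | succ k ih =>
    intro hk m
    have h0 := hf k (by omega) m
    have h1 := ih (by omega) (2 * m)
    have h2 := ih (by omega) (2 * m + 1)
    simp only [H420.tsum, tmean]
    linarith

/-- telescoping identity with the mean at the END. -/
theorem tsum_eq_mean {f F : ℕ → ℤ → ℝ} {n : ℕ}
    (hf : ∀ k < n, ∀ m, f (k + 1) m = (1 / 2) * (F k (2 * m) + F k (2 * m + 1)) - F (k + 1) m) :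
    ∀ k ≤ n, ∀ m, H420.tsum f k m = tmean (F 0) k m - F k m := by
  intro k
  induction k with
  | zero => intro _ m; simp [H420.tsum, tmean]
  | succ k ih =>
    intro hk m
    have h0 := hf k (by omega) m
    have h1 := ih (by omega) (2 * m)
    have h2 := ih (by omega) (2 * m + 1)
    simp only [H420.tsum, tmean]
    linarith

variable {ι : Type*} [Fintype ι] [DecidableEq ι]

/-- the mean of a linear functional of the tree is its value at the top. -/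
theorem tmean_form {l : ℝ} {n : ℕ} {G K : ℕ → ℤ → Matrix ι ι ℝ} (h : Tr l n G K) (v : ι → ℝ) :
    ∀ k ≤ n, ∀ m, tmean (fun i => v ⬝ᵥ G 0 i *ᵥ v) k m = v ⬝ᵥ G k m *ᵥ v := by
  intro k
  induction k with
  | zero => intro _ m; rfl
  | succ k ih =>
    intro hk m
    rw [tmean, ih (by omega), ih (by omega), h.mean k (by omega) m, H186.form_half_add]

/-- the node data in the letters of `H186`. -/
theorem nd' {l : ℝ} {n : ℕ} {G K : ℕ → ℤ → Matrix ι ι ℝ} (h : Tr l n G K) {k : ℕ} (hk : k < n)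
    (m : ℤ) : H186.Nd l (G (k + 1) m) ((1 / 2 : ℝ) • (G k (2 * m) - G k (2 * m + 1)))
      (K (k + 1) m) (K k (2 * m)) (K k (2 * m + 1)) := by
  have e := half_facts (G k (2 * m)) (G k (2 * m + 1))
  rw [← h.mean k hk m] at e
  have h1 := h.nd hk m
  refine ⟨h.l_pos, h.psG _ _, ?_, ?_, h.pdK _ _, h.pdK _ _, h.pdK _ _, h1.sq, h1.sqp, h1.sqm⟩
  · rw [e.1]; exact h.psG _ _
  · rw [e.2]; exact h.psG _ _

/-- the half difference of the children. -/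
noncomputable def hd {β : Type*} [AddCommGroup β] [Module ℝ β] (f : ℕ → ℤ → β) (k : ℕ) (m : ℤ) :
    β := (1 / 2 : ℝ) • (f (k - 1) (2 * m) - f (k - 1) (2 * m + 1))

/-- the regression residual `ze = dq - dK K⁻¹ q`. -/
noncomputable def ze (K : ℕ → ℤ → Matrix ι ι ℝ) (q : ℕ → ℤ → ι → ℝ) (k : ℕ) (m : ℤ) : ι → ℝ :=
  hd q k m - hd K k m *ᵥ ((K k m)⁻¹ *ᵥ q k m)

theorem half_vec (a b : ι → ℝ) :
    (1 / 2 : ℝ) • (a + b) + (1 / 2 : ℝ) • (a - b) = a ∧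
      (1 / 2 : ℝ) • (a + b) - (1 / 2 : ℝ) • (a - b) = b := by
  constructor
  · rw [← smul_add, add_add_sub_cancel, ← two_smul ℝ a, smul_smul]; norm_num
  · rw [← smul_sub, add_sub_sub_cancel, ← two_smul ℝ b, smul_smul]; norm_num

/-- **(N) on the tree** (`s = 1 / 2`). -/
theorem gap_tree {l : ℝ} {n : ℕ} {G K : ℕ → ℤ → Matrix ι ι ℝ} (h : Tr l n G K)
    {q : ℕ → ℤ → ι → ℝ}
    (hq : ∀ k < n, ∀ m, q (k + 1) m = (1 / 2 : ℝ) • (q k (2 * m) + q k (2 * m + 1)))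
    {k : ℕ} (hk : k ≤ n) (m : ℤ) :
    H420.tsum (fun j i => ze K q j i ⬝ᵥ (K j i)⁻¹ *ᵥ ze K q j i) k m ≤
      tmean (fun i => q 0 i ⬝ᵥ (K 0 i)⁻¹ *ᵥ q 0 i) k m - q k m ⬝ᵥ (K k m)⁻¹ *ᵥ q k m := by
  refine tsum_le_mean (F := fun j i => q j i ⬝ᵥ (K j i)⁻¹ *ᵥ q j i) (fun j hj i => ?_) k hk m
  have h1 := (nd' h hj i).gap (q (j + 1) i) (hd q (j + 1) i)
  have e := half_vec (q j (2 * i)) (q j (2 * i + 1))
  rw [← hq j hj i] at e
  have e1 : q (j + 1) i + hd q (j + 1) i = q j (2 * i) := e.1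
  have e2 : q (j + 1) i - hd q (j + 1) i = q j (2 * i + 1) := e.2
  rw [e1, e2] at h1
  have e3 : ze K q (j + 1) i = hd q (j + 1) i -
      ((1 / 2 : ℝ) • (K j (2 * i) - K j (2 * i + 1))) *ᵥ ((K (j + 1) i)⁻¹ *ᵥ q (j + 1) i) := rfl
  rw [← e3] at h1
  linarith

/-- the flow vector of the tree: `√l K⁻¹ dK K⁻¹ v`. -/
noncomputable def xiT (l : ℝ) (K : ℕ → ℤ → Matrix ι ι ℝ) (v : ι → ℝ) (k : ℕ) (m : ℤ) : ι → ℝ :=
  √l • ((K k m)⁻¹ *ᵥ (hd K k m *ᵥ ((K k m)⁻¹ *ᵥ v)))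

theorem flow_bot {l : ℝ} {G K : Matrix ι ι ℝ} (hl : 0 < l) (hG : G.PosSemidef) (hK : K.PosDef)
    (h : K * K = l • (1 : Matrix ι ι ℝ) + G) (v : ι → ℝ) :
    -(√l * (v ⬝ᵥ v)) ≤ -(l * (v ⬝ᵥ K⁻¹ *ᵥ v)) := by
  have h1 := H186.inv_form_le hK hG hl h v
  have hs : 0 < √l := Real.sqrt_pos.2 hl
  have h2 := mul_le_mul_of_nonneg_left h1 hl.le
  have hll : √l * √l = l := Real.mul_self_sqrt hl.le
  have h3 : l * ((v ⬝ᵥ v) / √l) = √l * (v ⬝ᵥ v) := by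
    clear h2 h1 h
    generalize √l = r at *
    subst hll
    field_simp
  rw [h3] at h2
  linarith

theorem flow_top {l : ℝ} {G K : Matrix ι ι ℝ} (hl : 0 < l) (hK : K.PosDef)
    (h : K * K = l • (1 : Matrix ι ι ℝ) + G) (v : ι → ℝ) :
    √l * (v ⬝ᵥ v) - l * (v ⬝ᵥ K⁻¹ *ᵥ v) ≤ (2 * √l)⁻¹ * (v ⬝ᵥ G *ᵥ v) := by
  have h1 := H186.one_sub_le hK hl h v
  have hs : 0 < √l := Real.sqrt_pos.2 hl
  have h2 := mul_le_mul_of_nonneg_left h1 hs.le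
  have hll : √l * √l = l := Real.mul_self_sqrt hl.le
  have h3 : √l * ((v ⬝ᵥ G *ᵥ v) / (2 * l)) = (2 * √l)⁻¹ * (v ⬝ᵥ G *ᵥ v) := by
    clear h2 h1 h
    generalize √l = r at *
    subst hll
    field_simp
  rw [h3, mul_sub, ← mul_assoc, hll] at h2
  exact h2

/-- **the energy of the flow slot on the tree**: `SUM ⟪ξ, K ξ⟫ ≤ ⟪v, G_top v⟫ / (2 √l)`. -/
theorem xi_tree {l : ℝ} {n : ℕ} {G K : ℕ → ℤ → Matrix ι ι ℝ} (h : Tr l n G K) (v : ι → ℝ)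
    {k : ℕ} (hk : k ≤ n) (m : ℤ) :
    H420.tsum (fun j i => xiT l K v j i ⬝ᵥ K j i *ᵥ xiT l K v j i) k m ≤
      (2 * √l)⁻¹ * (v ⬝ᵥ G k m *ᵥ v) := by
  have key := tsum_le (f := fun j i => xiT l K v j i ⬝ᵥ K j i *ᵥ xiT l K v j i)
    (F := fun j i => -(l * (v ⬝ᵥ (K j i)⁻¹ *ᵥ v))) (b := -(√l * (v ⬝ᵥ v))) (n := n)
    (fun j hj i => ?_) (fun i => flow_bot h.l_pos (h.psG 0 i) (h.pdK 0 i) (h.sq 0 i) v) k hk m
  · refine key.trans ?_
    have := flow_top h.l_pos (h.pdK k m) (h.sq k m) v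
    linarith
  · have h1 := (nd' h hj i).xi_le v
    have e : xiT l K v (j + 1) i = H186.xi l (K (j + 1) i) (K j (2 * i)) (K j (2 * i + 1)) v := rfl
    simp only [e]
    linarith

/-- **the energy of the increments** `ρ = √l (K⁻¹ - K'⁻¹) v`, weighted by the child:
`SUM E ⟪ρ, K' ρ⟫ ≤ ⟪v, G_top v⟫ / (2 √l)`. -/
theorem rho_tree {l : ℝ} {n : ℕ} {G K : ℕ → ℤ → Matrix ι ι ℝ} (h : Tr l n G K) (v : ι → ℝ)
    {k : ℕ} (hk : k ≤ n) (m : ℤ) :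
    H420.tsum (fun j i => (1 / 2) *
      ((√l • ((K j i)⁻¹ *ᵥ v - (K (j - 1) (2 * i))⁻¹ *ᵥ v)) ⬝ᵥ K (j - 1) (2 * i) *ᵥ
          (√l • ((K j i)⁻¹ *ᵥ v - (K (j - 1) (2 * i))⁻¹ *ᵥ v)) +
        (√l • ((K j i)⁻¹ *ᵥ v - (K (j - 1) (2 * i + 1))⁻¹ *ᵥ v)) ⬝ᵥ K (j - 1) (2 * i + 1) *ᵥ
          (√l • ((K j i)⁻¹ *ᵥ v - (K (j - 1) (2 * i + 1))⁻¹ *ᵥ v)))) k m ≤
      (2 * √l)⁻¹ * (v ⬝ᵥ G k m *ᵥ v) := by
  have key := tsum_le (f := fun j i => (1 / 2) *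
      ((√l • ((K j i)⁻¹ *ᵥ v - (K (j - 1) (2 * i))⁻¹ *ᵥ v)) ⬝ᵥ K (j - 1) (2 * i) *ᵥ
          (√l • ((K j i)⁻¹ *ᵥ v - (K (j - 1) (2 * i))⁻¹ *ᵥ v)) +
        (√l • ((K j i)⁻¹ *ᵥ v - (K (j - 1) (2 * i + 1))⁻¹ *ᵥ v)) ⬝ᵥ K (j - 1) (2 * i + 1) *ᵥ
          (√l • ((K j i)⁻¹ *ᵥ v - (K (j - 1) (2 * i + 1))⁻¹ *ᵥ v))))
    (F := fun j i => -(l * (v ⬝ᵥ (K j i)⁻¹ *ᵥ v))) (b := -(√l * (v ⬝ᵥ v))) (n := n)
    (fun j hj i => ?_) (fun i => flow_bot h.l_pos (h.psG 0 i) (h.pdK 0 i) (h.sq 0 i) v) k hk m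
  · refine key.trans ?_
    have := flow_top h.l_pos (h.pdK k m) (h.sq k m) v
    linarith
  · have h1 := (nd' h hj i).rho_le v
    simp only [Nat.add_sub_cancel]
    linarith

/-- `|v - √l K⁻¹ v|² ≤ ⟪v, G v⟫ / (2 l)`. -/
theorem w_le {l : ℝ} {G K : Matrix ι ι ℝ} (hl : 0 < l) (hG : G.PosSemidef) (hK : K.PosDef)
    (h : K * K = l • (1 : Matrix ι ι ℝ) + G) (v : ι → ℝ) :
    (v - √l • (K⁻¹ *ᵥ v)) ⬝ᵥ (v - √l • (K⁻¹ *ᵥ v)) ≤ (v ⬝ᵥ G *ᵥ v) / (2 * l) := by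
  have h1 := H186.one_sub_le hK hl h v
  have h2 := H186.sqrt_le_form hK.posSemidef hG hl.le h (K⁻¹ *ᵥ v)
  rw [H186.inv_mulVec hK, dotProduct_comm (K⁻¹ *ᵥ v) v] at h2
  have hs : 0 < √l := Real.sqrt_pos.2 hl
  have e : (v - √l • (K⁻¹ *ᵥ v)) ⬝ᵥ (v - √l • (K⁻¹ *ᵥ v)) =
      v ⬝ᵥ v - 2 * √l * (v ⬝ᵥ K⁻¹ *ᵥ v) + √l * (√l * ((K⁻¹ *ᵥ v) ⬝ᵥ (K⁻¹ *ᵥ v))) := by
    simp only [sub_dotProduct, dotProduct_sub, smul_dotProduct, dotProduct_smul, smul_eq_mul]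
    rw [dotProduct_comm (K⁻¹ *ᵥ v) v]
    ring
  rw [e]
  have h3 := mul_le_mul_of_nonneg_left h2 hs.le
  linarith

/-- **`E |W|² ≤ ⟪v, G_top v⟫ / (2 l)`**, `W = v - √l K⁻¹ v` at the END. -/
theorem w_tree {l : ℝ} {n : ℕ} {G K : ℕ → ℤ → Matrix ι ι ℝ} (h : Tr l n G K) (v : ι → ℝ)
    {k : ℕ} (hk : k ≤ n) (m : ℤ) :
    tmean (fun i => (v - √l • ((K 0 i)⁻¹ *ᵥ v)) ⬝ᵥ (v - √l • ((K 0 i)⁻¹ *ᵥ v))) k m ≤
      (v ⬝ᵥ G k m *ᵥ v) / (2 * l) := by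
  have h1 := tmean_mono (fun i => w_le h.l_pos (h.psG 0 i) (h.pdK 0 i) (h.sq 0 i) v) k m
  refine h1.trans (le_of_eq ?_)
  have h2 : (fun i => (v ⬝ᵥ G 0 i *ᵥ v) / (2 * l)) =
      fun i => (2 * l)⁻¹ * (v ⬝ᵥ G 0 i *ᵥ v) := by
    funext i; rw [div_eq_inv_mul]
  rw [h2, tmean_mul, tmean_form h v k hk m, div_eq_inv_mul]

/-! ### `s = 1`: the weight `T = l + G` itself -/

/-- the data of a tree of positive definite matrices `T k m` = mean of the two children. -/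
structure Tr1 (n : ℕ) (T : ℕ → ℤ → Matrix ι ι ℝ) : Prop where
  pd : ∀ k m, (T k m).PosDef
  mean : ∀ k < n, ∀ m, T (k + 1) m = (1 / 2 : ℝ) • (T k (2 * m) + T k (2 * m + 1))

theorem Tr1.of {l : ℝ} (hl : 0 < l) {n : ℕ} {G : ℕ → ℤ → Matrix ι ι ℝ}
    (hG : ∀ k m, (G k m).PosSemidef)
    (hm : ∀ k < n, ∀ m, G (k + 1) m = (1 / 2 : ℝ) • (G k (2 * m) + G k (2 * m + 1))) :
    Tr1 n (fun k m => l • (1 : Matrix ι ι ℝ) + G k m) := by
  refine ⟨fun k m => ?_, fun k hk m => ?_⟩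
  · exact (PosDef.one.smul hl).add_posSemidef (hG k m)
  · simp only [hm k hk m, smul_add, smul_smul]
    have : l • (1 : Matrix ι ι ℝ) = (1 / 2 * l) • 1 + (1 / 2 * l) • 1 := by
      rw [← add_smul]; congr 1; ring
    rw [this]
    abel

/-- **the exact gap identity on the tree for `s = 1`**: the sum of the child-weighted squares of
`ze = dq - dT T⁻¹ q` is the END value minus the top value. -/
theorem gap_tree_one {n : ℕ} {T : ℕ → ℤ → Matrix ι ι ℝ} (h : Tr1 n T) {q : ℕ → ℤ → ι → ℝ}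
    (hq : ∀ k < n, ∀ m, q (k + 1) m = (1 / 2 : ℝ) • (q k (2 * m) + q k (2 * m + 1)))
    {k : ℕ} (hk : k ≤ n) (m : ℤ) :
    H420.tsum (fun j i => (1 / 2) * (ze T q j i ⬝ᵥ (T (j - 1) (2 * i))⁻¹ *ᵥ ze T q j i +
        ze T q j i ⬝ᵥ (T (j - 1) (2 * i + 1))⁻¹ *ᵥ ze T q j i)) k m =
      tmean (fun i => q 0 i ⬝ᵥ (T 0 i)⁻¹ *ᵥ q 0 i) k m - q k m ⬝ᵥ (T k m)⁻¹ *ᵥ q k m := by
  refine tsum_eq_mean (F := fun j i => q j i ⬝ᵥ (T j i)⁻¹ *ᵥ q j i) (fun j hj i => ?_) k hk m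
  have eT := half_facts (T j (2 * i)) (T j (2 * i + 1))
  rw [← h.mean j hj i] at eT
  have h1 := mean_inv (h.pd j (2 * i)) (h.pd j (2 * i + 1)) (h.pd (j + 1) i) eT.1 eT.2
    (q (j + 1) i) (hd q (j + 1) i)
  have e := half_vec (q j (2 * i)) (q j (2 * i + 1))
  rw [← hq j hj i] at e
  have e1 : q (j + 1) i + hd q (j + 1) i = q j (2 * i) := e.1
  have e2 : q (j + 1) i - hd q (j + 1) i = q j (2 * i + 1) := e.2
  rw [e1, e2] at h1
  have e3 : ze T q (j + 1) i = hd q (j + 1) i -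
      ((1 / 2 : ℝ) • (T j (2 * i) - T j (2 * i + 1))) *ᵥ ((T (j + 1) i)⁻¹ *ᵥ q (j + 1) i) := rfl
  rw [← e3] at h1
  simp only [Nat.add_sub_cancel]
  linarith

/-- the same with the weight of the parent (an inequality). -/
theorem gap_tree_one' {n : ℕ} {T : ℕ → ℤ → Matrix ι ι ℝ} (h : Tr1 n T) {q : ℕ → ℤ → ι → ℝ}
    (hq : ∀ k < n, ∀ m, q (k + 1) m = (1 / 2 : ℝ) • (q k (2 * m) + q k (2 * m + 1)))
    {k : ℕ} (hk : k ≤ n) (m : ℤ) :
    H420.tsum (fun j i => ze T q j i ⬝ᵥ (T j i)⁻¹ *ᵥ ze T q j i) k m ≤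
      tmean (fun i => q 0 i ⬝ᵥ (T 0 i)⁻¹ *ᵥ q 0 i) k m - q k m ⬝ᵥ (T k m)⁻¹ *ᵥ q k m := by
  rw [← gap_tree_one h hq hk m]
  refine tsum_mono (n := n) (fun j hj i => ?_) k hk m
  have eT := half_facts (T j (2 * i)) (T j (2 * i + 1))
  rw [← h.mean j hj i] at eT
  exact mean_inv_ge (h.pd j (2 * i)) (h.pd j (2 * i + 1)) (h.pd (j + 1) i) eT.1 eT.2 _

/-- **the exact increment of `y = T⁻¹ q`** along the tree: `y' = y ± T'⁻¹ ze`. -/
theorem y_step {n : ℕ} {T : ℕ → ℤ → Matrix ι ι ℝ} (h : Tr1 n T) {q : ℕ → ℤ → ι → ℝ}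
    (hq : ∀ k < n, ∀ m, q (k + 1) m = (1 / 2 : ℝ) • (q k (2 * m) + q k (2 * m + 1)))
    {k : ℕ} (hk : k < n) (m : ℤ) :
    (T k (2 * m))⁻¹ *ᵥ q k (2 * m) = (T (k + 1) m)⁻¹ *ᵥ q (k + 1) m +
        (T k (2 * m))⁻¹ *ᵥ ze T q (k + 1) m ∧
      (T k (2 * m + 1))⁻¹ *ᵥ q k (2 * m + 1) = (T (k + 1) m)⁻¹ *ᵥ q (k + 1) m -
        (T k (2 * m + 1))⁻¹ *ᵥ ze T q (k + 1) m := by
  have eT := half_facts (T k (2 * m)) (T k (2 * m + 1))
  rw [← h.mean k hk m] at eT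
  have h1 := ridge_half (h.pd k (2 * m)) (h.pd k (2 * m + 1)) (h.pd (k + 1) m) eT.1 eT.2
    (q (k + 1) m) (hd q (k + 1) m)
  have e := half_vec (q k (2 * m)) (q k (2 * m + 1))
  rw [← hq k hk m] at e
  have e1 : q (k + 1) m + hd q (k + 1) m = q k (2 * m) := e.1
  have e2 : q (k + 1) m - hd q (k + 1) m = q k (2 * m + 1) := e.2
  rw [e1, e2] at h1
  exact h1

/-- **the logarithmic determinant sum**: for `T = l + G`,
`SUM tr (T⁻¹ dG T⁻¹ dG) ≤ 2 tr G_top / l`. -/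
theorem log_det_tree {l : ℝ} (hl : 0 < l) {n : ℕ} {G : ℕ → ℤ → Matrix ι ι ℝ}
    (hG : ∀ k m, (G k m).PosSemidef)
    (hm : ∀ k < n, ∀ m, G (k + 1) m = (1 / 2 : ℝ) • (G k (2 * m) + G k (2 * m + 1)))
    {k : ℕ} (hk : k ≤ n) (m : ℤ) :
    H420.tsum (fun j i => ((l • (1 : Matrix ι ι ℝ) + G j i)⁻¹ * hd G j i *
      (l • (1 : Matrix ι ι ℝ) + G j i)⁻¹ * hd G j i).trace) k m ≤ 2 * ((G k m).trace / l) := by
  have key := tsum_le (f := fun j i => ((l • (1 : Matrix ι ι ℝ) + G j i)⁻¹ * hd G j i *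
      (l • (1 : Matrix ι ι ℝ) + G j i)⁻¹ * hd G j i).trace)
    (F := fun j i => 2 * Real.log (l • (1 : Matrix ι ι ℝ) + G j i).det)
    (b := 2 * (Fintype.card ι * Real.log l)) (n := n) (fun j hj i => ?_)
    (fun i => by have := log_det_bot (hG 0 i) hl; linarith) k hk m
  · refine key.trans ?_
    have := log_det_top (hG k m) hl
    linarith
  · have e := half_facts (G j (2 * i)) (G j (2 * i + 1))
    rw [← hm j hj i] at e
    have e1 : l • (1 : Matrix ι ι ℝ) + G (j + 1) i + hd G (j + 1) i =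
        l • (1 : Matrix ι ι ℝ) + G j (2 * i) := by
      rw [add_assoc]; congr 1; exact e.1
    have e2 : l • (1 : Matrix ι ι ℝ) + G (j + 1) i - hd G (j + 1) i =
        l • (1 : Matrix ι ι ℝ) + G j (2 * i + 1) := by
      rw [add_sub_assoc]; congr 1; exact e.2
    have hH : (hd G (j + 1) i).IsHermitian := by
      have h1 := (hG j (2 * i)).isHermitian.sub (hG j (2 * i + 1)).isHermitian
      exact h1.smul (by simp [IsSelfAdjoint])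
    have h1 := log_det_step (T := l • (1 : Matrix ι ι ℝ) + G (j + 1) i) (X := hd G (j + 1) i)
      ((PosDef.one.smul hl).add_posSemidef (hG _ _)) hH
      (by rw [e1]; exact (PosDef.one.smul hl).add_posSemidef (hG _ _))
      (by rw [e2]; exact (PosDef.one.smul hl).add_posSemidef (hG _ _))
    rw [e1, e2] at h1
    linarith

end Vale.Agent.P141.H483
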