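import Vale.Agent.P141.H540.GenRA
import Vale.Agent.P141.H543.NumTF
import Vale.Agent.P141.H876.ShiftA
import Vale.Agent.P141.H747.FormsPM

/-!
# P141, line (A): the numbers of the moving slot on the shifted grids

Letters of `H841.Lay` and `H747.FormsPM`; the label matrices `Mx x1`, the signs `sx x1` of the
label point are arbitrary (`RT` and the generations of `H540.GenRA` are instances).

* `Rx`, `Dx` : the slot and its move on the grid `(h, h1)`, letters of `H747.Rg`; `mvX` : the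
  structure `H543.Mv`; `Dx_pt` : the move at a point is a half difference of `H841.Rs`;
* `num_D`, `num_R`, `num_DR` : the numbers of the slot on one shifted grid, for the translated
  family `shC`, are at most the numbers in the original coordinates;
* `uc`, `Rm_cut` : the label functions can be cut to the root;
* `Q_sum` : the sum over the root of the masses at the end, `Q_cls` the same for class data.
-/

namespace Vale.Agent.P141.H483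

open Finset Matrix
open Vale.Agent.P141.PL (Pt iv hs ix mem_iv ix_ix)
open Vale.Agent.P141.H43 (avv nsq nsq_nonneg)
open Vale.Agent.P141.H747 (sft shC)
open Vale.Agent.P141.H677 (KT GT MT RT)

noncomputable section

open scoped Classical

set_option linter.unusedSectionVars false

variable {ι : Type} [Fintype ι] [DecidableEq ι]

/-! ### The slot on a grid -/

section slot

variable (Mx : ℤ → ℕ → ℤ → Matrix ι ι ℝ) (o : ℤ) (sx : ℤ → ℕ → ℤ → ℤ → ℝ) (K : ℕ)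

/-- the slot of the grid `(h, h1)` in `(x3, x1)` on the cell `n` of scale `k` -/
def Rx (h h1 x0 : ℤ) (k : ℕ) (n x : ℤ) : Matrix ι ι ℝ :=
  H841.Rs (Mx (x + h1)) o (x + h1) (sx (x + h1)) K h k x0 n

/-- the move of the slot on the cell `n` of scale `k` -/
def Dx (h h1 x0 : ℤ) (k : ℕ) (n x : ℤ) : Matrix ι ι ℝ :=
  (1 / 2 : ℝ) • (Rx Mx o sx K h h1 x0 (k - 1) (2 * n) x -
    Rx Mx o sx K h h1 x0 (k - 1) (2 * n + 1) x)

/-- the slot of the shift `h` at the point `(z, x)`, original coordinates -/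
def YR (h x0 : ℤ) (k : ℕ) (z x : ℤ) : Matrix ι ι ℝ :=
  H841.Rs (Mx x) o x (sx x) K h k x0 (ix k (z - h))

variable {Mx o sx K}

theorem Rx_half (h h1 x0 : ℤ) (k : ℕ) (n x : ℤ) :
    Rx Mx o sx K h h1 x0 (k + 1) n x = (1 / 2 : ℝ) •
      (Rx Mx o sx K h h1 x0 k (2 * n) x + Rx Mx o sx K h h1 x0 k (2 * n + 1) x) := by
  unfold Rx H841.Rs
  exact H43.avv_half ..

theorem Rx_left (h h1 x0 : ℤ) (k : ℕ) (n x : ℤ) :
    Rx Mx o sx K h h1 x0 k (2 * n) x =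
      Rx Mx o sx K h h1 x0 (k + 1) n x + Dx Mx o sx K h h1 x0 (k + 1) n x := by
  rw [Rx_half, Dx, Nat.add_sub_cancel]
  module

theorem Rx_right (h h1 x0 : ℤ) (k : ℕ) (n x : ℤ) :
    Rx Mx o sx K h h1 x0 k (2 * n + 1) x =
      Rx Mx o sx K h h1 x0 (k + 1) n x - Dx Mx o sx K h h1 x0 (k + 1) n x := by
  rw [Rx_half, Dx, Nat.add_sub_cancel]
  module

theorem Rx_symm (hM : ∀ x k m, (Mx x k m)ᵀ = Mx x k m) (h h1 x0 : ℤ) (k : ℕ) (n x : ℤ) :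
    (Rx Mx o sx K h h1 x0 k n x)ᵀ = Rx Mx o sx K h h1 x0 k n x := by
  unfold Rx H841.Rs H43.avv H841.Rm H841.Lm
  simp only [transpose_smul, transpose_sum, hM]

theorem Dx_symm (hM : ∀ x k m, (Mx x k m)ᵀ = Mx x k m) (h h1 x0 : ℤ) (k : ℕ) (n x : ℤ) :
    (Dx Mx o sx K h h1 x0 k n x)ᵀ = Dx Mx o sx K h h1 x0 k n x := by
  unfold Dx
  rw [transpose_smul, transpose_sub, Rx_symm hM, Rx_symm hM]

/-- **the moving family of one grid** -/
theorem mvX (hM : ∀ x k m, (Mx x k m)ᵀ = Mx x k m) (h h1 x0 : ℤ) :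
    H543.Mv K (fun x k n => Rx Mx o sx K h h1 x0 k n x)
      (fun x k n => Dx Mx o sx K h h1 x0 k n x) where
  symR x k n := Rx_symm hM h h1 x0 k n x
  symD x k n := Dx_symm hM h h1 x0 k n x
  left x k n _ := Rx_left h h1 x0 k n x
  right x k n _ := Rx_right h h1 x0 k n x

theorem Rx_YR (h h1 x0 : ℤ) (k : ℕ) (z x : ℤ) :
    Rx Mx o sx K h h1 x0 k (ix k z) x = YR Mx o sx K h x0 k (z + h) (x + h1) := by
  unfold Rx YR
  rw [add_sub_cancel_right]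

/-- the move at a point, up to the sign -/
theorem Dx_pt (h h1 x0 : ℤ) (k : ℕ) (z x : ℤ) :
    Dx Mx o sx K h h1 x0 (k + 1) (ix (k + 1) z) x =
        YR Mx o sx K h x0 k (z + h) (x + h1) - YR Mx o sx K h x0 (k + 1) (z + h) (x + h1) ∨
      Dx Mx o sx K h h1 x0 (k + 1) (ix (k + 1) z) x =
        -(YR Mx o sx K h x0 k (z + h) (x + h1) - YR Mx o sx K h x0 (k + 1) (z + h) (x + h1)) := by
  rw [← Rx_YR, ← Rx_YR]
  have e := H841.ix_half k z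
  have h2 : ix k z = 2 * ix (k + 1) z ∨ ix k z = 2 * ix (k + 1) z + 1 := by omega
  rcases h2 with h2 | h2
  · left
    rw [h2, Rx_left]
    abel
  · right
    rw [h2, Rx_right]
    abel

theorem nsq_neg (a : ι → ℝ) : nsq (-a) = nsq a := by
  unfold H43.nsq
  rw [neg_dotProduct_neg]

theorem nsq_Dx (h h1 x0 : ℤ) (k : ℕ) (z x : ℤ) (w : ι → ℝ) :
    nsq (Dx Mx o sx K h h1 x0 (k + 1) (ix (k + 1) z) x *ᵥ w) =
      nsq ((YR Mx o sx K h x0 k (z + h) (x + h1) -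
        YR Mx o sx K h x0 (k + 1) (z + h) (x + h1)) *ᵥ w) := by
  rcases Dx_pt (Mx := Mx) (o := o) (sx := sx) (K := K) h h1 x0 k z x with e | e
  · rw [e]
  · rw [e, neg_mulVec, nsq_neg]

end slot

/-! ### One shifted grid -/

/-- one line -/
theorem grid1 (N : ℕ) (R M a : ℤ) (f : ℤ → ℝ) (hf : ∀ x ∈ iv N M, 0 ≤ f x) :
    ∑ x ∈ iv N R, (if ix N (x + a) = M then f (x + a) else 0) ≤ ∑ x ∈ iv N M, f x := by
  rw [← sum_filter]
  have e1 : ∑ x ∈ (iv N R).filter (fun x => ix N (x + a) = M), f (x + a) =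
      ∑ y ∈ ((iv N R).filter (fun x => ix N (x + a) = M)).image (fun x => x + a), f y := by
    rw [sum_image]
    intro x _ y _ hxy
    simpa using hxy
  rw [e1]
  refine sum_le_sum_of_subset_of_nonneg (fun y hy => ?_) fun y hy _ => hf y hy
  obtain ⟨x, hx, rfl⟩ := mem_image.1 hy
  rw [mem_filter] at hx
  exact mem_iv.2 hx.2

/-- **one shifted grid** -/
theorem grid2 (N : ℕ) (R1 R3 M1 M3 a b : ℤ) (Φ : ℤ → ℤ → ℝ)
    (hΦ : ∀ x ∈ iv N M1, ∀ z ∈ iv N M3, 0 ≤ Φ z x) :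
    ∑ x ∈ iv N R1, ∑ z ∈ iv N R3,
        (if ix N (z + a) = M3 ∧ ix N (x + b) = M1 then Φ (z + a) (x + b) else 0) ≤
      ∑ x ∈ iv N M1, ∑ z ∈ iv N M3, Φ z x := by
  refine le_trans (sum_le_sum fun x _ => ?_)
    (grid1 N R1 M1 b (fun x => ∑ z ∈ iv N M3, Φ z x) fun x hx => sum_nonneg fun z hz => hΦ x hx z hz)
  by_cases hx : ix N (x + b) = M1
  · simp only [hx, and_true, if_true]
    exact grid1 N R3 M3 a (fun z => Φ z (x + b)) fun z hz => hΦ _ (mem_iv.2 hx) z hz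
  · simp only [hx, and_false, if_false, sum_const_zero, le_refl]

section num

variable {Mx : ℤ → ℕ → ℤ → Matrix ι ι ℝ} {o : ℤ} {sx : ℤ → ℕ → ℤ → ℤ → ℝ} {K : ℕ}

/-- **Change of variables**, one scale, one `x₀`: `G` any functional of the point and of the vector,
zero at the vector zero. -/
theorem sum_shC (M s : Pt) (R1 R3 : ℤ) (C : ℕ → ℤ → ℤ → ι → ℝ) (k : ℕ)
    (G : ℤ → ℤ → (ι → ℝ) → ℝ) (hG0 : ∀ z x, G z x 0 = 0)
    (hG : ∀ z x w, 0 ≤ G z x w) :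
    ∑ x ∈ iv K R1, ∑ z ∈ iv K R3, G (z + s.2.2) (x + s.1) (shC K M s C k z x) ≤
      ∑ x ∈ iv K M.1, ∑ z ∈ iv K M.2.2, G z x (C k z x) := by
  refine le_trans (le_of_eq ?_) (grid2 K R1 R3 M.1 M.2.2 s.2.2 s.1 (fun z x => G z x (C k z x))
    fun x _ z _ => hG _ _ _)
  refine sum_congr rfl fun x _ => sum_congr rfl fun z _ => ?_
  unfold H747.shC H747.sft
  split_ifs
  · rfl
  · exact hG0 _ _

/-- **the number of the moves** -/
theorem num_D (M s : Pt) (R1 R3 x0 : ℤ) (C : ℕ → ℤ → ℤ → ι → ℝ) (k j : ℕ) :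
    ∑ x ∈ iv K R1, ∑ z ∈ iv K R3,
        nsq (Dx Mx o sx K s.2.2 s.1 x0 (k + 1) (ix (k + 1) z) x *ᵥ shC K M s C j z x) ≤
      ∑ x ∈ iv K M.1, ∑ z ∈ iv K M.2.2,
        nsq ((YR Mx o sx K s.2.2 x0 k z x - YR Mx o sx K s.2.2 x0 (k + 1) z x) *ᵥ C j z x) := by
  simp only [nsq_Dx]
  exact sum_shC (K := K) M s R1 R3 C j (fun z x w =>
    nsq ((YR Mx o sx K s.2.2 x0 k z x - YR Mx o sx K s.2.2 x0 (k + 1) z x) *ᵥ w))
    (fun z x => by simp only [mulVec_zero, H841.nsq_zero]) fun z x w => nsq_nonneg _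

/-- **the energy of the slot** -/
theorem num_R (M s : Pt) (R1 R3 x0 : ℤ) (C : ℕ → ℤ → ℤ → ι → ℝ) (k j : ℕ) :
    ∑ x ∈ iv K R1, ∑ z ∈ iv K R3,
        nsq (Rx Mx o sx K s.2.2 s.1 x0 k (ix k z) x *ᵥ shC K M s C j z x) ≤
      ∑ x ∈ iv K M.1, ∑ z ∈ iv K M.2.2, nsq (YR Mx o sx K s.2.2 x0 k z x *ᵥ C j z x) := by
  simp only [Rx_YR]
  exact sum_shC (K := K) M s R1 R3 C j (fun z x w => nsq (YR Mx o sx K s.2.2 x0 k z x *ᵥ w))
    (fun z x => by simp only [mulVec_zero, H841.nsq_zero]) fun z x w => nsq_nonneg _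

/-- **the number of the products** -/
theorem num_DR (M s : Pt) (R1 R3 x0 : ℤ) (C : ℕ → ℤ → ℤ → ι → ℝ) (k j : ℕ) :
    ∑ x ∈ iv K R1, ∑ z ∈ iv K R3,
        nsq (Dx Mx o sx K s.2.2 s.1 x0 (k + 1) (ix (k + 1) z) x *ᵥ
          (Rx Mx o sx K s.2.2 s.1 x0 (k + 1) (ix (k + 1) z) x *ᵥ shC K M s C j z x)) ≤
      ∑ x ∈ iv K M.1, ∑ z ∈ iv K M.2.2,
        nsq ((YR Mx o sx K s.2.2 x0 k z x - YR Mx o sx K s.2.2 x0 (k + 1) z x) *ᵥ
          (YR Mx o sx K s.2.2 x0 (k + 1) z x *ᵥ C j z x)) := by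
  simp only [nsq_Dx, Rx_YR]
  exact sum_shC (K := K) M s R1 R3 C j (fun z x w =>
    nsq ((YR Mx o sx K s.2.2 x0 k z x - YR Mx o sx K s.2.2 x0 (k + 1) z x) *ᵥ
      (YR Mx o sx K s.2.2 x0 (k + 1) z x *ᵥ w)))
    (fun z x => by simp only [mulVec_zero, H841.nsq_zero]) fun z x w => nsq_nonneg _

end num

/-! ### One shifted grid, summed over `x₀` and over the scales -/

section path

variable {Mx : ℤ → ℕ → ℤ → Matrix ι ι ℝ} {o : ℤ} {sx : ℤ → ℕ → ℤ → ℤ → ℝ} {K : ℕ}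

/-- order of the sums -/
theorem sum4 {A B : Finset ℤ} {X : Finset ℤ} {S : Finset ℕ} (f : ℤ → ℕ → ℤ → ℤ → ℝ) :
    ∑ x0 ∈ X, ∑ k ∈ S, ∑ x ∈ A, ∑ z ∈ B, f x0 k x z =
      ∑ x ∈ A, ∑ z ∈ B, ∑ k ∈ S, ∑ x0 ∈ X, f x0 k x z := by
  rw [sum_comm]
  have h1 : ∀ k ∈ S, ∑ x0 ∈ X, ∑ x ∈ A, ∑ z ∈ B, f x0 k x z =
      ∑ x ∈ A, ∑ z ∈ B, ∑ x0 ∈ X, f x0 k x z := by
    intro k _
    rw [sum_comm]
    exact sum_congr rfl fun x _ => sum_comm
  rw [sum_congr rfl h1, sum_comm]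
  exact sum_congr rfl fun x _ => sum_comm

/-- **The moves of the slot, one shifted grid**, in the shape of the left side of `H876.S2` with the
weights `φ x₀ (k + 1) z x ^ 2`. -/
theorem num_q (M s : Pt) (R1 R3 : ℤ) (X : Finset ℤ) {C : ℤ → ℕ → ℤ → ℤ → ι → ℝ}
    {φ : ℤ → ℕ → ℤ → ℤ → ℝ} {v : ℤ → ℤ → ι → ℝ} (hC : ∀ x0 k z x, C x0 k z x = φ x0 k z x • v x z)
    {B : ℤ → ℝ}
    (hB : ∀ x ∈ iv K M.1, ∑ z ∈ iv K M.2.2, ∑ k ∈ range K, ∑ x0 ∈ X, φ x0 (k + 1) z x ^ 2 *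
      nsq ((H841.Rs (Mx x) o x (sx x) K s.2.2 k x0 (ix k (z - s.2.2)) -
        H841.Rs (Mx x) o x (sx x) K s.2.2 (k + 1) x0 (ix (k + 1) (z - s.2.2))) *ᵥ v x z) ≤ B x) :
    ∑ x0 ∈ X, ∑ k ∈ range K, ∑ x ∈ iv K R1, ∑ z ∈ iv K R3,
        nsq (Dx Mx o sx K s.2.2 s.1 x0 (k + 1) (ix (k + 1) z) x *ᵥ
          shC K M s (C x0) (k + 1) z x) ≤ ∑ x ∈ iv K M.1, B x := by
  refine (sum_le_sum fun x0 _ => sum_le_sum fun k _ =>
    num_D (Mx := Mx) (o := o) (sx := sx) (K := K) M s R1 R3 x0 (C x0) k (k + 1)).trans ?_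
  rw [sum4]
  refine (sum_le_sum fun x hx => ?_).trans (sum_le_sum hB)
  refine le_of_eq (sum_congr rfl fun z _ => sum_congr rfl fun k _ => sum_congr rfl fun x0 _ => ?_)
  rw [hC, mulVec_smul, H841.nsq_smul]
  rfl

/-- **The products** `D R c` -/
theorem num_q2 (M s : Pt) (R1 R3 : ℤ) (X : Finset ℤ) {C : ℤ → ℕ → ℤ → ℤ → ι → ℝ}
    {φ : ℤ → ℕ → ℤ → ℤ → ℝ} {v : ℤ → ℤ → ι → ℝ} (hC : ∀ x0 k z x, C x0 k z x = φ x0 k z x • v x z)
    {B : ℤ → ℝ}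
    (hB : ∀ x ∈ iv K M.1, ∑ z ∈ iv K M.2.2, ∑ k ∈ range K, ∑ x0 ∈ X, φ x0 (k + 1) z x ^ 2 *
      nsq ((H841.Rs (Mx x) o x (sx x) K s.2.2 k x0 (ix k (z - s.2.2)) -
        H841.Rs (Mx x) o x (sx x) K s.2.2 (k + 1) x0 (ix (k + 1) (z - s.2.2))) *ᵥ
        (H841.Rs (Mx x) o x (sx x) K s.2.2 (k + 1) x0 (ix (k + 1) (z - s.2.2)) *ᵥ v x z)) ≤ B x) :
    ∑ x0 ∈ X, ∑ k ∈ range K, ∑ x ∈ iv K R1, ∑ z ∈ iv K R3,
        nsq (Dx Mx o sx K s.2.2 s.1 x0 (k + 1) (ix (k + 1) z) x *ᵥ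
          (Rx Mx o sx K s.2.2 s.1 x0 (k + 1) (ix (k + 1) z) x *ᵥ
            shC K M s (C x0) (k + 1) z x)) ≤ ∑ x ∈ iv K M.1, B x := by
  refine (sum_le_sum fun x0 _ => sum_le_sum fun k _ =>
    num_DR (Mx := Mx) (o := o) (sx := sx) (K := K) M s R1 R3 x0 (C x0) k (k + 1)).trans ?_
  rw [sum4]
  refine (sum_le_sum fun x hx => ?_).trans (sum_le_sum hB)
  refine le_of_eq (sum_congr rfl fun z _ => sum_congr rfl fun k _ => sum_congr rfl fun x0 _ => ?_)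
  rw [hC, mulVec_smul, mulVec_smul, H841.nsq_smul]
  rfl

/-- **The energy of the slot at one scale** -/
theorem num_e (M s : Pt) (R1 R3 : ℤ) (X : Finset ℤ) {C : ℤ → ℕ → ℤ → ℤ → ι → ℝ}
    {φ : ℤ → ℕ → ℤ → ℤ → ℝ} {v : ℤ → ℤ → ι → ℝ} (hC : ∀ x0 k z x, C x0 k z x = φ x0 k z x • v x z)
    (k j : ℕ) {B : ℤ → ℝ}
    (hB : ∀ x ∈ iv K M.1, ∑ z ∈ iv K M.2.2, ∑ x0 ∈ X, φ x0 j z x ^ 2 *
      nsq (H841.Rs (Mx x) o x (sx x) K s.2.2 k x0 (ix k (z - s.2.2)) *ᵥ v x z) ≤ B x) :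
    ∑ x0 ∈ X, ∑ x ∈ iv K R1, ∑ z ∈ iv K R3,
        nsq (Rx Mx o sx K s.2.2 s.1 x0 k (ix k z) x *ᵥ shC K M s (C x0) j z x) ≤
      ∑ x ∈ iv K M.1, B x := by
  refine (sum_le_sum fun x0 _ =>
    num_R (Mx := Mx) (o := o) (sx := sx) (K := K) M s R1 R3 x0 (C x0) k j).trans ?_
  have h4 := sum4 (A := iv K M.1) (B := iv K M.2.2) (X := X) (S := {0})
    (fun x0 _ x z => nsq (YR Mx o sx K s.2.2 x0 k z x *ᵥ C x0 j z x))
  simp only [sum_singleton] at h4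
  rw [h4]
  refine (sum_le_sum fun x hx => ?_).trans (sum_le_sum hB)
  refine le_of_eq (sum_congr rfl fun z _ => sum_congr rfl fun x0 _ => ?_)
  rw [hC, mulVec_smul, H841.nsq_smul]
  rfl

/-- **The rows affected at the time `k`**: `Af` any predicate of the scale, of `x₀`, and of the
points `(z, x)` of the grid; the mass of the time `k + 1` with the weight of the scale `k`. -/
theorem num_a (M s : Pt) (R1 R3 : ℤ) (X : Finset ℤ) {C : ℤ → ℕ → ℤ → ℤ → ι → ℝ}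
    {φ : ℤ → ℕ → ℤ → ℤ → ℝ} {v : ℤ → ℤ → ι → ℝ} (hC : ∀ x0 k z x, C x0 k z x = φ x0 k z x • v x z)
    (Af : ℤ → ℕ → ℤ → ℤ → Prop) {B : ℤ → ℝ}
    (hB : ∀ x ∈ iv K M.1, ∑ z ∈ iv K M.2.2, ∑ k ∈ range K, ∑ x0 ∈ X,
      (if Af x0 k (z - s.2.2) (x - s.1) then φ x0 (k + 1) z x ^ 2 *
      nsq (H841.Rs (Mx x) o x (sx x) K s.2.2 k x0 (ix k (z - s.2.2)) *ᵥ v x z) else 0) ≤ B x) :
    ∑ x0 ∈ X, ∑ k ∈ range K, ∑ x ∈ iv K R1, ∑ z ∈ iv K R3, (if Af x0 k z x then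
        nsq (Rx Mx o sx K s.2.2 s.1 x0 k (ix k z) x *ᵥ shC K M s (C x0) (k + 1) z x) else 0) ≤
      ∑ x ∈ iv K M.1, B x := by
  have h1 : ∀ x0 ∈ X, ∀ k ∈ range K, ∑ x ∈ iv K R1, ∑ z ∈ iv K R3, (if Af x0 k z x then
        nsq (Rx Mx o sx K s.2.2 s.1 x0 k (ix k z) x *ᵥ shC K M s (C x0) (k + 1) z x) else 0) ≤
      ∑ x ∈ iv K M.1, ∑ z ∈ iv K M.2.2, (if Af x0 k (z - s.2.2) (x - s.1) then
        nsq (YR Mx o sx K s.2.2 x0 k z x *ᵥ C x0 (k + 1) z x) else 0) := by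
    intro x0 _ k _
    simp only [Rx_YR]
    have h2 := sum_shC (K := K) M s R1 R3 (C x0) (k + 1) (fun z x w =>
      if Af x0 k (z - s.2.2) (x - s.1) then nsq (YR Mx o sx K s.2.2 x0 k z x *ᵥ w) else 0)
      (fun z x => by simp only [mulVec_zero, H841.nsq_zero, ite_self])
      (fun z x w => by
        split_ifs
        · exact nsq_nonneg _
        · exact le_rfl)
    simp only [add_sub_cancel_right] at h2
    exact h2
  refine (sum_le_sum fun x0 hx0 => sum_le_sum fun k hk => h1 x0 hx0 k hk).trans ?_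
  rw [sum4]
  refine (sum_le_sum fun x hx => ?_).trans (sum_le_sum hB)
  refine le_of_eq (sum_congr rfl fun z _ => sum_congr rfl fun k _ => sum_congr rfl fun x0 _ => ?_)
  rw [hC, mulVec_smul, H841.nsq_smul]
  rfl

end path

/-! ### The label functions cut to the root -/

/-- the label functions, cut to the root in `x2` -/
def uc (K : ℕ) (M2 : ℤ) (u : ℤ → ℤ → ι → ℝ) (x1 x2 : ℤ) : ι → ℝ :=
  if ix K x2 = M2 then u x1 x2 else 0

section cut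

variable {K : ℕ} {M2 : ℤ} {u : ℤ → ℤ → ι → ℝ} {l : ℝ}

theorem uc_in {x1 x2 : ℤ} (h : ix K x2 = M2) : uc K M2 u x1 x2 = u x1 x2 := by
  unfold uc
  rw [if_pos h]

theorem uc_out {x1 x2 : ℤ} (h : ix K x2 ≠ M2) : uc K M2 u x1 x2 = 0 := by
  unfold uc
  rw [if_neg h]

theorem GT_cut {k : ℕ} (hk : k ≤ K) {m : ℤ} (hm : ix (K - k) m = M2) (x1 : ℤ) :
    GT (uc K M2 u) x1 k m = GT u x1 k m := by
  unfold H677.GT H677.mT
  congr 1
  refine sum_congr rfl fun x hx => ?_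
  rw [mem_iv] at hx
  have e : ix K x = M2 := by
    rw [← hm, ← hx, ix_ix, Nat.add_sub_cancel' hk]
  beta_reduce
  rw [uc_in e]

theorem GT_out {k : ℕ} (hk : k ≤ K) {m : ℤ} (hm : ix (K - k) m ≠ M2) (x1 : ℤ) :
    GT (uc K M2 u) x1 k m = 0 := by
  unfold H677.GT H677.mT
  rw [sum_eq_zero, smul_zero]
  intro x hx
  rw [mem_iv] at hx
  have e : ix K x ≠ M2 := by
    rw [show K = k + (K - k) by omega, ← ix_ix, hx]
    exact hm
  rw [uc_out e]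
  simp

theorem KT_congr {u u' : ℤ → ℤ → ι → ℝ} {x1 : ℤ} {k : ℕ} {m : ℤ}
    (h : GT u x1 k m = GT u' x1 k m) : KT l u x1 k m = KT l u' x1 k m := by
  unfold H677.KT
  simp only [h]

theorem ix_child (j : ℕ) (m : ℤ) : ix (j + 1) (2 * m) = ix j m ∧ ix (j + 1) (2 * m + 1) = ix j m := by
  have e1 : ix 1 (2 * m) = m := by
    unfold PL.ix
    omega
  have e2 : ix 1 (2 * m + 1) = m := by
    unfold PL.ix
    omega
  have f : ∀ x : ℤ, ix (j + 1) x = ix j (ix 1 x) := fun x => by rw [ix_ix, add_comm]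
  rw [f, f, e1, e2]
  exact ⟨rfl, rfl⟩

/-- the label matrices of the cells of the root -/
theorem MT_cut {k : ℕ} (hk : k + 1 ≤ K) {m : ℤ} (hm : ix (K - (k + 1)) m = M2) (x1 : ℤ) :
    MT l (KT l (uc K M2 u) x1) (k + 1) m = MT l (KT l u x1) (k + 1) m := by
  have e : K - k = (K - (k + 1)) + 1 := by omega
  obtain ⟨c1, c2⟩ := ix_child (K - (k + 1)) m
  have h1 : KT l (uc K M2 u) x1 k (2 * m) = KT l u x1 k (2 * m) :=
    KT_congr (GT_cut (by omega) (by rw [e, c1, hm]) x1)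
  have h2 : KT l (uc K M2 u) x1 k (2 * m + 1) = KT l u x1 k (2 * m + 1) :=
    KT_congr (GT_cut (by omega) (by rw [e, c2, hm]) x1)
  have h3 : KT l (uc K M2 u) x1 (k + 1) m = KT l u x1 (k + 1) m :=
    KT_congr (GT_cut hk hm x1)
  unfold H677.MT hd
  rw [Nat.add_sub_cancel, h1, h2, h3]

/-- **the slot does not see the label functions outside of the root**, if the signs live on it -/
theorem Rm_cut {o x1 : ℤ} {s : ℕ → ℤ → ℤ → ℝ}
    (hs0 : ∀ k a b, k + 1 ≤ K → ix (K - (k + 1)) (o - 2 - a - ix (k + 1) x1 - b) ≠ M2 →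
      s (k + 1) a b = 0) (j : ℕ) (x0 p : ℤ) :
    H841.Rm (MT l (KT l u x1)) o x1 s K j x0 p =
      H841.Rm (MT l (KT l (uc K M2 u) x1)) o x1 s K j x0 p := by
  unfold H841.Rm
  refine sum_congr rfl fun i hi => ?_
  have hi' : i + 1 ≤ K := by have := (mem_Ico.1 hi).2; omega
  unfold H841.Lm
  have e : H922.ck o x1 p (i + 1) - ix (i + 1) x0 =
      o - 2 - ix (i + 1) x0 - ix (i + 1) x1 - ix (i + 1) p := by
    unfold H922.ck
    ring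
  by_cases h : ix (K - (i + 1)) (o - 2 - ix (i + 1) x0 - ix (i + 1) x1 - ix (i + 1) p) = M2
  · rw [e, MT_cut hi' h]
  · rw [hs0 i _ _ hi' h]
    simp

/-- the same for the averaged slot -/
theorem Rs_cut {o x1 : ℤ} {s : ℕ → ℤ → ℤ → ℝ}
    (hs0 : ∀ k a b, k + 1 ≤ K → ix (K - (k + 1)) (o - 2 - a - ix (k + 1) x1 - b) ≠ M2 →
      s (k + 1) a b = 0) (sh : ℤ) (j : ℕ) (x0 n : ℤ) :
    H841.Rs (MT l (KT l u x1)) o x1 s K sh j x0 n =
      H841.Rs (MT l (KT l (uc K M2 u) x1)) o x1 s K sh j x0 n := by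
  unfold H841.Rs
  congr 1
  funext p
  exact Rm_cut hs0 0 x0 _

/-- the signs of `RT` live on the root -/
theorem s0_root {Al : ℕ → Pt → Prop} {o : ℤ} {P : Pt} {sg : ℕ → Pt → ℝ} {x1 : ℤ} {k : ℕ}
    (a b : ℤ)
    (h : ix (K - (k + 1)) (o - 2 - a - ix (k + 1) x1 - b) ≠ P.2.1) :
    H540.s0 Al o K P sg x1 (k + 1) a b = 0 := by
  unfold H540.s0
  rw [if_neg]
  intro hm
  refine h ?_
  have h1 := H677.sN_sub _ _ _ _ _ _ hm
  unfold PL.H804.bx3 at h1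
  exact mem_iv.1 (mem_product.1 (mem_product.1 (mem_filter.1 h1).1).2).1

end cut

/-! ### The slots `RT` and its generations -/

section inst

variable {Al : ℕ → Pt → Prop} {o : ℤ} {K : ℕ} {M : Pt} {sg : ℕ → Pt → ℝ} {l : ℝ}
  {u : ℤ → ℤ → ι → ℝ} {κ : ℕ → ℝ}

/-- **`H747.Rg` is `Rx`** -/
theorem Rg_Rx (h h1 x0 : ℤ) (k : ℕ) (n x : ℤ) :
    H747.Rg Al o K M sg l u h h1 x0 k n x =
      Rx (fun x1 => MT l (KT l u x1)) o (fun x1 => H540.s0 Al o K M sg x1) K h h1 x0 k n x := by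
  rw [H747.Rg_avv]
  unfold Rx H841.Rs
  congr 1
  funext w
  exact H540.RT_Rm l u 0 x0 (w + h) (x + h1)

/-- the averaged slot of the generation `g` is `Rx` -/
theorem RG_Rx (g : ℕ) (h h1 x0 : ℤ) (k : ℕ) (n x : ℤ) :
    (avv k n fun w => H540.RG Al o K M sg l u κ g 0 x0 (w + h) (x + h1)) =
      Rx (fun x1 => MT l (KT l u x1)) o (fun x1 => H540.sgn Al o K M sg l u κ g x1) K
        h h1 x0 k n x := rfl

theorem MT_symm (hl : 0 < l) (u : ℤ → ℤ → ι → ℝ) (x1 : ℤ) (k : ℕ) (m : ℤ) :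
    (MT l (KT l u x1) k m)ᵀ = MT l (KT l u x1) k m := by
  rw [H540.MT_eq_MX]
  exact H690.MX_symm (H677.tr_T hl k u x1) k m

/-- the label functions cut to the root -/
theorem Rx_cut {sx : ℤ → ℕ → ℤ → ℤ → ℝ}
    (hs0 : ∀ x1 k a b, k + 1 ≤ K → ix (K - (k + 1)) (o - 2 - a - ix (k + 1) x1 - b) ≠ M.2.1 →
      sx x1 (k + 1) a b = 0) :
    Rx (fun x1 => MT l (KT l u x1)) o sx K =
      Rx (fun x1 => MT l (KT l (uc K M.2.1 u) x1)) o sx K := by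
  funext h h1 x0 k n x
  exact Rs_cut (hs0 (x + h1)) h k x0 n

/-- the signs of `RT` -/
theorem s0_cut (x1 : ℤ) (k : ℕ) (a b : ℤ) (_ : k + 1 ≤ K)
    (h : ix (K - (k + 1)) (o - 2 - a - ix (k + 1) x1 - b) ≠ M.2.1) :
    H540.s0 Al o K M sg x1 (k + 1) a b = 0 := s0_root a b h

/-- the signs of the generations -/
theorem sgn_cut (g : ℕ) (x1 : ℤ) (k : ℕ) (a b : ℤ) (hk : k + 1 ≤ K)
    (h : ix (K - (k + 1)) (o - 2 - a - ix (k + 1) x1 - b) ≠ M.2.1) :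
    H540.sgn Al o K M sg l u κ g x1 (k + 1) a b = 0 := by
  rcases H540.sgn_or (Al := Al) (o := o) (K := K) (P := M) (sg := sg) (l := l) (u := u) (κ := κ)
    g x1 (k + 1) a b with e | e
  · rw [e, s0_cut x1 k a b hk h]
  · exact e

end inst

/-! ### The masses at the end, summed over the root -/

/-- the mass of the vector `w` at the point `x1`: the `Q` of `H876.En_sumQ` -/
def Qw (l : ℝ) (K : ℕ) (u : ℤ → ℤ → ι → ℝ) (T x1 M3 : ℤ) (w : ι → ℝ) : ℝ :=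
  (2 * l)⁻¹ * ∑ R ∈ H876.wn K T x1 M3, w ⬝ᵥ GT u x1 K R *ᵥ w

/-- `hX` of `H876.S1`, `H876.S2` -/
theorem Qw_hX {l : ℝ} (hl : 0 < l) (K : ℕ) (u : ℤ → ℤ → ι → ℝ) (T x1 M3 : ℤ) (a : ι → ℝ) :
    ∑ i ∈ range K, H876.En (MT l (KT l u x1)) K T x1 M3 (i + 1) a ≤ 2 ^ K * Qw l K u T x1 M3 a :=
  H876.En_sumQ (H677.tr_T hl K u x1) (fun k m a => H677.MT_mulVec l (KT l u x1) a k m) a

theorem Qw_nonneg {l : ℝ} (hl : 0 < l) (K : ℕ) (u : ℤ → ℤ → ι → ℝ) (T x1 M3 : ℤ) (w : ι → ℝ) :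
    0 ≤ Qw l K u T x1 M3 w :=
  mul_nonneg (by positivity) (sum_nonneg fun R _ => by
    have h := (H677.GT_psd u x1 K R).dotProduct_mulVec_nonneg w
    simpa using h)

/-- one label point -/
theorem Q_sum1 {l : ℝ} (hl : 0 < l) (K : ℕ) (u : ℤ → ℤ → ι → ℝ) (T x1 M3 : ℤ) (S : Finset ℤ)
    (v : ℤ → ι → ℝ) {P : ℝ} (hv : ∀ θ : ι → ℝ, ∑ z ∈ S, (θ ⬝ᵥ v z) ^ 2 ≤ P * (θ ⬝ᵥ θ)) :
    ∑ z ∈ S, Qw l K u T x1 M3 (v z) ≤
      (2 * l)⁻¹ * (P * ∑ R ∈ H876.wn K T x1 M3, (GT u x1 K R).trace) := by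
  unfold Qw
  rw [← mul_sum, sum_comm]
  refine mul_le_mul_of_nonneg_left ?_ (by positivity)
  rw [mul_sum]
  exact sum_le_sum fun R _ => H922.sum_form_le S v hv (H677.GT_psd u x1 K R)

/-- the traces over the window: only the root counts -/
theorem tr_wn (K : ℕ) (u : ℤ → ℤ → ι → ℝ) (M2 T x1 M3 : ℤ) :
    ∑ R ∈ H876.wn K T x1 M3, (GT (uc K M2 u) x1 K R).trace ≤ (GT u x1 K M2).trace := by
  have h0 : 0 ≤ (GT u x1 K M2).trace := (H677.GT_psd u x1 K M2).trace_nonneg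
  have h1 : ∀ R ∈ H876.wn K T x1 M3, (GT (uc K M2 u) x1 K R).trace =
      if R = M2 then (GT u x1 K M2).trace else 0 := by
    intro R _
    have e0 : ∀ x : ℤ, ix (K - K) x = x := fun x => by
      rw [Nat.sub_self]
      exact H540.ix_zero x
    split_ifs with h
    · rw [h, GT_cut le_rfl (e0 M2)]
    · rw [GT_out le_rfl (by rw [e0]; exact h), trace_zero]
  rw [sum_congr rfl h1, sum_ite_eq']
  split_ifs
  · exact le_rfl
  · exact h0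

/-- **The masses at the end, summed over the root.** -/
theorem Q_sum {l : ℝ} (hl : 0 < l) (K : ℕ) (M : Pt) (u v : ℤ → ℤ → ι → ℝ) (T : ℤ) {P : ℝ}
    (hP : 0 ≤ P)
    (hv : ∀ x ∈ iv K M.1, ∀ θ : ι → ℝ, ∑ z ∈ iv K M.2.2, (θ ⬝ᵥ v x z) ^ 2 ≤ P * (θ ⬝ᵥ θ)) :
    ∑ x ∈ iv K M.1, ∑ z ∈ iv K M.2.2, Qw l K (uc K M.2.1 u) T x M.2.2 (v x z) ≤
      (2 * l)⁻¹ * (P * ∑ x ∈ iv K M.1, (GT u x K M.2.1).trace) := by
  refine (sum_le_sum fun x hx => Q_sum1 hl K (uc K M.2.1 u) T x M.2.2 _ (v x) (hv x hx)).trans ?_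
  rw [← mul_sum, ← mul_sum]
  exact mul_le_mul_of_nonneg_left (mul_le_mul_of_nonneg_left
    (sum_le_sum fun x _ => tr_wn K u M.2.1 T x M.2.2) hP) (by positivity)

/-- **The same for class data**: the gain is `P / l`. -/
theorem Q_cls {l : ℝ} (hl : 0 < l) {K : ℕ} {p : Pt} {s r P : ℝ} {U : PL.H315.Tri}
    {g : ℤ → ℤ → ℝ} {u v : ℤ → ℤ → ι → ℝ} (h : H305.Cls K p s r P U g u v) (hP : 0 ≤ P) (T : ℤ) :
    2 ^ K * ∑ x ∈ iv K (PL.cx K p).1, ∑ z ∈ iv K (PL.cx K p).2.2,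
        Qw l K (uc K (PL.cx K p).2.1 u) T x (PL.cx K p).2.2 (v x z) ≤
      (2 * l)⁻¹ * P * s * 8 ^ K := by
  have h2 : (0 : ℝ) < 2 ^ K := by positivity
  have hv : ∀ x ∈ iv K (PL.cx K p).1, ∀ θ : ι → ℝ,
      ∑ z ∈ iv K (PL.cx K p).2.2, (θ ⬝ᵥ v x z) ^ 2 ≤ 2 ^ K * P * (θ ⬝ᵥ θ) := by
    intro x hx θ
    have h3 := h.v_pot x hx θ
    unfold PL.H315.avg at h3
    have e : ((PL.H315.iv K p.2.2).card : ℝ) = 2 ^ K := by
      rw [PL.H315.card_iv]; push_cast; rfl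
    rw [e, inv_mul_le_iff₀ h2] at h3
    calc ∑ z ∈ iv K (PL.cx K p).2.2, (θ ⬝ᵥ v x z) ^ 2
        = ∑ z ∈ PL.H315.iv K p.2.2, (v x z ⬝ᵥ θ) ^ 2 :=
          sum_congr rfl fun z _ => by rw [dotProduct_comm]
      _ ≤ _ := by rw [mul_assoc]; exact h3
  have hs : ∑ x ∈ iv K (PL.cx K p).1, (GT u x K (PL.cx K p).2.1).trace ≤ 2 ^ K * s := by
    have h3 := h.U_u2
    unfold PL.H315.A2 PL.H315.avg at h3
    have e1 : ((PL.H315.iv K p.1).card : ℝ) = 2 ^ K := by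
      rw [PL.H315.card_iv]; push_cast; rfl
    have e2 : ((PL.H315.iv K p.2.1).card : ℝ) = 2 ^ K := by
      rw [PL.H315.card_iv]; push_cast; rfl
    rw [card_product, Nat.cast_mul, e1, e2, inv_mul_le_iff₀ (by positivity), sum_product] at h3
    have h4 : ∑ x ∈ iv K (PL.cx K p).1, (GT u x K (PL.cx K p).2.1).trace ≤
        ∑ x ∈ PL.H315.iv K p.1, (2 ^ K)⁻¹ * ∑ y ∈ PL.H315.iv K p.2.1, U.1 (x, y) ^ 2 := by
      refine sum_le_sum fun x hx => ?_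
      rw [H677.GT_trace]
      exact mul_le_mul_of_nonneg_left (sum_le_sum fun y hy => h.u_le x hx y hy) (by positivity)
    refine h4.trans ?_
    rw [← mul_sum, inv_mul_le_iff₀ h2]
    linarith
  refine (mul_le_mul_of_nonneg_left (Q_sum hl K (PL.cx K p) u v T (P := 2 ^ K * P)
    (by positivity) hv) h2.le).trans ?_
  have h5 : (2 * l)⁻¹ * (2 ^ K * P * ∑ x ∈ iv K (PL.cx K p).1, (GT u x K (PL.cx K p).2.1).trace) ≤
      (2 * l)⁻¹ * (2 ^ K * P * (2 ^ K * s)) :=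
    mul_le_mul_of_nonneg_left (mul_le_mul_of_nonneg_left hs (by positivity)) (by positivity)
  refine (mul_le_mul_of_nonneg_left h5 h2.le).trans (le_of_eq ?_)
  have e8 : (8 : ℝ) ^ K = 2 ^ K * 2 ^ K * 2 ^ K := by rw [← mul_pow, ← mul_pow]; norm_num
  rw [e8]
  ring

end

end Vale.Agent.P141.H483
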