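import Vale.Agent.P141.H677.FlowG
import Vale.Agent.P141.H922.MovR

/-!
# P141, line (A), the number `q` of the moving stack, real ties

Letters of `H677.FlowG` (`RT` = moving label matrix, `thN`, `sN`, `rt`) and `H922.MovR`.

* `RT_out` : `RT = 0` outside the three cells `rt M` of `x0`;
* `RT_end` : `SUM_(x0) |RT 0 w|² ≤ 2^K ⟪w, G_top w⟫ / (2 l)` at fixed `(x1, x3)`, any fixed `w`;
* `RT_mid` : the same for `RT j`; `RT_weight` : with a weight of line averages at most `e`;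
* `move_nodesT` : `H922.move_nodes` with a weight which depends on the scale;
* `q_RT` : `SUM nodes W_k |M_k RT_k v|²`, `q_xi` : `SUM nodes W_k |M_k v|²`; `q_stack` : both, with
  `ε⁻²`, over the alive nodes and in the order `x0` first.
-/

namespace Vale.Agent.P141.H483

open Finset Matrix
open Vale.Agent.P141.PL (Pt loc prd iv hs ix mem_iv card_iv ix_ix cb mem_cb cx)
open Vale.Agent.P141.PL.H560 (cbs bx0)
open Vale.Agent.P141.PL.H317 (crn)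
open Vale.Agent.P141.H420 (Tr)
open Vale.Agent.P141.H677
open Vale.Agent.P141.H922 (ck tmean_iv tsum_iv node_scale xi_tree' sum_form_le
  move_real mart_eq iv_iv)

noncomputable section

open scoped Classical

variable {ι : Type*} [Fintype ι] [DecidableEq ι]

section RT

variable {A : ℕ → Pt → Prop} {o : ℤ} {K : ℕ} {M : Pt} {sg : ℕ → Pt → ℝ} {l : ℝ}
  {u : ℤ → ℤ → ι → ℝ}

theorem thN_out (ho : o = 1 ∨ o = -1) {k : ℕ} (hk : k ≤ K) {x0 : ℤ} (hx : ix K x0 ∉ rt M)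
    (x3 x1 : ℤ) : thN A o K M sg x0 x3 x1 k = 0 := by
  unfold thN
  split_ifs with h
  · obtain ⟨h1, h2, _⟩ := mem_sN.1 h
    exact absurd (iv_rt ho hk h1 h2) hx
  · rfl

/-- the moving matrix vanishes outside the cells `rt M` -/
theorem RT_out (ho : o = 1 ∨ o = -1) (j : ℕ) {x0 : ℤ} (hx : ix K x0 ∉ rt M) (x3 x1 : ℤ) :
    RT A o K M sg l u j x0 x3 x1 = 0 := by
  unfold RT
  refine sum_eq_zero fun i hi => ?_
  rw [thN_out ho (by have := (mem_Ico.1 hi).2; omega) hx, zero_smul]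

theorem thN_sq_le (hsg : ∀ k m, |sg k m| ≤ 1) (k : ℕ) (x0 x3 x1 : ℤ) :
    thN A o K M sg x0 x3 x1 k ^ 2 ≤
      if (nd3 o x0 x3 x1 k).2.1 ∈ iv (K - k) M.2.1 then 1 else 0 := by
  unfold thN
  split_ifs with h h' h'
  · have h1 := hsg k (rv (nd3 o x0 x3 x1 k))
    have h2 : |sg k (rv (nd3 o x0 x3 x1 k)) * (hs k x0 * hs k x1 * hs k x3)| ≤ 1 := by
      rw [abs_mul, abs_mul, abs_mul, PL.abs_hs, PL.abs_hs, PL.abs_hs]
      simpa using h1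
    have h3 := abs_le.1 h2
    nlinarith [h3.1, h3.2]
  · exfalso
    obtain ⟨h1, _, _⟩ := mem_sN.1 h
    unfold cbs at h1
    simp only [mem_product] at h1
    exact h' h1.2.1
  · norm_num
  · norm_num

/-- the half difference of the moving matrix -/
theorem hd_RT (hsg : ∀ k m, |sg k m| ≤ 1) {j : ℕ} (hj : j < K) (x3 x1 : ℤ) (w : ι → ℝ) (m : ℤ) :
    hd (fun j m => RT A o K M sg l u j (2 ^ j * m) x3 x1 *ᵥ w) (j + 1) m ⬝ᵥ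
      hd (fun j m => RT A o K M sg l u j (2 ^ j * m) x3 x1 *ᵥ w) (j + 1) m ≤
    if ck o x1 x3 (j + 1) - m ∈ iv (K - (j + 1)) M.2.1 then
      xiT l (KT l u x1) w (j + 1) (ck o x1 x3 (j + 1) - m) ⬝ᵥ
        xiT l (KT l u x1) w (j + 1) (ck o x1 x3 (j + 1) - m) else 0 := by
  set a : ℤ := 2 ^ j * (2 * m) with ha
  set b : ℤ := 2 ^ j * (2 * m + 1) with hb
  have h2 : ix (j + 1) a = m := by
    rw [ha, show (2 : ℤ) ^ j * (2 * m) = 2 ^ (j + 1) * m by ring, ix_two]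
  have h3 : ix (j + 1) b = m := by
    rw [hb, ← H352.ix_succ, ix_two]
    omega
  have hh : hs (j + 1) a = -hs (j + 1) b := by
    unfold PL.hs
    rw [Nat.add_sub_cancel, ha, hb, ix_two, ix_two, if_pos (by omega), if_neg (by omega),
      neg_neg]
  have e0 : ix (j + 1) a = ix (j + 1) b := h2.trans h3.symm
  have ea : RT A o K M sg l u j a x3 x1 - RT A o K M sg l u j b x3 x1 =
      (2 * thN A o K M sg a x3 x1 (j + 1)) •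
        MT l (KT l u x1) (j + 1) (nd3 o a x3 x1 (j + 1)).2.1 := by
    rw [RT_step hj a, RT_step hj b, RT_ix (y0 := b) (y3 := x3) x1 e0 rfl,
      thN_neg (y0 := a) (y3 := x3) (x0 := b) x1 e0.symm rfl (by rw [hh]; ring),
      nd3_ix (x0 := b) (y0 := a) e0.symm rfl]
    module
  have eb : hd (fun j m => RT A o K M sg l u j (2 ^ j * m) x3 x1 *ᵥ w) (j + 1) m =
      thN A o K M sg a x3 x1 (j + 1) •
        xiT l (KT l u x1) w (j + 1) (nd3 o a x3 x1 (j + 1)).2.1 := by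
    unfold H483.hd
    simp only [Nat.add_sub_cancel]
    rw [← ha, ← hb, ← sub_mulVec, ea, smul_mulVec, MT_mulVec, smul_smul]
    congr 1
    ring
  have ec : (nd3 o a x3 x1 (j + 1)).2.1 = ck o x1 x3 (j + 1) - m := by
    unfold nd3 cP H922.ck
    simp only
    rw [h2]
    ring
  rw [eb, ec, smul_dotProduct, dotProduct_smul, smul_eq_mul, smul_eq_mul, ← mul_assoc, ← sq]
  have h4 := thN_sq_le (A := A) (o := o) (K := K) (M := M) hsg (j + 1) a x3 x1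
  rw [ec] at h4
  have h5 : 0 ≤ xiT l (KT l u x1) w (j + 1) (ck o x1 x3 (j + 1) - m) ⬝ᵥ
      xiT l (KT l u x1) w (j + 1) (ck o x1 x3 (j + 1) - m) := dot_nonneg _
  split_ifs at h4 ⊢ with h6
  · nlinarith
  · have h7 : thN A o K M sg a x3 x1 (j + 1) ^ 2 = 0 := le_antisymm h4 (sq_nonneg _)
    rw [h7, zero_mul]

/-- a sum over the cells of `x0` is a sum over the cells of `x2` -/
theorem refl_sum_le {k : ℕ} (c : ℤ) (T : Finset ℤ) (m2 : ℤ) {Φ : ℤ → ℝ} (hΦ : ∀ i, 0 ≤ Φ i) :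
    ∑ t ∈ T, ∑ i ∈ iv (K - k) t, (if c - i ∈ iv (K - k) m2 then Φ (c - i) else 0) ≤
      ∑ i ∈ iv (K - k) m2, Φ i := by
  rw [H922.biU_sum, ← sum_filter]
  have h1 : ∑ i ∈ (T.biUnion (iv (K - k))).filter (fun i => c - i ∈ iv (K - k) m2), Φ (c - i) =
      ∑ i ∈ ((T.biUnion (iv (K - k))).filter (fun i => c - i ∈ iv (K - k) m2)).image
        (fun i => c - i), Φ i := by
    rw [sum_image]
    intro a _ b _ hab
    simp only at hab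
    omega
  rw [h1]
  refine sum_le_sum_of_subset_of_nonneg ?_ fun i _ _ => hΦ i
  intro i hi
  rw [mem_image] at hi
  obtain ⟨a, ha, rfl⟩ := hi
  rw [mem_filter] at ha
  exact ha.2

/-- **The END energy of the moving matrix at fixed `(x1, x3)`.** -/
theorem RT_end (hl : 0 < l) (hsg : ∀ k m, |sg k m| ≤ 1) (T : Finset ℤ) (x3 x1 : ℤ)
    (w : ι → ℝ) :
    ∑ t ∈ T, ∑ x0 ∈ iv K t,
      (RT A o K M sg l u 0 x0 x3 x1 *ᵥ w) ⬝ᵥ (RT A o K M sg l u 0 x0 x3 x1 *ᵥ w) ≤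
    2 ^ K * ((2 * l)⁻¹ * (w ⬝ᵥ GT u x1 K M.2.1 *ᵥ w)) := by
  set V : ℕ → ℤ → ι → ℝ := fun j m => RT A o K M sg l u j (2 ^ j * m) x3 x1 *ᵥ w with hVd
  have hV : Mart K V := RT_mart0 x3 x1 w
  have h1 : ∀ t, ∑ x0 ∈ iv K t,
      (RT A o K M sg l u 0 x0 x3 x1 *ᵥ w) ⬝ᵥ (RT A o K M sg l u 0 x0 x3 x1 *ᵥ w) =
      ∑ k ∈ Icc 1 K, 2 ^ k * ∑ i ∈ iv (K - k) t, hd V k i ⬝ᵥ hd V k i := by
    intro t
    have e1 := mart_tree hV.mv le_rfl t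
    have e2 : V K t = 0 := by
      rw [hVd]
      simp only
      rw [RT_top, zero_mulVec]
    rw [e2, zero_dotProduct, sub_zero] at e1
    have e3 := tmean_iv (fun i => V 0 i ⬝ᵥ V 0 i) K t
    rw [← e1, tsum_iv] at e3
    rw [e3]
    refine sum_congr rfl fun x0 _ => ?_
    rw [hVd]
    simp only [pow_zero, one_mul]
  rw [sum_congr rfl fun t _ => h1 t, sum_comm]
  have h2 := xi_tree' (tr_T hl K u x1) w le_rfl M.2.1
  have h3 := mul_le_mul_of_nonneg_left h2 (by positivity : (0 : ℝ) ≤ 2 ^ K)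
  rw [tsum_iv] at h3
  refine le_trans (sum_le_sum fun k hk => ?_) h3
  rw [← mul_sum]
  refine mul_le_mul_of_nonneg_left ?_ (by positivity)
  obtain ⟨j, rfl⟩ : ∃ j, k = j + 1 := ⟨k - 1, by have := (mem_Icc.1 hk).1; omega⟩
  have hj : j < K := by have := (mem_Icc.1 hk).2; omega
  refine (sum_le_sum fun t _ => sum_le_sum fun i _ => hd_RT hsg hj x3 x1 w i).trans ?_
  exact refl_sum_le (ck o x1 x3 (j + 1)) T M.2.1
    (Φ := fun i => xiT l (KT l u x1) w (j + 1) i ⬝ᵥ xiT l (KT l u x1) w (j + 1) i)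
    fun i => dot_nonneg _

/-- `SUM_(x0) |RT j w|²` grows when `j` decreases -/
theorem RT_mid {j : ℕ} (hj : j ≤ K) (T : Finset ℤ) (x3 x1 : ℤ) (w : ι → ℝ) :
    ∑ t ∈ T, ∑ x0 ∈ iv K t,
      (RT A o K M sg l u j x0 x3 x1 *ᵥ w) ⬝ᵥ (RT A o K M sg l u j x0 x3 x1 *ᵥ w) ≤
    ∑ t ∈ T, ∑ x0 ∈ iv K t,
      (RT A o K M sg l u 0 x0 x3 x1 *ᵥ w) ⬝ᵥ (RT A o K M sg l u 0 x0 x3 x1 *ᵥ w) := by
  refine sum_le_sum fun t _ => ?_
  rw [← iv_iv hj t, ← iv_iv hj t]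
  refine sum_le_sum fun m _ => ?_
  set V : ℕ → ℤ → ι → ℝ := fun j m => RT A o K M sg l u j (2 ^ j * m) x3 x1 *ᵥ w with hVd
  have hV : Mart K V := RT_mart0 x3 x1 w
  have e1 := mart_tree hV.mv hj m
  have e4 : 0 ≤ H420.tsum (fun j i => hd V j i ⬝ᵥ hd V j i) j m := by
    rw [H420.tsum_eq]
    exact sum_nonneg fun k _ => mul_nonneg (by positivity) (sum_nonneg fun i _ => dot_nonneg _)
  have e3 := tmean_iv (fun i => V 0 i ⬝ᵥ V 0 i) j m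
  have e5 : ∑ x ∈ iv j m, V 0 x ⬝ᵥ V 0 x = ∑ x0 ∈ iv j m,
      (RT A o K M sg l u 0 x0 x3 x1 *ᵥ w) ⬝ᵥ (RT A o K M sg l u 0 x0 x3 x1 *ᵥ w) := by
    refine sum_congr rfl fun x0 _ => ?_
    rw [hVd]
    simp only [pow_zero, one_mul]
  have e6 : ∑ x0 ∈ iv j m,
      (RT A o K M sg l u j x0 x3 x1 *ᵥ w) ⬝ᵥ (RT A o K M sg l u j x0 x3 x1 *ᵥ w) =
      2 ^ j * (V j m ⬝ᵥ V j m) := by
    have e7 : ∀ x0 ∈ iv j m,
        (RT A o K M sg l u j x0 x3 x1 *ᵥ w) ⬝ᵥ (RT A o K M sg l u j x0 x3 x1 *ᵥ w) =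
          V j m ⬝ᵥ V j m := by
      intro x0 hx
      rw [mem_iv] at hx
      rw [hVd]
      simp only
      rw [RT_ix (y0 := 2 ^ j * m) (y3 := x3) x1 (by rw [hx, ix_two]) rfl]
    rw [sum_congr rfl e7, sum_const, card_iv, nsmul_eq_mul]
    push_cast
    ring
  rw [e6, ← e5, ← e3]
  refine mul_le_mul_of_nonneg_left ?_ (by positivity)
  linarith

/-- the same with a weight of line averages at most `e` on the cells of scale `j` -/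
theorem RT_weight {j : ℕ} (hj : j ≤ K) (T : Finset ℤ) (x3 x1 : ℤ) (w : ι → ℝ) {W : ℤ → ℝ}
    {e : ℝ} (he : 0 ≤ e) (hW : ∀ m, ∑ x0 ∈ iv j m, W x0 ≤ e * 2 ^ j) :
    ∑ t ∈ T, ∑ x0 ∈ iv K t, W x0 *
      ((RT A o K M sg l u j x0 x3 x1 *ᵥ w) ⬝ᵥ (RT A o K M sg l u j x0 x3 x1 *ᵥ w)) ≤
    e * ∑ t ∈ T, ∑ x0 ∈ iv K t,
      (RT A o K M sg l u 0 x0 x3 x1 *ᵥ w) ⬝ᵥ (RT A o K M sg l u 0 x0 x3 x1 *ᵥ w) := by
  refine le_trans ?_ (mul_le_mul_of_nonneg_left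
    (RT_mid (A := A) (o := o) (M := M) (sg := sg) (l := l) (u := u) hj T x3 x1 w) he)
  rw [mul_sum]
  refine sum_le_sum fun t _ => ?_
  rw [← iv_iv hj t, ← iv_iv hj t, mul_sum]
  refine sum_le_sum fun m _ => ?_
  have e7 : ∀ x0 ∈ iv j m,
      (RT A o K M sg l u j x0 x3 x1 *ᵥ w) ⬝ᵥ (RT A o K M sg l u j x0 x3 x1 *ᵥ w) =
        (RT A o K M sg l u j (2 ^ j * m) x3 x1 *ᵥ w) ⬝ᵥ
          (RT A o K M sg l u j (2 ^ j * m) x3 x1 *ᵥ w) := by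
    intro x0 hx
    rw [mem_iv] at hx
    rw [RT_ix (y0 := 2 ^ j * m) (y3 := x3) x1 (by rw [hx, ix_two]) rfl]
  rw [sum_congr rfl fun x0 hx => by rw [e7 x0 hx], sum_congr rfl e7, sum_const, card_iv,
    nsmul_eq_mul, ← sum_mul]
  have h1 := mul_le_mul_of_nonneg_right (hW m)
    (dot_nonneg (RT A o K M sg l u j (2 ^ j * m) x3 x1 *ᵥ w))
  refine h1.trans (le_of_eq ?_)
  push_cast
  ring

end RT

/-! ### The sums over the nodes -/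

section nodes

/-- **`H922.move_nodes` with a weight which depends on the scale.** -/
theorem move_nodesT {l e : ℝ} {K : ℕ} {M : Pt} {G Kq : ℤ → ℕ → ℤ → Matrix ι ι ℝ} {o : ℤ}
    (ho : o = 1 ∨ o = -1) (hT : ∀ x1 ∈ iv K M.1, Tr l K (G x1) (Kq x1))
    {V : ℤ → ℤ → ℕ → ℤ → ι → ℝ}
    (hV : ∀ x1 ∈ iv K M.1, ∀ x3 ∈ iv K M.2.2, H483.Mart K (V x1 x3)) {X : Finset ℤ}
    (hX : ∀ x1 ∈ iv K M.1, ∀ x3 ∈ iv K M.2.2, ∀ x, x ∉ X → V x1 x3 0 x = 0)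
    {W : ℕ → ℤ → ℤ → ℤ → ℝ} (he : 0 ≤ e)
    (hW : ∀ k ≤ K, ∀ j x1 x3, ∑ x0 ∈ iv k j, W k x0 x1 x3 ≤ e * 2 ^ k) :
    ∑ k ∈ Icc 1 K, ∑ m ∈ cbs K M k, ∑ x0 ∈ iv k (bx0 o m).1, ∑ x1 ∈ iv k m.1,
      ∑ x3 ∈ iv k m.2.2, W k x0 x1 x3 *
        (H483.mT l (Kq x1) k m.2.1 (V x1 x3 k (bx0 o m).1) ⬝ᵥ
          H483.mT l (Kq x1) k m.2.1 (V x1 x3 k (bx0 o m).1)) ≤
    e * (1408 * ∑ x1 ∈ iv K M.1, ∑ x3 ∈ iv K M.2.2, ∑ x ∈ X, V x1 x3 0 x ⬝ᵥ V x1 x3 0 x) := by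
  set Φ : ℕ → ℤ → ℤ → ℤ → ℝ := fun k m2 x1 x3 =>
    H483.mT l (Kq x1) k m2 (V x1 x3 k (ck o x1 x3 k - m2)) ⬝ᵥ
      H483.mT l (Kq x1) k m2 (V x1 x3 k (ck o x1 x3 k - m2)) with hΦ
  have hΦ0 : ∀ k m x1 x3, 0 ≤ Φ k m x1 x3 := fun _ _ _ _ => dot_nonneg _
  have e1 : ∀ k ∈ Icc 1 K, (∑ m ∈ cbs K M k, ∑ x0 ∈ iv k (bx0 o m).1, ∑ x1 ∈ iv k m.1,
      ∑ x3 ∈ iv k m.2.2, W k x0 x1 x3 *
        (H483.mT l (Kq x1) k m.2.1 (V x1 x3 k (bx0 o m).1) ⬝ᵥ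
          H483.mT l (Kq x1) k m.2.1 (V x1 x3 k (bx0 o m).1))) ≤
      ∑ x1 ∈ iv K M.1, ∑ x3 ∈ iv K M.2.2,
        e * (2 ^ k * ∑ m2 ∈ iv (K - k) M.2.1, Φ k m2 x1 x3) := by
    intro k hk
    have e2 : (∑ m ∈ cbs K M k, ∑ x0 ∈ iv k (bx0 o m).1, ∑ x1 ∈ iv k m.1,
        ∑ x3 ∈ iv k m.2.2, W k x0 x1 x3 *
        (H483.mT l (Kq x1) k m.2.1 (V x1 x3 k (bx0 o m).1) ⬝ᵥ
          H483.mT l (Kq x1) k m.2.1 (V x1 x3 k (bx0 o m).1))) =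
        ∑ m ∈ cbs K M k, ∑ x0 ∈ iv k (bx0 o m).1, ∑ x1 ∈ iv k m.1,
        ∑ x3 ∈ iv k m.2.2, W k x0 x1 x3 * Φ k m.2.1 x1 x3 := by
      refine sum_congr rfl fun m _ => sum_congr rfl fun x0 _ => sum_congr rfl fun x1 h1 =>
        sum_congr rfl fun x3 h3 => ?_
      rw [mem_iv] at h1 h3
      have e3 : ck o x1 x3 k - m.2.1 = (bx0 o m).1 := by
        unfold H922.ck
        rw [h1, h3]
        show o - 2 - m.1 - m.2.2 - m.2.1 = o - 2 - (m.1 + m.2.1 + m.2.2)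
        ring
      simp only [hΦ, e3]
    rw [e2, node_scale (mem_Icc.1 hk).2 o M (Φ k) (W k)]
    refine sum_le_sum fun x1 _ => sum_le_sum fun x3 _ => ?_
    rw [mul_sum, mul_sum]
    refine sum_le_sum fun m2 _ => ?_
    rw [← mul_assoc]
    exact mul_le_mul_of_nonneg_right (hW k (mem_Icc.1 hk).2 _ _ _) (hΦ0 _ _ _ _)
  refine (sum_le_sum e1).trans ?_
  rw [sum_comm, mul_sum, mul_sum]
  refine sum_le_sum fun x1 h1 => ?_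
  rw [sum_comm, mul_sum, mul_sum]
  refine sum_le_sum fun x3 h3 => ?_
  rw [← mul_sum]
  exact mul_le_mul_of_nonneg_left (move_real (hT x1 h1) ho x1 x3 (hV x1 h1 x3 h3)
    (hX x1 h1 x3 h3) fun k => iv (K - k) M.2.1) he

variable {A : ℕ → Pt → Prop} {o : ℤ} {K : ℕ} {M : Pt} {sg : ℕ → Pt → ℝ} {l e P : ℝ}
  {u v : ℤ → ℤ → ι → ℝ}

/-- END energy of the moving slot, summed over `x1, x3` -/
theorem RT_end_sum (hl : 0 < l) (hsg : ∀ k m, |sg k m| ≤ 1) (T : Finset ℤ)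
    (hv : ∀ x1 ∈ iv K M.1, ∀ θ : ι → ℝ, ∑ x3 ∈ iv K M.2.2, (θ ⬝ᵥ v x1 x3) ^ 2 ≤ P * (θ ⬝ᵥ θ)) :
    ∑ x1 ∈ iv K M.1, ∑ x3 ∈ iv K M.2.2, ∑ t ∈ T, ∑ x0 ∈ iv K t,
      (RT A o K M sg l u 0 x0 x3 x1 *ᵥ v x1 x3) ⬝ᵥ (RT A o K M sg l u 0 x0 x3 x1 *ᵥ v x1 x3) ≤
    2 ^ K * ((2 * l)⁻¹ * (P * ∑ x1 ∈ iv K M.1, (GT u x1 K M.2.1).trace)) := by
  rw [mul_sum, mul_sum, mul_sum]
  refine sum_le_sum fun x1 h1 => ?_
  refine (sum_le_sum fun x3 _ => RT_end hl hsg T x3 x1 (v x1 x3)).trans ?_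
  rw [← mul_sum, ← mul_sum]
  refine mul_le_mul_of_nonneg_left (mul_le_mul_of_nonneg_left ?_ (by positivity)) (by positivity)
  exact sum_form_le _ _ (hv x1 h1) (GT_psd u x1 K M.2.1)

/-- **`SUM nodes W_k |M_k RT_k v|²`**, real ties. -/
theorem q_RT (ho : o = 1 ∨ o = -1) (hl : 0 < l) (hsg : ∀ k m, |sg k m| ≤ 1)
    (hv : ∀ x1 ∈ iv K M.1, ∀ θ : ι → ℝ, ∑ x3 ∈ iv K M.2.2, (θ ⬝ᵥ v x1 x3) ^ 2 ≤ P * (θ ⬝ᵥ θ))
    {W : ℕ → ℤ → ℤ → ℤ → ℝ} (he : 0 ≤ e)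
    (hW : ∀ k ≤ K, ∀ j x1 x3, ∑ x0 ∈ iv k j, W k x0 x1 x3 ≤ e * 2 ^ k) :
    ∑ k ∈ Icc 1 K, ∑ m ∈ cbs K M k, ∑ x0 ∈ iv k (bx0 o m).1, ∑ x1 ∈ iv k m.1,
      ∑ x3 ∈ iv k m.2.2, W k x0 x1 x3 *
        ((MT l (KT l u x1) k m.2.1 *ᵥ (RT A o K M sg l u k x0 x3 x1 *ᵥ v x1 x3)) ⬝ᵥ
          (MT l (KT l u x1) k m.2.1 *ᵥ (RT A o K M sg l u k x0 x3 x1 *ᵥ v x1 x3))) ≤
    e * (1408 * (2 ^ K * ((2 * l)⁻¹ * (P * ∑ x1 ∈ iv K M.1, (GT u x1 K M.2.1).trace)))) := by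
  have h1 := move_nodesT (l := l) (K := K) (M := M) (G := GT u) (Kq := KT l u) ho
    (fun x1 _ => tr_T hl K u x1)
    (V := fun x1 x3 j m => RT A o K M sg l u j (2 ^ j * m) x3 x1 *ᵥ v x1 x3)
    (fun x1 _ x3 _ => RT_mart0 x3 x1 (v x1 x3)) (X := (rt M).biUnion (iv K))
    (fun x1 _ x3 _ x hx => by
      rw [pow_zero, one_mul, RT_out ho 0 (fun h => hx ?_) x3 x1, zero_mulVec]
      rw [mem_biUnion]
      exact ⟨ix K x, h, mem_iv.2 rfl⟩) he hW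
  refine le_trans (le_of_eq ?_) (h1.trans ?_)
  · refine sum_congr rfl fun k _ => sum_congr rfl fun m _ => sum_congr rfl fun x0 h0 =>
      sum_congr rfl fun x1 _ => sum_congr rfl fun x3 _ => ?_
    rw [mem_iv] at h0
    simp only [mT]
    rw [← MT_mulVec, RT_ix (x0 := x0) (y0 := 2 ^ k * (bx0 o m).1) (y3 := x3) x1
      (by rw [h0, ix_two]) rfl]
  · refine mul_le_mul_of_nonneg_left (mul_le_mul_of_nonneg_left ?_ (by norm_num)) he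
    refine le_trans (le_of_eq ?_) (RT_end_sum (A := A) (o := o) hl hsg (rt M) hv)
    refine sum_congr rfl fun x1 _ => sum_congr rfl fun x3 _ => ?_
    rw [← H922.biU_sum]
    simp only [pow_zero, one_mul]

/-- **`SUM nodes W_k |M_k v|²`**, real ties. -/
theorem q_xi (o : ℤ) (hl : 0 < l)
    (hv : ∀ x1 ∈ iv K M.1, ∀ θ : ι → ℝ, ∑ x3 ∈ iv K M.2.2, (θ ⬝ᵥ v x1 x3) ^ 2 ≤ P * (θ ⬝ᵥ θ))
    {W : ℕ → ℤ → ℤ → ℤ → ℝ} (he : 0 ≤ e)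
    (hW : ∀ k ≤ K, ∀ j x1 x3, ∑ x0 ∈ iv k j, W k x0 x1 x3 ≤ e * 2 ^ k) :
    ∑ k ∈ Icc 1 K, ∑ m ∈ cbs K M k, ∑ x0 ∈ iv k (bx0 o m).1, ∑ x1 ∈ iv k m.1,
      ∑ x3 ∈ iv k m.2.2, W k x0 x1 x3 *
        ((MT l (KT l u x1) k m.2.1 *ᵥ v x1 x3) ⬝ᵥ (MT l (KT l u x1) k m.2.1 *ᵥ v x1 x3)) ≤
    e * (2 ^ K * ((2 * l)⁻¹ * (P * ∑ x1 ∈ iv K M.1, (GT u x1 K M.2.1).trace))) := by
  have h0 := H922.xi_nodes_le (l := l) (K := K) (M := M) (G := GT u) (Kq := KT l u) (v := v) o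
    (fun x1 _ => tr_T hl K u x1) hv (W := fun _ _ _ => 1) zero_le_one
    (fun k _ j _ _ => by
      rw [sum_const, card_iv, nsmul_eq_mul, mul_one, one_mul]
      push_cast
      exact le_rfl)
  rw [one_mul] at h0
  refine le_trans ?_ (mul_le_mul_of_nonneg_left h0 he)
  rw [mul_sum]
  refine sum_le_sum fun k hk => ?_
  have hk2 := (mem_Icc.1 hk).2
  have e1 := node_scale hk2 o M (fun m2 x1 x3 =>
    (MT l (KT l u x1) k m2 *ᵥ v x1 x3) ⬝ᵥ (MT l (KT l u x1) k m2 *ᵥ v x1 x3)) (W k)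
  have e2 := node_scale hk2 o M (fun m2 x1 x3 =>
    (MT l (KT l u x1) k m2 *ᵥ v x1 x3) ⬝ᵥ (MT l (KT l u x1) k m2 *ᵥ v x1 x3)) (fun _ _ _ => 1)
  simp only [MT_mulVec] at e1 e2 ⊢
  rw [e1, e2, mul_sum]
  refine sum_le_sum fun x1 _ => ?_
  rw [mul_sum]
  refine sum_le_sum fun x3 _ => ?_
  rw [mul_sum]
  refine sum_le_sum fun m2 _ => ?_
  rw [← mul_assoc]
  refine mul_le_mul_of_nonneg_right ((hW k hk2 _ _ _).trans (le_of_eq ?_)) (dot_nonneg _)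
  rw [sum_const, card_iv, nsmul_eq_mul, mul_one]
  push_cast
  ring

/-- **The number `q` of the moving stack over the alive nodes, `x0` first.** -/
theorem q_stack (ho : o = 1 ∨ o = -1) (hl : 0 < l) (hsg : ∀ k m, |sg k m| ≤ 1) (x : Pt)
    (hv : ∀ x1 ∈ iv K (cx K x).1, ∀ θ : ι → ℝ,
      ∑ x3 ∈ iv K (cx K x).2.2, (θ ⬝ᵥ v x1 x3) ^ 2 ≤ P * (θ ⬝ᵥ θ))
    {W : ℕ → ℤ → ℤ → ℤ → ℝ} (hW0 : ∀ k x0 x1 x3, 0 ≤ W k x0 x1 x3) (he : 0 ≤ e)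
    (hW : ∀ k ≤ K, ∀ j x1 x3, ∑ x0 ∈ iv k j, W k x0 x1 x3 ≤ e * 2 ^ k) (ε : ℝ) :
    ∑ t ∈ rt (cx K x), ∑ x0 ∈ iv K t, ∑ k ∈ Icc 1 K, ∑ m ∈ sN A o K (cx K x) x0 k,
      ∑ x1 ∈ iv k m.2.2, ∑ x3 ∈ iv k m.1, W k x0 x1 x3 *
        ((MT l (KT l u x1) k m.2.1 *ᵥ v x1 x3) ⬝ᵥ (MT l (KT l u x1) k m.2.1 *ᵥ v x1 x3) +
          (ε ^ 2)⁻¹ *
        ((MT l (KT l u x1) k m.2.1 *ᵥ (RT A o K (cx K x) sg l u k x0 x3 x1 *ᵥ v x1 x3)) ⬝ᵥ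
          (MT l (KT l u x1) k m.2.1 *ᵥ (RT A o K (cx K x) sg l u k x0 x3 x1 *ᵥ v x1 x3)))) ≤
    (1 + 1408 * (ε ^ 2)⁻¹) * (e * (2 ^ K * ((2 * l)⁻¹ *
      (P * ∑ x1 ∈ iv K (cx K x).1, (GT u x1 K (cx K x).2.1).trace)))) := by
  have hε : 0 ≤ (ε ^ 2)⁻¹ := by positivity
  have h1 := swap0 ho A K x (fun x0 k m => ∑ x1 ∈ iv k m.1, ∑ x3 ∈ iv k m.2.2, W k x0 x1 x3 *
        ((MT l (KT l u x1) k m.2.1 *ᵥ v x1 x3) ⬝ᵥ (MT l (KT l u x1) k m.2.1 *ᵥ v x1 x3) +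
          (ε ^ 2)⁻¹ *
        ((MT l (KT l u x1) k m.2.1 *ᵥ (RT A o K (cx K x) sg l u k x0 x3 x1 *ᵥ v x1 x3)) ⬝ᵥ
          (MT l (KT l u x1) k m.2.1 *ᵥ (RT A o K (cx K x) sg l u k x0 x3 x1 *ᵥ v x1 x3)))))
  refine le_trans (le_of_eq h1.symm) ?_
  have h2 := q_xi (M := cx K x) (v := v) o hl hv he hW (u := u)
  have h3 := q_RT (A := A) (M := cx K x) ho hl hsg hv he hW (u := u)
  have h4 := mul_le_mul_of_nonneg_left h3 hε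
  have e5 : (1 + 1408 * (ε ^ 2)⁻¹) * (e * (2 ^ K * ((2 * l)⁻¹ *
      (P * ∑ x1 ∈ iv K (cx K x).1, (GT u x1 K (cx K x).2.1).trace)))) =
      e * (2 ^ K * ((2 * l)⁻¹ * (P * ∑ x1 ∈ iv K (cx K x).1, (GT u x1 K (cx K x).2.1).trace))) +
      (ε ^ 2)⁻¹ * (e * (1408 * (2 ^ K * ((2 * l)⁻¹ *
        (P * ∑ x1 ∈ iv K (cx K x).1, (GT u x1 K (cx K x).2.1).trace))))) := by ring
  rw [e5]
  refine le_trans ?_ (add_le_add h2 h4)
  rw [mul_sum, ← sum_add_distrib]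
  unfold nodesA
  refine sum_le_sum fun k _ => ?_
  rw [mul_sum, ← sum_add_distrib]
  have hnn : ∀ a : ι → ℝ, 0 ≤ a ⬝ᵥ a := dot_nonneg
  refine (sum_le_sum_of_subset_of_nonneg (filter_subset _ _) fun m _ _ => ?_).trans
    (le_of_eq ?_)
  · exact sum_nonneg fun x0 _ => sum_nonneg fun x1 _ => sum_nonneg fun x3 _ =>
      mul_nonneg (hW0 _ _ _ _) (add_nonneg (hnn _) (mul_nonneg hε (hnn _)))
  · refine sum_congr rfl fun m _ => ?_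
    rw [mul_sum, ← sum_add_distrib]
    refine sum_congr rfl fun x0 _ => ?_
    rw [mul_sum, ← sum_add_distrib]
    refine sum_congr rfl fun x1 _ => ?_
    rw [mul_sum, ← sum_add_distrib]
    refine sum_congr rfl fun x3 _ => ?_
    ring

/-- **a sum over the nodes at fixed `x0` is a sum over the points `(x1, x3)`** -/
theorem sN_points {k : ℕ} (hk : k ≤ K) (x0 : ℤ) (f : Pt → ℤ → ℤ → ℝ) :
    ∑ m ∈ sN A o K M x0 k, ∑ x1 ∈ iv k m.2.2, ∑ x3 ∈ iv k m.1, f m x1 x3 =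
      ∑ x1 ∈ iv K M.1, ∑ x3 ∈ iv K M.2.2,
        if nd3 o x0 x3 x1 k ∈ sN A o K M x0 k then f (nd3 o x0 x3 x1 k) x1 x3 else 0 := by
  rw [← iv_iv hk M.1]
  have e1 : ∀ m1 ∈ iv (K - k) M.1, ∑ x1 ∈ iv k m1, ∑ x3 ∈ iv K M.2.2,
      (if nd3 o x0 x3 x1 k ∈ sN A o K M x0 k then f (nd3 o x0 x3 x1 k) x1 x3 else 0) =
      ∑ m3 ∈ iv (K - k) M.2.2, (if (m3, cP o x0 k - m1 - m3, m1) ∈ sN A o K M x0 k then
        ∑ x1 ∈ iv k m1, ∑ x3 ∈ iv k m3, f (m3, cP o x0 k - m1 - m3, m1) x1 x3 else 0) := by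
    intro m1 _
    have e2 : ∀ x1 ∈ iv k m1, ∑ x3 ∈ iv K M.2.2,
        (if nd3 o x0 x3 x1 k ∈ sN A o K M x0 k then f (nd3 o x0 x3 x1 k) x1 x3 else 0) =
        ∑ m3 ∈ iv (K - k) M.2.2, ∑ x3 ∈ iv k m3,
          (if (m3, cP o x0 k - m1 - m3, m1) ∈ sN A o K M x0 k then
            f (m3, cP o x0 k - m1 - m3, m1) x1 x3 else 0) := by
      intro x1 h1
      rw [mem_iv] at h1
      rw [← iv_iv hk M.2.2]
      refine sum_congr rfl fun m3 _ => sum_congr rfl fun x3 h3 => ?_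
      rw [mem_iv] at h3
      have e3 : nd3 o x0 x3 x1 k = (m3, cP o x0 k - m1 - m3, m1) := by
        unfold nd3
        rw [h1, h3]
      rw [e3]
    rw [sum_congr rfl e2, sum_comm]
    refine sum_congr rfl fun m3 _ => ?_
    split_ifs with h
    · rfl
    · simp
  rw [sum_congr rfl e1, ← sum_product', ← sum_filter]
  refine sum_nbij' (fun m => (m.2.2, m.1)) (fun p => (p.2, cP o x0 k - p.1 - p.2, p.1))
    (fun m hm => ?_) (fun p hp => ?_) (fun m hm => ?_) (fun p hp => ?_) (fun m hm => ?_)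
  all_goals try
    have hb := sN_sub A o K M x0 k hm
    unfold PL.H804.bx3 at hb
    rw [mem_filter, mem_product, mem_product] at hb
    obtain ⟨⟨hb1, hb2, hb3⟩, hb4⟩ := hb
    have e4 : (m.1, cP o x0 k - m.2.2 - m.1, m.2.2) = m := by
      obtain ⟨a, b, c⟩ := m
      simp only at hb4 ⊢
      rw [Prod.mk.injEq, Prod.mk.injEq]
      refine ⟨rfl, ?_, rfl⟩
      linarith
  · rw [mem_filter, mem_product]
    refine ⟨⟨hb3, hb1⟩, ?_⟩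
    simp only
    rw [e4]
    exact hm
  · rw [mem_filter] at hp
    exact hp.2
  · exact e4
  · rfl
  · simp only
    rw [e4]

end nodes

end

end Vale.Agent.P141.H483
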