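import Vale.Agent.P141.H483.Moving

/-!
# P141, line (A): the moving lemma for every martingale on the tree, and the contraction `|M a| ≤ |a|`

`M = √l K⁻¹ dK K⁻¹` at a cell (`H186.xi l K K₊ K₋`).

* `cross_le` : `⟪D b, K⁻¹ D b⟫ ≤ ⟪b, K b⟫` if `-K ≤ D ≤ K`;
* `xi_le_self` : `|M a|² ≤ |a|²`;
* `mart_move` : `SUM |M V|² ≤ 4 mean |V_END|²` for every martingale `V` on the tree.
-/

namespace Vale.Agent.P141.H483

open Matrix Finset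
open Vale.Agent.P141.H420 hiding tsum

set_option linter.unusedSectionVars false

variable {ι : Type*} [Fintype ι] [DecidableEq ι]

/-- `-K ≤ D ≤ K` as forms gives `D K⁻¹ D ≤ K`. -/
theorem cross_le {K D : Matrix ι ι ℝ} (hK : K.PosDef) (hD : D.IsHermitian)
    (h1 : ∀ a : ι → ℝ, a ⬝ᵥ D *ᵥ a ≤ a ⬝ᵥ K *ᵥ a)
    (h2 : ∀ a : ι → ℝ, -(a ⬝ᵥ K *ᵥ a) ≤ a ⬝ᵥ D *ᵥ a) (b : ι → ℝ) :
    (D *ᵥ b) ⬝ᵥ K⁻¹ *ᵥ (D *ᵥ b) ≤ b ⬝ᵥ K *ᵥ b := by
  set z := K⁻¹ *ᵥ (D *ᵥ b) with hz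
  have hKz : K *ᵥ z = D *ᵥ b := by rw [hz, mul_inv_vec hK]
  have e0 : (D *ᵥ b) ⬝ᵥ z = z ⬝ᵥ K *ᵥ z := by rw [hKz, dotProduct_comm]
  have e1 : b ⬝ᵥ D *ᵥ z = z ⬝ᵥ K *ᵥ z := by rw [symm_dot hD, ← hKz]
  have p1 := h1 (b + (1 : ℝ) • z)
  have p2 := h2 (b + (-1 : ℝ) • z)
  rw [quad_add hD, quad_add hK.isHermitian] at p1 p2
  rw [e1] at p1 p2
  rw [e0]
  linarith

/-- the half difference lies between `-K` and `K`. -/
theorem nd_bounds {l : ℝ} {G D K Kp Km : Matrix ι ι ℝ} (h : H186.Nd l G D K Kp Km) (a : ι → ℝ) :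
    a ⬝ᵥ ((1 / 2 : ℝ) • (Kp - Km)) *ᵥ a ≤ a ⬝ᵥ K *ᵥ a ∧
      -(a ⬝ᵥ K *ᵥ a) ≤ a ⬝ᵥ ((1 / 2 : ℝ) • (Kp - Km)) *ᵥ a := by
  have h1 := h.half_le a
  have h2 := quad_nonneg h.Kp0.posSemidef a
  have h3 := quad_nonneg h.Km0.posSemidef a
  rw [H186.form_half_add] at h1
  rw [H186.form_half_sub]
  constructor <;> linarith

/-- **contraction**: `|M a|² ≤ |a|²`. -/
theorem xi_le_self {l : ℝ} {G D K Kp Km : Matrix ι ι ℝ} (h : H186.Nd l G D K Kp Km)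
    (a : ι → ℝ) : H186.xi l K Kp Km a ⬝ᵥ H186.xi l K Kp Km a ≤ a ⬝ᵥ a := by
  set D' : Matrix ι ι ℝ := (1 / 2 : ℝ) • (Kp - Km) with hD'
  have hH : D'.IsHermitian :=
    (h.Kp0.isHermitian.sub h.Km0.isHermitian).smul (by simp [IsSelfAdjoint])
  have h1 := inv_sq_le h.lpos h.G0 h.K0 h.h0 (D' *ᵥ (K⁻¹ *ᵥ a))
  have h2 := cross_le h.K0 hH (fun b => (nd_bounds h b).1) (fun b => (nd_bounds h b).2)
    (K⁻¹ *ᵥ a)
  rw [mul_inv_vec h.K0, dotProduct_comm (K⁻¹ *ᵥ a) a] at h2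
  have h3 := H186.inv_form_le h.K0 h.G0 h.lpos h.h0 a
  have hs : 0 < √l := Real.sqrt_pos.2 h.lpos
  have h4 : √l * (a ⬝ᵥ K⁻¹ *ᵥ a) ≤ a ⬝ᵥ a := by
    have := mul_le_mul_of_nonneg_left h3 hs.le
    rwa [mul_div_cancel₀ _ hs.ne'] at this
  have h5 := mul_le_mul_of_nonneg_left h2 hs.le
  have e : H186.xi l K Kp Km a = √l • (K⁻¹ *ᵥ (D' *ᵥ (K⁻¹ *ᵥ a))) := rfl
  rw [e]
  linarith

/-- the tree operator `M = √l K⁻¹ dK K⁻¹`. -/
noncomputable def mT (l : ℝ) (K : ℕ → ℤ → Matrix ι ι ℝ) (k : ℕ) (m : ℤ) (a : ι → ℝ) : ι → ℝ :=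
  xiT l K a k m

theorem mT_eq (l : ℝ) (K : ℕ → ℤ → Matrix ι ι ℝ) (k : ℕ) (m : ℤ) (a : ι → ℝ) :
    mT l K k m a = H186.xi l (K k m) (K (k - 1) (2 * m)) (K (k - 1) (2 * m + 1)) a := rfl

theorem mT_add (l : ℝ) (K : ℕ → ℤ → Matrix ι ι ℝ) (k : ℕ) (m : ℤ) (a b : ι → ℝ) :
    mT l K k m (a + b) = mT l K k m a + mT l K k m b := by
  simp only [mT, xiT, mulVec_add, smul_add]

theorem mT_sub (l : ℝ) (K : ℕ → ℤ → Matrix ι ι ℝ) (k : ℕ) (m : ℤ) (a b : ι → ℝ) :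
    mT l K k m (a - b) = mT l K k m a - mT l K k m b := by
  simp only [mT, xiT, mulVec_sub, smul_sub]

/-- **contraction on the tree**. -/
theorem mT_le {l : ℝ} {n : ℕ} {G K : ℕ → ℤ → Matrix ι ι ℝ} (h : Tr l n G K) {k : ℕ} (hk : k < n)
    (m : ℤ) (a : ι → ℝ) : mT l K (k + 1) m a ⬝ᵥ mT l K (k + 1) m a ≤ a ⬝ᵥ a := by
  rw [mT_eq]
  exact xi_le_self (nd' h hk m) a

/-- a martingale on the tree: the value at `(k + 1, m)` is the mean of the two children. -/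
def Mart (n : ℕ) (V : ℕ → ℤ → ι → ℝ) : Prop :=
  ∀ k < n, ∀ m, V (k + 1) m = (1 / 2 : ℝ) • (V k (2 * m) + V k (2 * m + 1))

theorem Mart.mv {n : ℕ} {V : ℕ → ℤ → ι → ℝ} (h : Mart n V) : Mv n V (hd V) := by
  constructor
  · intro k hk m
    have e := half_vec (V k (2 * m)) (V k (2 * m + 1))
    rw [← h k hk m] at e
    exact e.1.symm
  · intro k hk m
    have e := half_vec (V k (2 * m)) (V k (2 * m + 1))
    rw [← h k hk m] at e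
    exact e.2.symm

theorem dot_nonneg (a : ι → ℝ) : 0 ≤ a ⬝ᵥ a :=
  Finset.sum_nonneg fun _ _ => mul_self_nonneg _

/-- **the moving lemma for every martingale**: `SUM |M V|² ≤ 4 mean |V_END|²`. -/
theorem mart_move {l : ℝ} {n : ℕ} {G K : ℕ → ℤ → Matrix ι ι ℝ} (h : Tr l n G K)
    {V : ℕ → ℤ → ι → ℝ} (hV : Mart n V) {k : ℕ} (hk : k ≤ n) (m : ℤ) :
    H420.tsum (fun j i => mT l K j i (V j i) ⬝ᵥ mT l K j i (V j i)) k m ≤
      4 * tmean (fun i => V 0 i ⬝ᵥ V 0 i) k m := by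
  have h1 := move_tree' h hV.mv hk m
  have h2 := mart_tree hV.mv hk m
  have h3 := dot_nonneg (V k m)
  simp only [mT_eq]
  linarith

/-- the same for a path which is only close to a martingale: if `W` is any family, then
`SUM |M W|² ≤ 8 mean |V_END|² + 2 SUM |W - V|²`. -/
theorem near_move {l : ℝ} {n : ℕ} {G K : ℕ → ℤ → Matrix ι ι ℝ} (h : Tr l n G K)
    {V : ℕ → ℤ → ι → ℝ} (hV : Mart n V) (W : ℕ → ℤ → ι → ℝ) {k : ℕ} (hk : k ≤ n) (m : ℤ) :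
    H420.tsum (fun j i => mT l K j i (W j i) ⬝ᵥ mT l K j i (W j i)) k m ≤
      8 * tmean (fun i => V 0 i ⬝ᵥ V 0 i) k m +
        2 * H420.tsum (fun j i => (W j i - V j i) ⬝ᵥ (W j i - V j i)) k m := by
  have h1 := mart_move h hV hk m
  have h2 : H420.tsum (fun j i => mT l K j i (W j i) ⬝ᵥ mT l K j i (W j i)) k m ≤
      H420.tsum (fun j i => 2 * (mT l K j i (V j i) ⬝ᵥ mT l K j i (V j i)) +
        2 * ((W j i - V j i) ⬝ᵥ (W j i - V j i))) k m := by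
    refine tsum_mono (n := n) (fun j hj i => ?_) k hk m
    have e : W (j + 1) i = V (j + 1) i + (W (j + 1) i - V (j + 1) i) := by abel
    have h3 := mT_le h hj i (W (j + 1) i - V (j + 1) i)
    have e2 : mT l K (j + 1) i (W (j + 1) i) = mT l K (j + 1) i (V (j + 1) i) +
        mT l K (j + 1) i (W (j + 1) i - V (j + 1) i) := by
      rw [← mT_add, ← e]
    rw [e2]
    set p := mT l K (j + 1) i (V (j + 1) i)
    set r := mT l K (j + 1) i (W (j + 1) i - V (j + 1) i)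
    have h4 := dot_nonneg (p - r)
    simp only [sub_dotProduct, dotProduct_sub, add_dotProduct, dotProduct_add] at h4 ⊢
    rw [dotProduct_comm r p] at h4 ⊢
    simp only [sub_dotProduct, dotProduct_sub] at h3
    linarith
  have e1 := tsum_add (fun j i => 2 * (mT l K j i (V j i) ⬝ᵥ mT l K j i (V j i)))
    (fun j i => 2 * ((W j i - V j i) ⬝ᵥ (W j i - V j i))) k m
  rw [tsum_mul, tsum_mul] at e1
  rw [e1] at h2
  linarith

end Vale.Agent.P141.H483
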