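import Mathlib.Analysis.Matrix.Spectrum
import Mathlib.Analysis.Matrix.PosDef
import Mathlib.Analysis.SpecialFunctions.Log.Basic
import Mathlib.LinearAlgebra.Matrix.PosDef
import Mathlib.Analysis.SpecialFunctions.Log.Deriv

/-!
# P141, line (A): the flow term (row 11797), finite dimensional matrix statements

`T` is the regularised Gram matrix of a node (`w + G`), its two children are `T + X`, `T - X`.

* `ridge_step` : the ridge coefficient moves only through the true gap;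
* `cs_inv` : Cauchy–Schwarz for `T` and `T⁻¹`;
* `node_step` : one node of the matrix weighted Bessel inequality;
* `log_det_step`, `log_det_top` : the log-determinant Carleson bound for `tr (T⁻¹ X T⁻¹ X)`;
* `proj_le`, `trace_proj_le` : the `C` side under a projection `Q` with `Q T Q ≤ b Q`.
-/

namespace Vale.Agent.P141.H483

open Matrix Finset

section quad

variable {ι : Type*} [Fintype ι]

/-- **(F1)** if `T y = q` and `(T + e X) y' = q + e (z + X y)`, then `(T + e X) (y' - y) = e z`. -/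
theorem ridge_step (T X : Matrix ι ι ℝ) (y y' q z : ι → ℝ) (e : ℝ)
    (h : T *ᵥ y = q) (h' : (T + e • X) *ᵥ y' = q + e • (z + X *ᵥ y)) :
    (T + e • X) *ᵥ (y' - y) = e • z := by
  rw [mulVec_sub, h', add_mulVec, h, smul_mulVec, smul_add]
  abel

/-- the quadratic form of a positive semidefinite matrix is nonnegative. -/
theorem quad_nonneg {T : Matrix ι ι ℝ} (hT : T.PosSemidef) (a : ι → ℝ) :
    0 ≤ a ⬝ᵥ T *ᵥ a := by
  have := hT.dotProduct_mulVec_nonneg a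
  simpa using this

theorem tr_eq {T : Matrix ι ι ℝ} (hT : T.IsHermitian) : Tᵀ = T := by
  have := hT.eq
  simpa [conjTranspose_eq_transpose_of_trivial] using this

theorem dot_mulVec (T : Matrix ι ι ℝ) (a b : ι → ℝ) : a ⬝ᵥ T *ᵥ b = (Tᵀ *ᵥ a) ⬝ᵥ b := by
  rw [dotProduct_mulVec, ← mulVec_transpose]

theorem symm_dot {T : Matrix ι ι ℝ} (hT : T.IsHermitian) (a b : ι → ℝ) :
    a ⬝ᵥ T *ᵥ b = b ⬝ᵥ T *ᵥ a := by
  rw [dot_mulVec, tr_eq hT, dotProduct_comm]

/-- Expansion of the form at `a + c b`. -/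
theorem quad_add {T : Matrix ι ι ℝ} (hT : T.IsHermitian) (a b : ι → ℝ) (c : ℝ) :
    (a + c • b) ⬝ᵥ T *ᵥ (a + c • b) =
      a ⬝ᵥ T *ᵥ a + 2 * c * (a ⬝ᵥ T *ᵥ b) + c ^ 2 * (b ⬝ᵥ T *ᵥ b) := by
  simp only [mulVec_add, dotProduct_add, add_dotProduct, mulVec_smul, dotProduct_smul,
    smul_dotProduct, smul_eq_mul]
  rw [symm_dot hT b a]
  ring

end quad

variable {ι : Type*} [Fintype ι] [DecidableEq ι]

/-- Cauchy–Schwarz: `± 2 a·z ≤ c a·T a + c⁻¹ z·T⁻¹ z`. -/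
theorem cs_inv {T : Matrix ι ι ℝ} (hT : T.PosDef) (a z : ι → ℝ) {c : ℝ} (hc : 0 < c) (s : ℝ)
    (hs : s ^ 2 = 1) :
    2 * s * (a ⬝ᵥ z) ≤ c * (a ⬝ᵥ T *ᵥ a) + c⁻¹ * (z ⬝ᵥ T⁻¹ *ᵥ z) := by
  have hdet : IsUnit T.det := hT.det_pos.ne'.isUnit
  have h1 : T *ᵥ (T⁻¹ *ᵥ z) = z := by
    rw [mulVec_mulVec, mul_nonsing_inv _ hdet, one_mulVec]
  have h0 := quad_nonneg hT.posSemidef (a + (-(s * c⁻¹)) • (T⁻¹ *ᵥ z))
  rw [quad_add hT.isHermitian, h1] at h0
  have h2 : (T⁻¹ *ᵥ z) ⬝ᵥ z = z ⬝ᵥ T⁻¹ *ᵥ z := dotProduct_comm _ _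
  rw [h2] at h0
  have hc' : c ≠ 0 := hc.ne'
  have h3 : c * (a ⬝ᵥ T *ᵥ a + 2 * (-(s * c⁻¹)) * (a ⬝ᵥ z) +
      (-(s * c⁻¹)) ^ 2 * (z ⬝ᵥ T⁻¹ *ᵥ z)) =
      c * (a ⬝ᵥ T *ᵥ a) - 2 * s * (a ⬝ᵥ z) + s ^ 2 * c⁻¹ * (z ⬝ᵥ T⁻¹ *ᵥ z) := by
    field_simp
    ring
  have h4 := mul_nonneg hc.le h0
  rw [h3, hs] at h4
  linarith

/-- **(F2)** one node of the matrix weighted Bessel inequality: `y` the average, `y ± D` the
averages of the two children, `T ± s X` their weights. -/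
theorem node_step {T X : Matrix ι ι ℝ} (hT : T.PosDef) (hX : X.IsHermitian) (y D : ι → ℝ)
    (s : ℝ) (hs : s ^ 2 = 1) :
    (1 / 2) * (D ⬝ᵥ T *ᵥ D) ≤
      (1 / 2) * ((y + D) ⬝ᵥ (T + s • X) *ᵥ (y + D) + (y - D) ⬝ᵥ (T - s • X) *ᵥ (y - D))
        - y ⬝ᵥ T *ᵥ y + 2 * (y ⬝ᵥ (X * T⁻¹ * X) *ᵥ y) := by
  have e1 : y + D = y + (1 : ℝ) • D := by simp
  have e2 : y - D = y + (-1 : ℝ) • D := by simp [sub_eq_add_neg]
  have hTT : (T + s • X).IsHermitian := hT.isHermitian.add (by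
    rw [IsHermitian, conjTranspose_smul, hX.eq]; simp)
  have hTT' : (T - s • X).IsHermitian := hT.isHermitian.sub (by
    rw [IsHermitian, conjTranspose_smul, hX.eq]; simp)
  rw [e1, e2, quad_add hTT, quad_add hTT']
  simp only [add_mulVec, sub_mulVec, smul_mulVec, dotProduct_add, dotProduct_sub,
    dotProduct_smul, smul_eq_mul]
  have hc := cs_inv hT D (X *ᵥ y) (c := 1 / 2) (by norm_num) (-s) (by rw [neg_sq, hs])
  have h5 : (X *ᵥ y) ⬝ᵥ T⁻¹ *ᵥ (X *ᵥ y) = y ⬝ᵥ (X * T⁻¹ * X) *ᵥ y := by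
    rw [← mulVec_mulVec, ← mulVec_mulVec, dot_mulVec X, tr_eq hX]
  rw [h5] at hc
  have h6 : y ⬝ᵥ X *ᵥ D = D ⬝ᵥ X *ᵥ y := symm_dot hX y D
  rw [h6]
  norm_num at hc
  nlinarith [hc]

/-- a real symmetric matrix is orthogonally diagonal. -/
theorem exists_diag {Y : Matrix ι ι ℝ} (hY : Y.IsHermitian) :
    ∃ (U : Matrix ι ι ℝ) (d : ι → ℝ), Uᵀ * U = 1 ∧ U * Uᵀ = 1 ∧ Y = U * diagonal d * Uᵀ := by
  refine ⟨hY.eigenvectorUnitary, hY.eigenvalues, ?_, ?_, ?_⟩
  · have := Unitary.coe_star_mul_self hY.eigenvectorUnitary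
    simpa [star_eq_conjTranspose, conjTranspose_eq_transpose_of_trivial] using this
  · have := Unitary.coe_mul_star_self hY.eigenvectorUnitary
    simpa [star_eq_conjTranspose, conjTranspose_eq_transpose_of_trivial] using this
  · have h := hY.spectral_theorem
    rw [Unitary.conjStarAlgAut_apply] at h
    simpa [star_eq_conjTranspose, conjTranspose_eq_transpose_of_trivial, Function.comp_def]
      using h

/-- whitening: for `T` positive definite there is an invertible `S` with `Sᵀ T S = 1`. -/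
theorem exists_white {T : Matrix ι ι ℝ} (hT : T.PosDef) :
    ∃ S : Matrix ι ι ℝ, Sᵀ * T * S = 1 ∧ S * Sᵀ = T⁻¹ := by
  obtain ⟨U, d, h1, h2, h3⟩ := exists_diag hT.isHermitian
  have hd : ∀ i, 0 < d i := by
    intro i
    have hne : U *ᵥ (Pi.single i 1) ≠ 0 := by
      intro h0
      have : Uᵀ *ᵥ (U *ᵥ (Pi.single i (1 : ℝ))) = 0 := by rw [h0, mulVec_zero]
      rw [mulVec_mulVec, h1, one_mulVec] at this
      have := congrFun this i
      simp at this
    have hp := hT.dotProduct_mulVec_pos hne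
    have hq : star (U *ᵥ (Pi.single i (1 : ℝ))) ⬝ᵥ T *ᵥ (U *ᵥ (Pi.single i 1)) = d i := by
      have e : T *ᵥ (U *ᵥ (Pi.single i (1 : ℝ))) = U *ᵥ (d i • Pi.single i (1 : ℝ)) := by
        conv_lhs => rw [h3]
        rw [mulVec_mulVec, Matrix.mul_assoc, Matrix.mul_assoc, h1, Matrix.mul_one,
          ← mulVec_mulVec]
        congr 1
        ext j
        by_cases hj : j = i
        · subst hj; simp [mulVec_diagonal]
        · simp [mulVec_diagonal, hj]
      rw [e]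
      simp only [star_trivial]
      rw [dotProduct_mulVec, vecMul_mulVec, h1]
      simp
    rw [hq] at hp
    exact hp
  have hs : ∀ i, Real.sqrt (d i) ≠ 0 := fun i => (Real.sqrt_pos.2 (hd i)).ne'
  refine ⟨U * diagonal (fun i => (Real.sqrt (d i))⁻¹), ?_, ?_⟩
  · rw [h3, transpose_mul, diagonal_transpose]
    calc diagonal (fun i => (Real.sqrt (d i))⁻¹) * Uᵀ * (U * diagonal d * Uᵀ) *
          (U * diagonal (fun i => (Real.sqrt (d i))⁻¹))
        = diagonal (fun i => (Real.sqrt (d i))⁻¹) * (Uᵀ * U) * diagonal d * (Uᵀ * U) *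
          diagonal (fun i => (Real.sqrt (d i))⁻¹) := by simp only [Matrix.mul_assoc]
      _ = 1 := by
        rw [h1, Matrix.mul_one, Matrix.mul_one, diagonal_mul_diagonal, diagonal_mul_diagonal,
          ← diagonal_one]
        congr 1
        ext i
        have := hs i
        have e := Real.mul_self_sqrt (hd i).le
        field_simp
        nlinarith [e]
  · have hinv : T * (U * diagonal (fun i => (Real.sqrt (d i))⁻¹) *
        (U * diagonal (fun i => (Real.sqrt (d i))⁻¹))ᵀ) = 1 := by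
      rw [h3, transpose_mul, diagonal_transpose]
      calc U * diagonal d * Uᵀ * (U * diagonal (fun i => (Real.sqrt (d i))⁻¹) *
            (diagonal (fun i => (Real.sqrt (d i))⁻¹) * Uᵀ))
          = U * diagonal d * (Uᵀ * U) * (diagonal (fun i => (Real.sqrt (d i))⁻¹) *
            diagonal (fun i => (Real.sqrt (d i))⁻¹)) * Uᵀ := by simp only [Matrix.mul_assoc]
        _ = 1 := by
          rw [h1, Matrix.mul_one, diagonal_mul_diagonal, Matrix.mul_assoc U, diagonal_mul_diagonal]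
          have : (fun i => d i * ((Real.sqrt (d i))⁻¹ * (Real.sqrt (d i))⁻¹)) = fun _ => 1 := by
            ext i
            have := hs i
            have e := Real.mul_self_sqrt (hd i).le
            field_simp
            nlinarith [e]
          rw [this, diagonal_one, Matrix.mul_one, h2]
    exact (inv_eq_right_inv hinv).symm

/-- determinant and trace of a symmetric matrix in a diagonal frame. -/
theorem det_one_add {U : Matrix ι ι ℝ} {d : ι → ℝ} (h2 : U * Uᵀ = 1) (e : ℝ) :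
    det (1 + e • (U * diagonal d * Uᵀ)) = ∏ i, (1 + e * d i) := by
  have h : (1 : Matrix ι ι ℝ) + e • (U * diagonal d * Uᵀ) =
      U * diagonal (fun i => 1 + e * d i) * Uᵀ := by
    have : diagonal (fun i => 1 + e * d i) = (1 : Matrix ι ι ℝ) + e • diagonal d := by
      rw [← diagonal_one, ← diagonal_smul, diagonal_add]
      rfl
    rw [this, Matrix.mul_add, Matrix.add_mul, Matrix.mul_one, h2]
    simp
  rw [h, det_mul, det_mul, mul_right_comm, ← det_mul, h2, det_one, one_mul, det_diagonal]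

theorem one_add_pos {U : Matrix ι ι ℝ} {d : ι → ℝ} (h1 : Uᵀ * U = 1) (e : ℝ)
    (hp : (1 + e • (U * diagonal d * Uᵀ)).PosDef) (i : ι) : 0 < 1 + e * d i := by
  have hne : U *ᵥ (Pi.single i 1) ≠ 0 := by
    intro h0
    have : Uᵀ *ᵥ (U *ᵥ (Pi.single i (1 : ℝ))) = 0 := by rw [h0, mulVec_zero]
    rw [mulVec_mulVec, h1, one_mulVec] at this
    have := congrFun this i
    simp at this
  have hq := hp.dotProduct_mulVec_pos hne
  have e1 : (1 + e • (U * diagonal d * Uᵀ)) *ᵥ (U *ᵥ (Pi.single i (1 : ℝ))) =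
      U *ᵥ ((1 + e * d i) • Pi.single i (1 : ℝ)) := by
    rw [add_mulVec, one_mulVec, smul_mulVec, mulVec_mulVec, Matrix.mul_assoc, Matrix.mul_assoc,
      h1, Matrix.mul_one, ← mulVec_mulVec, mulVec_smul, add_smul, one_smul, mul_smul]
    congr 2
    rw [← mulVec_smul]
    congr 1
    ext j
    by_cases hj : j = i
    · subst hj; simp [mulVec_diagonal]
    · simp [mulVec_diagonal, hj]
  rw [e1] at hq
  simp only [star_trivial] at hq
  rw [dotProduct_mulVec, vecMul_mulVec, h1] at hq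
  simpa using hq

/-- **(F3)** log-determinant step. -/
theorem log_det_step {T X : Matrix ι ι ℝ} (hT : T.PosDef) (hX : X.IsHermitian)
    (hp : (T + X).PosDef) (hm : (T - X).PosDef) :
    (T⁻¹ * X * T⁻¹ * X).trace ≤
      2 * Real.log T.det - (Real.log (T + X).det + Real.log (T - X).det) := by
  obtain ⟨S, hS1, hS2⟩ := exists_white hT
  have hSdet : S.det ≠ 0 := by
    intro h0
    have : (Sᵀ * T * S).det = 1 := by rw [hS1, det_one]
    rw [det_mul, h0, mul_zero] at this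
    exact zero_ne_one this
  have hSinj : Function.Injective S.mulVec := by
    apply mulVec_injective_of_isUnit
    exact (isUnit_iff_isUnit_det _).2 hSdet.isUnit
  set Y : Matrix ι ι ℝ := Sᵀ * X * S with hYdef
  have hY : Y.IsHermitian := by
    rw [IsHermitian, hYdef, conjTranspose_eq_transpose_of_trivial, transpose_mul, transpose_mul,
      transpose_transpose, tr_eq hX, Matrix.mul_assoc]
  obtain ⟨U, d, h1, h2, h3⟩ := exists_diag hY
  have key : ∀ e : ℝ, Sᵀ * (T + e • X) * S = 1 + e • (U * diagonal d * Uᵀ) := by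
    intro e
    rw [← h3, hYdef, Matrix.mul_add, Matrix.add_mul, hS1]
    simp
  have hpos : ∀ e : ℝ, (T + e • X).PosDef → (1 + e • (U * diagonal d * Uᵀ)).PosDef := by
    intro e he
    rw [← key e]
    have := he.conjTranspose_mul_mul_same hSinj
    simpa [conjTranspose_eq_transpose_of_trivial] using this
  have hp' : (T + (1 : ℝ) • X).PosDef := by simpa using hp
  have hm' : (T + (-1 : ℝ) • X).PosDef := by simpa [sub_eq_add_neg] using hm
  have a1 : ∀ i, 0 < 1 + (1 : ℝ) * d i := one_add_pos h1 1 (hpos 1 hp')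
  have a2 : ∀ i, 0 < 1 + (-1 : ℝ) * d i := one_add_pos h1 (-1) (hpos (-1) hm')
  have hdS : S.det ^ 2 * T.det = 1 := by
    have : (Sᵀ * T * S).det = 1 := by rw [hS1, det_one]
    rw [det_mul, det_mul, det_transpose] at this
    linarith
  have hdd : ∀ e : ℝ, (T + e • X).det = T.det * ∏ i, (1 + e * d i) := by
    intro e
    have h := congrArg det (key e)
    rw [det_mul, det_mul, det_transpose, det_one_add h2] at h
    have hT0 : T.det ≠ 0 := hT.det_pos.ne'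
    calc (T + e • X).det = (S.det ^ 2 * T.det) * (T + e • X).det := by rw [hdS, one_mul]
      _ = T.det * (S.det * (T + e • X).det * S.det) := by ring
      _ = T.det * ∏ i, (1 + e * d i) := by rw [h]
  have hlog : ∀ e : ℝ, (∀ i, 0 < 1 + e * d i) →
      Real.log (T + e • X).det = Real.log T.det + ∑ i, Real.log (1 + e * d i) := by
    intro e he
    rw [hdd e, Real.log_mul hT.det_pos.ne' (Finset.prod_pos fun i _ => he i).ne',
      Real.log_prod (fun i _ => (he i).ne')]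
  have l1 := hlog 1 a1
  have l2 := hlog (-1) a2
  have eT1 : T + (1 : ℝ) • X = T + X := by simp
  have eT2 : T + (-1 : ℝ) • X = T - X := by simp [sub_eq_add_neg]
  rw [eT1] at l1
  rw [eT2] at l2
  have htr : (T⁻¹ * X * T⁻¹ * X).trace = ∑ i, d i ^ 2 := by
    have : (T⁻¹ * X * T⁻¹ * X).trace = (Y * Y).trace := by
      rw [← hS2, hYdef]
      calc (S * Sᵀ * X * (S * Sᵀ) * X).trace = (S * (Sᵀ * X * S * (Sᵀ * X))).trace := by
            simp only [Matrix.mul_assoc]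
        _ = ((Sᵀ * X * S * (Sᵀ * X)) * S).trace := trace_mul_comm _ _
        _ = (Sᵀ * X * S * (Sᵀ * X * S)).trace := by simp only [Matrix.mul_assoc]
    rw [this, h3]
    calc (U * diagonal d * Uᵀ * (U * diagonal d * Uᵀ)).trace
        = (U * (diagonal d * (Uᵀ * U) * diagonal d * Uᵀ)).trace := by
          simp only [Matrix.mul_assoc]
      _ = (diagonal d * (Uᵀ * U) * diagonal d * Uᵀ * U).trace := trace_mul_comm _ _
      _ = ∑ i, d i ^ 2 := by
        rw [h1, Matrix.mul_one, diagonal_mul_diagonal, Matrix.mul_assoc, h1, Matrix.mul_one,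
          trace_diagonal]
        exact Finset.sum_congr rfl fun i _ => by ring
  rw [htr, l1, l2]
  have hsum : ∑ i, d i ^ 2 ≤ -(∑ i, Real.log (1 + 1 * d i) + ∑ i, Real.log (1 + -1 * d i)) := by
    rw [← Finset.sum_add_distrib, ← Finset.sum_neg_distrib]
    refine Finset.sum_le_sum fun i _ => ?_
    have b1 := a1 i
    have b2 := a2 i
    rw [← Real.log_mul b1.ne' b2.ne']
    have h := Real.log_le_sub_one_of_pos (mul_pos b1 b2)
    nlinarith [h]
  linarith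

/-- `log det (1 + G / w) ≤ tr G / w`. -/
theorem log_det_top {G : Matrix ι ι ℝ} (hG : G.PosSemidef) {w : ℝ} (hw : 0 < w) :
    Real.log ((w • (1 : Matrix ι ι ℝ) + G).det) ≤
      Fintype.card ι * Real.log w + G.trace / w := by
  obtain ⟨U, d, h1, h2, h3⟩ := exists_diag hG.isHermitian
  have hd : ∀ i, 0 ≤ d i := by
    intro i
    have hq := hG.dotProduct_mulVec_nonneg (U *ᵥ (Pi.single i (1 : ℝ)))
    have e1 : G *ᵥ (U *ᵥ (Pi.single i (1 : ℝ))) = U *ᵥ (d i • Pi.single i (1 : ℝ)) := by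
      conv_lhs => rw [h3]
      rw [mulVec_mulVec, Matrix.mul_assoc, Matrix.mul_assoc, h1, Matrix.mul_one,
        ← mulVec_mulVec]
      congr 1
      ext j
      by_cases hj : j = i
      · subst hj; simp [mulVec_diagonal]
      · simp [mulVec_diagonal, hj]
    rw [e1] at hq
    simp only [star_trivial] at hq
    rw [dotProduct_mulVec, vecMul_mulVec, h1] at hq
    simpa using hq
  have e : w • (1 : Matrix ι ι ℝ) + G = w • (1 + w⁻¹ • (U * diagonal d * Uᵀ)) := by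
    rw [← h3, smul_add, smul_smul, mul_inv_cancel₀ hw.ne', one_smul]
  have hp : ∀ i, 0 < 1 + w⁻¹ * d i := fun i => by
    have := mul_nonneg (inv_nonneg.2 hw.le) (hd i)
    linarith
  rw [e, det_smul, det_one_add h2, Real.log_mul (pow_pos hw _).ne'
    (Finset.prod_pos fun i _ => hp i).ne', Real.log_pow, Real.log_prod (fun i _ => (hp i).ne')]
  have htr : G.trace = ∑ i, d i := by
    rw [h3, trace_mul_comm, ← Matrix.mul_assoc, h1, Matrix.one_mul, trace_diagonal]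
  rw [htr, Finset.sum_div]
  have : ∑ i, Real.log (1 + w⁻¹ * d i) ≤ ∑ i, d i / w := by
    refine Finset.sum_le_sum fun i _ => ?_
    have h := Real.log_le_sub_one_of_pos (hp i)
    have : w⁻¹ * d i = d i / w := by field_simp
    linarith
  linarith

/-- lower bound `log det (w + G) ≥ card · log w`. -/
theorem log_det_bot {G : Matrix ι ι ℝ} (hG : G.PosSemidef) {w : ℝ} (hw : 0 < w) :
    Fintype.card ι * Real.log w ≤ Real.log ((w • (1 : Matrix ι ι ℝ) + G).det) := by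
  obtain ⟨U, d, h1, h2, h3⟩ := exists_diag hG.isHermitian
  have hd : ∀ i, 0 ≤ d i := by
    intro i
    have hq := hG.dotProduct_mulVec_nonneg (U *ᵥ (Pi.single i (1 : ℝ)))
    have e1 : G *ᵥ (U *ᵥ (Pi.single i (1 : ℝ))) = U *ᵥ (d i • Pi.single i (1 : ℝ)) := by
      conv_lhs => rw [h3]
      rw [mulVec_mulVec, Matrix.mul_assoc, Matrix.mul_assoc, h1, Matrix.mul_one,
        ← mulVec_mulVec]
      congr 1
      ext j
      by_cases hj : j = i
      · subst hj; simp [mulVec_diagonal]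
      · simp [mulVec_diagonal, hj]
    rw [e1] at hq
    simp only [star_trivial] at hq
    rw [dotProduct_mulVec, vecMul_mulVec, h1] at hq
    simpa using hq
  have e : w • (1 : Matrix ι ι ℝ) + G = w • (1 + w⁻¹ • (U * diagonal d * Uᵀ)) := by
    rw [← h3, smul_add, smul_smul, mul_inv_cancel₀ hw.ne', one_smul]
  have hp : ∀ i, 0 < 1 + w⁻¹ * d i := fun i => by
    have := mul_nonneg (inv_nonneg.2 hw.le) (hd i)
    linarith
  rw [e, det_smul, det_one_add h2, Real.log_mul (pow_pos hw _).ne'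
    (Finset.prod_pos fun i _ => hp i).ne', Real.log_pow, Real.log_prod (fun i _ => (hp i).ne')]
  have : 0 ≤ ∑ i, Real.log (1 + w⁻¹ * d i) := Finset.sum_nonneg fun i _ => by
    apply Real.log_nonneg
    have := mul_nonneg (inv_nonneg.2 hw.le) (hd i)
    linarith
  linarith

theorem dot_self_pos {a : ι → ℝ} (h : a ≠ 0) : 0 < a ⬝ᵥ a := by
  obtain ⟨i, hi⟩ : ∃ i, a i ≠ 0 := by
    by_contra hc
    push Not at hc
    exact h (funext hc)
  refine Finset.sum_pos' (fun j _ => mul_self_nonneg (a j)) ⟨i, Finset.mem_univ i, ?_⟩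
  exact mul_self_pos.2 hi

/-- **(F4)** `Q T Q ≤ b Q` for an orthogonal projection `Q` gives `Q ≤ b T⁻¹`. -/
theorem proj_le {T Q : Matrix ι ι ℝ} (hT : T.PosDef) (hQ : Q.IsHermitian) (hQQ : Q * Q = Q)
    {b : ℝ} (hb0 : 0 ≤ b)
    (hb : ∀ a : ι → ℝ, (Q *ᵥ a) ⬝ᵥ T *ᵥ (Q *ᵥ a) ≤ b * ((Q *ᵥ a) ⬝ᵥ (Q *ᵥ a)))
    (z : ι → ℝ) : z ⬝ᵥ Q *ᵥ z ≤ b * (z ⬝ᵥ T⁻¹ *ᵥ z) := by
  have h1 : z ⬝ᵥ Q *ᵥ z = (Q *ᵥ z) ⬝ᵥ (Q *ᵥ z) := by
    conv_lhs => rw [← hQQ]
    rw [← mulVec_mulVec, dot_mulVec, tr_eq hQ]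
  have hz := quad_nonneg hT.inv.posSemidef z
  by_cases hq : Q *ᵥ z = 0
  · rw [h1, hq]
    simpa using mul_nonneg hb0 hz
  · have hpos := dot_self_pos hq
    have hp := hT.dotProduct_mulVec_pos hq
    simp only [star_trivial] at hp
    have hbz := hb z
    have hbp : 0 < b := by
      rcases hb0.lt_or_eq with h | h
      · exact h
      · rw [← h, zero_mul] at hbz
        exact absurd hp (not_lt.2 hbz)
    have hc := cs_inv hT (Q *ᵥ z) z (c := b⁻¹) (inv_pos.2 hbp) 1 (by norm_num)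
    rw [inv_inv] at hc
    have h4 : (Q *ᵥ z) ⬝ᵥ z = (Q *ᵥ z) ⬝ᵥ (Q *ᵥ z) := by rw [dotProduct_comm, h1]
    rw [h4] at hc
    have h5 : b⁻¹ * ((Q *ᵥ z) ⬝ᵥ T *ᵥ (Q *ᵥ z)) ≤ (Q *ᵥ z) ⬝ᵥ (Q *ᵥ z) := by
      rw [inv_mul_le_iff₀ hbp]
      exact hbz
    rw [h1]
    linarith

/-- the trace of `Q M` against quadratic forms: `tr (B Q Bᵀ) = ∑ rows`. -/
theorem trace_conj (B Q : Matrix ι ι ℝ) :
    (B * Q * Bᵀ).trace = ∑ i, (B i) ⬝ᵥ Q *ᵥ (B i) := by
  simp only [trace, diag_apply, Matrix.mul_assoc, Matrix.mul_apply, transpose_apply]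
  refine Finset.sum_congr rfl fun i _ => ?_
  simp only [dotProduct, mulVec]

/-- **(F4)** the trace form: `tr (Q X T⁻¹ X Q) ≤ b tr (T⁻¹ X T⁻¹ X)`. -/
theorem trace_proj_le {T X Q : Matrix ι ι ℝ} (hT : T.PosDef) (hX : X.IsHermitian)
    (hQ : Q.IsHermitian) (hQQ : Q * Q = Q) {b : ℝ} (hb0 : 0 ≤ b)
    (hb : ∀ a : ι → ℝ, (Q *ᵥ a) ⬝ᵥ T *ᵥ (Q *ᵥ a) ≤ b * ((Q *ᵥ a) ⬝ᵥ (Q *ᵥ a))) :
    (Q * (X * T⁻¹ * X) * Q).trace ≤ b * (T⁻¹ * X * T⁻¹ * X).trace := by
  obtain ⟨S, hS1, hS2⟩ := exists_white hT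
  set B : Matrix ι ι ℝ := Sᵀ * X with hB
  have hBt : Bᵀ = X * S := by rw [hB, transpose_mul, transpose_transpose, tr_eq hX]
  have e1 : (Q * (X * T⁻¹ * X) * Q).trace = (B * Q * Bᵀ).trace := by
    rw [hBt, hB, ← hS2]
    calc (Q * (X * (S * Sᵀ) * X) * Q).trace = (Q * (Q * (X * (S * Sᵀ) * X))).trace :=
          trace_mul_comm _ _
      _ = ((Q * Q) * (X * S * (Sᵀ * X))).trace := by simp only [Matrix.mul_assoc]
      _ = ((Q * (X * S)) * (Sᵀ * X)).trace := by rw [hQQ]; simp only [Matrix.mul_assoc]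
      _ = ((Sᵀ * X) * (Q * (X * S))).trace := trace_mul_comm _ _
      _ = (Sᵀ * X * Q * (X * S)).trace := by simp only [Matrix.mul_assoc]
  have e2 : (T⁻¹ * X * T⁻¹ * X).trace = (B * T⁻¹ * Bᵀ).trace := by
    rw [hBt, hB, ← hS2]
    calc (S * Sᵀ * X * (S * Sᵀ) * X).trace = (S * (Sᵀ * X * (S * Sᵀ) * X)).trace := by
          simp only [Matrix.mul_assoc]
      _ = ((Sᵀ * X * (S * Sᵀ) * X) * S).trace := trace_mul_comm _ _
      _ = (Sᵀ * X * (S * Sᵀ) * (X * S)).trace := by simp only [Matrix.mul_assoc]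
  rw [e1, e2, trace_conj, trace_conj, Finset.mul_sum]
  exact Finset.sum_le_sum fun i _ => proj_le hT hQ hQQ hb0 hb (B i)

/-- `|D · X a| ≤ (D·T D)^(1/2) (X a · T⁻¹ X a)^(1/2)` in the product form. -/
theorem cs_flow {T : Matrix ι ι ℝ} (hT : T.PosDef) (D z : ι → ℝ) :
    (D ⬝ᵥ z) ^ 2 ≤ (D ⬝ᵥ T *ᵥ D) * (z ⬝ᵥ T⁻¹ *ᵥ z) := by
  have hdet : IsUnit T.det := hT.det_pos.ne'.isUnit
  have h1 : T *ᵥ (T⁻¹ *ᵥ z) = z := by
    rw [mulVec_mulVec, mul_nonsing_inv _ hdet, one_mulVec]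
  have hz : 0 ≤ z ⬝ᵥ T⁻¹ *ᵥ z := quad_nonneg hT.inv.posSemidef z
  have hD : 0 ≤ D ⬝ᵥ T *ᵥ D := quad_nonneg hT.posSemidef D
  have h2 : (T⁻¹ *ᵥ z) ⬝ᵥ z = z ⬝ᵥ T⁻¹ *ᵥ z := dotProduct_comm _ _
  have hq : ∀ c : ℝ, 0 ≤ D ⬝ᵥ T *ᵥ D + 2 * c * (D ⬝ᵥ z) + c ^ 2 * (z ⬝ᵥ T⁻¹ *ᵥ z) := by
    intro c
    have h0 := quad_nonneg hT.posSemidef (D + c • (T⁻¹ *ᵥ z))
    rwa [quad_add hT.isHermitian, h1, h2] at h0
  rcases hz.lt_or_eq with h | h
  · have h3 := hq (-(D ⬝ᵥ z) / (z ⬝ᵥ T⁻¹ *ᵥ z))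
    have h4 : D ⬝ᵥ T *ᵥ D + 2 * (-(D ⬝ᵥ z) / (z ⬝ᵥ T⁻¹ *ᵥ z)) * (D ⬝ᵥ z) +
        (-(D ⬝ᵥ z) / (z ⬝ᵥ T⁻¹ *ᵥ z)) ^ 2 * (z ⬝ᵥ T⁻¹ *ᵥ z) =
        D ⬝ᵥ T *ᵥ D - (D ⬝ᵥ z) ^ 2 / (z ⬝ᵥ T⁻¹ *ᵥ z) := by
      field_simp
      ring
    rw [h4] at h3
    rw [sub_nonneg, div_le_iff₀ h] at h3
    exact h3
  · rw [← h, mul_zero]
    have hDz : D ⬝ᵥ z = 0 := by
      by_contra hne
      have h3 := hq (-(D ⬝ᵥ T *ᵥ D + 1) / (2 * (D ⬝ᵥ z)))
      rw [← h, mul_zero, add_zero] at h3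
      have h4 : D ⬝ᵥ T *ᵥ D + 2 * (-(D ⬝ᵥ T *ᵥ D + 1) / (2 * (D ⬝ᵥ z))) * (D ⬝ᵥ z) = -1 := by
        field_simp
        ring
      rw [h4] at h3
      linarith
    rw [hDz]
    norm_num

end Vale.Agent.P141.H483
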