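import Vale.Agent.P141.H483.Chain

/-!
# P141, line (A): the moving lemma (rows 12348, 12688 (E)), nested form

`M = √l K⁻¹ dK K⁻¹` at a cell, `V` a vector path with `V (child) = V (parent) ± θ ξ`.

* `move_half` : `(1/2) ⟪w, B⁻¹ w⟫ ≤ mean ⟪V', K'⁻¹ V'⟫ - ⟪V, B⁻¹ V⟫ + mean ⟪ξ, K'⁻¹ ξ⟫`, `w = D B⁻¹ V`;
* `move_node` : `|M V|² ≤ 2 √l (mean ⟪V', K'⁻¹ V'⟫ - ⟪V, K⁻¹ V⟫) + 2 |ξ|²`;
* `move_tree` : `SUM |M V|² ≤ 2 mean |V_END|² + 2 SUM |ξ|²` on the tree;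
* `mart_tree` : `mean |V_END|² = |V_top|² + SUM |θ ξ|²`.
-/

namespace Vale.Agent.P141.H483

open Matrix Finset
open Vale.Agent.P141.H420 hiding tsum

set_option linter.unusedSectionVars false

variable {ι : Type*} [Fintype ι] [DecidableEq ι]

/-- `|a|² / 2 ≤ |b|² + |a - b|²` for a positive semidefinite form. -/
theorem quad_half {T : Matrix ι ι ℝ} (hT : T.PosSemidef) (a b : ι → ℝ) :
    (1 / 2) * (a ⬝ᵥ T *ᵥ a) ≤ b ⬝ᵥ T *ᵥ b + (b - a) ⬝ᵥ T *ᵥ (b - a) := by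
  have h0 := quad_nonneg hT (a + (-2 : ℝ) • b)
  have e1 : b - a = b + (-1 : ℝ) • a := by simp [sub_eq_add_neg]
  rw [e1, quad_add hT.isHermitian]
  rw [quad_add hT.isHermitian] at h0
  rw [symm_dot hT.isHermitian b a]
  linarith

/-- **one node**, weights with the mean `B` of the two children. -/
theorem move_half {P M B D : Matrix ι ι ℝ} (hP : P.PosDef) (hM : M.PosDef) (hB : B.PosDef)
    (eP : B + D = P) (eM : B - D = M) (V ξ : ι → ℝ) :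
    (1 / 2) * ((D *ᵥ (B⁻¹ *ᵥ V)) ⬝ᵥ B⁻¹ *ᵥ (D *ᵥ (B⁻¹ *ᵥ V))) ≤
      (1 / 2) * ((V + ξ) ⬝ᵥ P⁻¹ *ᵥ (V + ξ) + (V - ξ) ⬝ᵥ M⁻¹ *ᵥ (V - ξ)) - V ⬝ᵥ B⁻¹ *ᵥ V +
        (1 / 2) * (ξ ⬝ᵥ P⁻¹ *ᵥ ξ + ξ ⬝ᵥ M⁻¹ *ᵥ ξ) := by
  have h1 := mean_inv hP hM hB eP eM V ξ
  set w := D *ᵥ (B⁻¹ *ᵥ V) with hw
  have h2 := quad_half hP.inv.posSemidef w ξ
  have h3 := quad_half hM.inv.posSemidef w ξ
  have h4 := mean_inv_ge hP hM hB eP eM w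
  linarith

/-- `|√l K⁻¹ w|² ≤ √l ⟪w, K⁻¹ w⟫`. -/
theorem inv_sq_le {l : ℝ} {G K : Matrix ι ι ℝ} (hl : 0 < l) (hG : G.PosSemidef) (hK : K.PosDef)
    (h : K * K = l • (1 : Matrix ι ι ℝ) + G) (w : ι → ℝ) :
    (√l • (K⁻¹ *ᵥ w)) ⬝ᵥ (√l • (K⁻¹ *ᵥ w)) ≤ √l * (w ⬝ᵥ K⁻¹ *ᵥ w) := by
  have h2 := H186.sqrt_le_form hK.posSemidef hG hl.le h (K⁻¹ *ᵥ w)
  rw [H186.inv_mulVec hK, dotProduct_comm (K⁻¹ *ᵥ w) w] at h2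
  have h3 := mul_le_mul_of_nonneg_left h2 (Real.sqrt_nonneg l)
  simp only [smul_dotProduct, dotProduct_smul, smul_eq_mul]
  linarith

/-- **one node**, weights `K` of the parent: `M = √l K⁻¹ dK K⁻¹`. -/
theorem move_node {l : ℝ} {G D K Kp Km : Matrix ι ι ℝ} (h : H186.Nd l G D K Kp Km)
    (V ξ : ι → ℝ) :
    H186.xi l K Kp Km V ⬝ᵥ H186.xi l K Kp Km V ≤
      2 * √l * ((1 / 2) * ((V + ξ) ⬝ᵥ Kp⁻¹ *ᵥ (V + ξ) + (V - ξ) ⬝ᵥ Km⁻¹ *ᵥ (V - ξ)) -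
        V ⬝ᵥ K⁻¹ *ᵥ V) + 2 * (ξ ⬝ᵥ ξ) := by
  have h1 := h.gap V ξ
  set w := ((1 / 2 : ℝ) • (Kp - Km)) *ᵥ (K⁻¹ *ᵥ V) with hw
  have h2 := quad_half h.K0.inv.posSemidef w ξ
  have h3 := inv_sq_le h.lpos h.G0 h.K0 h.h0 w
  have h4 := H186.inv_form_le h.K0 h.G0 h.lpos h.h0 ξ
  have hs : 0 < √l := Real.sqrt_pos.2 h.lpos
  have e : H186.xi l K Kp Km V = √l • (K⁻¹ *ᵥ w) := rfl
  rw [e]
  have h5 : √l * (ξ ⬝ᵥ K⁻¹ *ᵥ ξ) ≤ ξ ⬝ᵥ ξ := by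
    have := mul_le_mul_of_nonneg_left h4 hs.le
    rwa [mul_div_cancel₀ _ hs.ne'] at this
  have h6 : √l * (w ⬝ᵥ K⁻¹ *ᵥ w) ≤
      2 * √l * ((1 / 2) * ((V + ξ) ⬝ᵥ Kp⁻¹ *ᵥ (V + ξ) + (V - ξ) ⬝ᵥ Km⁻¹ *ᵥ (V - ξ)) -
        V ⬝ᵥ K⁻¹ *ᵥ V) + 2 * (√l * (ξ ⬝ᵥ K⁻¹ *ᵥ ξ)) := by
    have h7 : (1 / 2) * (w ⬝ᵥ K⁻¹ *ᵥ w) ≤
        (1 / 2) * ((V + ξ) ⬝ᵥ Kp⁻¹ *ᵥ (V + ξ) + (V - ξ) ⬝ᵥ Km⁻¹ *ᵥ (V - ξ)) -
          V ⬝ᵥ K⁻¹ *ᵥ V + ξ ⬝ᵥ K⁻¹ *ᵥ ξ := by linarith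
    have h8 := mul_le_mul_of_nonneg_left h7 (by positivity : (0 : ℝ) ≤ 2 * √l)
    linarith
  linarith

/-- the moving path on the tree: the children of `(k + 1, m)` carry `V ± ξ`. -/
structure Mv (n : ℕ) (V ξ : ℕ → ℤ → ι → ℝ) : Prop where
  left : ∀ k < n, ∀ m, V k (2 * m) = V (k + 1) m + ξ (k + 1) m
  right : ∀ k < n, ∀ m, V k (2 * m + 1) = V (k + 1) m - ξ (k + 1) m

/-- **`mean |V_END|² = |V_top|² + SUM |ξ|²`**. -/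
theorem mart_tree {n : ℕ} {V ξ : ℕ → ℤ → ι → ℝ} (h : Mv n V ξ) {k : ℕ} (hk : k ≤ n) (m : ℤ) :
    H420.tsum (fun j i => ξ j i ⬝ᵥ ξ j i) k m =
      tmean (fun i => V 0 i ⬝ᵥ V 0 i) k m - V k m ⬝ᵥ V k m := by
  refine tsum_eq_mean (F := fun j i => V j i ⬝ᵥ V j i) (fun j hj i => ?_) k hk m
  rw [h.left j hj i, h.right j hj i]
  simp only [add_dotProduct, dotProduct_add, sub_dotProduct, dotProduct_sub]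
  ring

/-- **the moving lemma on the tree (parent form)**:
`SUM |M V|² ≤ 2 √l mean ⟪V_END, K_END⁻¹ V_END⟫ + 2 SUM |ξ|²`. -/
theorem move_tree {l : ℝ} {n : ℕ} {G K : ℕ → ℤ → Matrix ι ι ℝ} (h : Tr l n G K)
    {V ξ : ℕ → ℤ → ι → ℝ} (hV : Mv n V ξ) {k : ℕ} (hk : k ≤ n) (m : ℤ) :
    H420.tsum (fun j i => H186.xi l (K j i) (K (j - 1) (2 * i)) (K (j - 1) (2 * i + 1)) (V j i) ⬝ᵥ
      H186.xi l (K j i) (K (j - 1) (2 * i)) (K (j - 1) (2 * i + 1)) (V j i) -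
        2 * (ξ j i ⬝ᵥ ξ j i)) k m ≤
      tmean (fun i => 2 * √l * (V 0 i ⬝ᵥ (K 0 i)⁻¹ *ᵥ V 0 i)) k m -
        2 * √l * (V k m ⬝ᵥ (K k m)⁻¹ *ᵥ V k m) := by
  refine tsum_le_mean (F := fun j i => 2 * √l * (V j i ⬝ᵥ (K j i)⁻¹ *ᵥ V j i))
    (fun j hj i => ?_) k hk m
  have h1 := move_node (nd' h hj i) (V (j + 1) i) (ξ (j + 1) i)
  rw [← hV.left j hj i, ← hV.right j hj i] at h1
  simp only [Nat.add_sub_cancel]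
  linarith

theorem tsum_add (f g : ℕ → ℤ → ℝ) : ∀ k m, H420.tsum (fun j i => f j i + g j i) k m =
    H420.tsum f k m + H420.tsum g k m := by
  intro k
  induction k with
  | zero => intro m; simp [H420.tsum]
  | succ k ih => intro m; simp only [H420.tsum, ih]; ring

theorem tsum_mul (c : ℝ) (f : ℕ → ℤ → ℝ) : ∀ k m, H420.tsum (fun j i => c * f j i) k m =
    c * H420.tsum f k m := by
  intro k
  induction k with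
  | zero => intro m; simp [H420.tsum]
  | succ k ih => intro m; simp only [H420.tsum, ih]; ring

/-- **the moving lemma on the tree**: `SUM |M V|² ≤ 2 |V_top|² + 4 SUM |ξ|²`. -/
theorem move_tree' {l : ℝ} {n : ℕ} {G K : ℕ → ℤ → Matrix ι ι ℝ} (h : Tr l n G K)
    {V ξ : ℕ → ℤ → ι → ℝ} (hV : Mv n V ξ) {k : ℕ} (hk : k ≤ n) (m : ℤ) :
    H420.tsum (fun j i => H186.xi l (K j i) (K (j - 1) (2 * i)) (K (j - 1) (2 * i + 1)) (V j i) ⬝ᵥ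
      H186.xi l (K j i) (K (j - 1) (2 * i)) (K (j - 1) (2 * i + 1)) (V j i)) k m ≤
      2 * (V k m ⬝ᵥ V k m) + 4 * H420.tsum (fun j i => ξ j i ⬝ᵥ ξ j i) k m := by
  have h1 := move_tree h hV hk m
  have h2 := mart_tree hV hk m
  have hs : 0 ≤ √l := Real.sqrt_nonneg l
  have e1 := tsum_add (fun j i => H186.xi l (K j i) (K (j - 1) (2 * i)) (K (j - 1) (2 * i + 1))
      (V j i) ⬝ᵥ H186.xi l (K j i) (K (j - 1) (2 * i)) (K (j - 1) (2 * i + 1)) (V j i) -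
        2 * (ξ j i ⬝ᵥ ξ j i)) (fun j i => 2 * (ξ j i ⬝ᵥ ξ j i)) k m
  rw [tsum_mul] at e1
  simp only [sub_add_cancel] at e1
  have h3 : tmean (fun i => 2 * √l * (V 0 i ⬝ᵥ (K 0 i)⁻¹ *ᵥ V 0 i)) k m ≤
      tmean (fun i => 2 * (V 0 i ⬝ᵥ V 0 i)) k m := by
    refine tmean_mono (fun i => ?_) k m
    have h4 := H186.inv_form_le (h.pdK 0 i) (h.psG 0 i) h.l_pos (h.sq 0 i) (V 0 i)
    have hs' : 0 < √l := Real.sqrt_pos.2 h.l_pos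
    have := mul_le_mul_of_nonneg_left h4 hs
    rw [mul_div_cancel₀ _ hs'.ne'] at this
    linarith
  have h6 : tmean (fun i => 2 * (V 0 i ⬝ᵥ V 0 i)) k m = 2 * tmean (fun i => V 0 i ⬝ᵥ V 0 i) k m :=
    tmean_mul 2 (fun i => V 0 i ⬝ᵥ V 0 i) k m
  have h5 : 0 ≤ 2 * √l * (V k m ⬝ᵥ (K k m)⁻¹ *ᵥ V k m) :=
    mul_nonneg (by positivity) (quad_nonneg (h.pdK k m).inv.posSemidef _)
  rw [e1]
  linarith

end Vale.Agent.P141.H483
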