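import Mathlib

/-!
# P141, line (A), label cut: square sums along a nested sequence (Rademacher - Menshov)

`q k` square functions (`QS`), static bound `SUM_k q k u ≤ m N u` for every fixed vector `u`.
`nest_le`: for a sequence `w k` with orthogonal increments which jumps less than `2 ^ L` times,
`SUM_k q k (w k) ≤ (L + 2) ^ 2 m N (w n)`; `nest_proj`: `w k = v - P k v`, `P k` nested
projections; `jump_le`: the number of jumps is at most `tr (P 0)`.
-/

namespace Vale.Agent.P141.H483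

open Finset Matrix

noncomputable section

variable {V : Type*} [AddCommGroup V]

/-- square of a seminorm, in the form used below -/
def QS (q : V → ℝ) : Prop :=
  (∀ a, 0 ≤ q a) ∧ ∀ a b : V, ∀ ε : ℝ, 0 < ε → q (a + b) ≤ (1 + ε) * q a + (1 + ε⁻¹) * q b

theorem QS.zero : QS (fun _ : V => (0 : ℝ)) :=
  ⟨fun _ => le_rfl, fun _ _ ε hε => by simp⟩

theorem QS.add {q r : V → ℝ} (hq : QS q) (hr : QS r) : QS (fun a => q a + r a) :=
  ⟨fun a => add_nonneg (hq.1 a) (hr.1 a), fun a b ε hε => by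
    have h1 := hq.2 a b ε hε
    have h2 := hr.2 a b ε hε
    dsimp only
    linarith⟩

theorem QS.smul {q : V → ℝ} (hq : QS q) {c : ℝ} (hc : 0 ≤ c) : QS (fun a => c * q a) :=
  ⟨fun a => mul_nonneg hc (hq.1 a), fun a b ε hε => by
    have h1 := mul_le_mul_of_nonneg_left (hq.2 a b ε hε) hc
    dsimp only
    linarith⟩

theorem QS.sum {α : Type*} (s : Finset α) {q : α → V → ℝ} (hq : ∀ i ∈ s, QS (q i)) :
    QS (fun a => ∑ i ∈ s, q i a) := by
  classical
  induction s using Finset.induction_on with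
  | empty => simpa using (QS.zero (V := V))
  | insert i s hi ih =>
    have h := QS.add (hq i (mem_insert_self i s)) (ih fun j hj => hq j (mem_insert_of_mem hj))
    simpa only [sum_insert hi] using h

/-- squares of additive real functions -/
theorem QS.of_add {f : V → ℝ} (hf : ∀ a b, f (a + b) = f a + f b) : QS (fun a => f a ^ 2) :=
  ⟨fun a => sq_nonneg _, fun a b ε hε => by
    dsimp only
    rw [hf]
    have h : 0 ≤ (ε * f a - f b) ^ 2 * ε⁻¹ := mul_nonneg (sq_nonneg _) (inv_nonneg.2 hε.le)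
    have e : (ε * f a - f b) ^ 2 * ε⁻¹ = ε * f a ^ 2 - 2 * (f a * f b) + ε⁻¹ * f b ^ 2 := by
      field_simp
      ring
    rw [e] at h
    nlinarith [h]⟩

/-- squares of additive maps into coordinate spaces -/
theorem QS.of_dot {κ : Type*} [Fintype κ] {f : V → κ → ℝ} (hf : ∀ a b, f (a + b) = f a + f b) :
    QS (fun a => f a ⬝ᵥ f a) := by
  have h := QS.sum (V := V) (univ : Finset κ) (q := fun i a => f a i ^ 2)
    (fun i _ => QS.of_add (f := fun a => f a i) fun a b => by rw [hf]; rfl)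
  have e : (fun a => f a ⬝ᵥ f a) = fun a => ∑ i, f a i ^ 2 := by
    funext a
    simp only [dotProduct, pow_two]
  rw [e]
  exact h

theorem QS.at_zero {q : V → ℝ} (hq : QS q) (h : ∀ a, q a + q a ≤ q (a + a)) : q 0 = 0 := by
  have h1 := h 0
  rw [add_zero] at h1
  linarith [hq.1 0]

/-- number of jumps of `w` in `[a, c)` -/
def jmp (w : ℕ → V) (a c : ℕ) : ℕ := by
  classical exact ((Ico a c).filter fun j => w (j + 1) ≠ w j).card

omit [AddCommGroup V] in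
theorem jmp_self (w : ℕ → V) (a : ℕ) : jmp w a a = 0 := by
  classical
  simp [jmp]

omit [AddCommGroup V] in
theorem jmp_add (w : ℕ → V) {a e c : ℕ} (h1 : a ≤ e) (h2 : e ≤ c) :
    jmp w a c = jmp w a e + jmp w e c := by
  classical
  unfold jmp
  rw [← card_union_of_disjoint, ← filter_union, Ico_union_Ico_eq_Ico h1 h2]
  exact disjoint_filter_filter (Ico_disjoint_Ico_consecutive a e c)

omit [AddCommGroup V] in
theorem eq_of_jmp {w : ℕ → V} {a c : ℕ} (h0 : jmp w a c = 0) (h : a ≤ c) : w c = w a := by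
  classical
  induction c, h using Nat.le_induction with
  | base => rfl
  | succ c hc ih =>
    have h1 : jmp w a c = 0 := by
      have := jmp_add w hc (show c ≤ c + 1 by omega)
      omega
    have h2 : w (c + 1) = w c := by
      by_contra hne
      have h3 : c ∈ (Ico a (c + 1)).filter fun j => w (j + 1) ≠ w j := by
        rw [mem_filter, mem_Ico]
        exact ⟨⟨hc, Nat.lt_succ_self c⟩, hne⟩
      have h4 : 0 < jmp w a (c + 1) := card_pos.2 ⟨c, h3⟩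
      omega
    rw [h2, ih h1]

/-- **core**: square sum of `w k - w a` over `[a, c]`, less than `2 ^ L` jumps -/
theorem nest_core {q : ℕ → V → ℝ} (hq : ∀ k, QS (q k)) {m : ℝ} (hm : 0 ≤ m) {w : ℕ → V}
    {N : ℕ → ℝ} {n : ℕ} (hN : ∀ a c, a ≤ c → c ≤ n → N a ≤ N c) (h0 : ∀ k, q k 0 = 0)
    (hst : ∀ a c, a ≤ c → c ≤ n → ∑ k ∈ range (n + 1), q k (w c - w a) ≤ m * (N c - N a))
    (L : ℕ) : ∀ a c, a ≤ c → c ≤ n → jmp w a c < 2 ^ L →
      ∑ k ∈ Icc a c, q k (w k - w a) ≤ ((L : ℝ) + 1) ^ 2 * (m * (N c - N a)) := by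
  classical
  induction L with
  | zero =>
    intro a c hac hcn hj
    have hj0 : jmp w a c = 0 := by simpa using hj
    have hz : ∑ k ∈ Icc a c, q k (w k - w a) = 0 := by
      refine sum_eq_zero fun k hk => ?_
      rw [mem_Icc] at hk
      have h1 : jmp w a k = 0 := by
        have := jmp_add w hk.1 hk.2
        omega
      rw [eq_of_jmp h1 hk.1, sub_self, h0]
    rw [hz]
    have := mul_nonneg hm (sub_nonneg.2 (hN a c hac hcn))
    simpa using this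
  | succ L ih =>
    intro a c hac hcn hj
    have hNac := sub_nonneg.2 (hN a c hac hcn)
    by_cases hsm : jmp w a c < 2 ^ L
    · refine (ih a c hac hcn hsm).trans ?_
      refine mul_le_mul_of_nonneg_right ?_ (mul_nonneg hm hNac)
      push_cast
      nlinarith [(Nat.cast_nonneg L : (0 : ℝ) ≤ (L : ℝ))]
    · -- the first `e` with `2 ^ L` jumps in `[a, e)`
      have hex : ∃ e, a ≤ e ∧ 2 ^ L ≤ jmp w a e := ⟨c, hac, not_lt.1 hsm⟩
      obtain ⟨e, ⟨hae, he⟩, hmin⟩ : ∃ e, (a ≤ e ∧ 2 ^ L ≤ jmp w a e) ∧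
          ∀ f < e, ¬(a ≤ f ∧ 2 ^ L ≤ jmp w a f) :=
        ⟨Nat.find hex, Nat.find_spec hex, fun f hf => Nat.find_min hex hf⟩
      have hec : e ≤ c := by
        by_contra hc
        exact hmin c (not_le.1 hc) ⟨hac, not_lt.1 hsm⟩
      have hpos : 0 < 2 ^ L := Nat.two_pow_pos L
      have hae' : a < e := by
        rcases Nat.lt_or_ge a e with h | h
        · exact h
        · have : a = e := le_antisymm hae h
          rw [← this, jmp_self] at he
          omega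
      obtain ⟨d, rfl⟩ : ∃ d, e = d + 1 := ⟨e - 1, by omega⟩
      have had : a ≤ d := Nat.lt_succ_iff.1 hae'
      have hd : jmp w a d < 2 ^ L := by
        by_contra h
        exact hmin d (Nat.lt_succ_self d) ⟨had, not_lt.1 h⟩
      have hee : jmp w (d + 1) c < 2 ^ L := by
        have h1 := jmp_add w hae hec
        have h2 : 2 ^ (L + 1) = 2 * 2 ^ L := by ring
        omega
      have hdn : d ≤ n := by omega
      have i1 := ih a d had hdn hd
      have i2 := ih (d + 1) c hec hcn hee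
      have hsp : Icc a c = Icc a d ∪ Icc (d + 1) c := by
        ext k
        simp only [mem_union, mem_Icc]
        omega
      have hdj : Disjoint (Icc a d) (Icc (d + 1) c) := by
        rw [disjoint_left]
        intro k hk hk'
        simp only [mem_Icc] at hk hk'
        omega
      have hL : (0 : ℝ) < (L : ℝ) + 1 := by positivity
      have i3 : ∑ k ∈ Icc (d + 1) c, q k (w k - w a) ≤
          (1 + ((L : ℝ) + 1)) * ∑ k ∈ Icc (d + 1) c, q k (w (d + 1) - w a)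
            + (1 + ((L : ℝ) + 1)⁻¹) * ∑ k ∈ Icc (d + 1) c, q k (w k - w (d + 1)) := by
        rw [mul_sum, mul_sum, ← sum_add_distrib]
        refine sum_le_sum fun k _ => ?_
        have h := (hq k).2 (w (d + 1) - w a) (w k - w (d + 1)) ((L : ℝ) + 1) hL
        have e1 : w (d + 1) - w a + (w k - w (d + 1)) = w k - w a := by abel
        rwa [e1] at h
      have i4 : ∑ k ∈ Icc (d + 1) c, q k (w (d + 1) - w a) ≤ m * (N (d + 1) - N a) := by
        refine (sum_le_sum_of_subset_of_nonneg ?_ fun k _ _ => (hq k).1 _).trans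
          (hst a (d + 1) hae (hec.trans hcn))
        intro k hk
        rw [mem_Icc] at hk
        rw [mem_range]
        omega
      have i5 : N d ≤ N (d + 1) := hN d (d + 1) (Nat.le_succ d) (hec.trans hcn)
      have i6 : N (d + 1) ≤ N c := hN _ _ hec hcn
      have i7 : N a ≤ N d := hN _ _ had hdn
      rw [hsp, sum_union hdj]
      have hb : (1 + ((L : ℝ) + 1)⁻¹) * (((L : ℝ) + 1) ^ 2 * (m * (N c - N (d + 1))))
          = ((L : ℝ) + 1) * ((L : ℝ) + 2) * (m * (N c - N (d + 1))) := by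
        field_simp
        ring
      have i8 : (1 + ((L : ℝ) + 1)⁻¹) * ∑ k ∈ Icc (d + 1) c, q k (w k - w (d + 1)) ≤
          ((L : ℝ) + 1) * ((L : ℝ) + 2) * (m * (N c - N (d + 1))) := by
        rw [← hb]
        exact mul_le_mul_of_nonneg_left i2 (by positivity)
      have i9 : (1 + ((L : ℝ) + 1)) * ∑ k ∈ Icc (d + 1) c, q k (w (d + 1) - w a) ≤
          (1 + ((L : ℝ) + 1)) * (m * (N (d + 1) - N a)) :=
        mul_le_mul_of_nonneg_left i4 (by positivity)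
      have i10 : ((L : ℝ) + 1) ^ 2 * (m * (N d - N a)) ≤
          ((L : ℝ) + 1) ^ 2 * (m * (N (d + 1) - N a)) := by
        refine mul_le_mul_of_nonneg_left (mul_le_mul_of_nonneg_left (by linarith) hm)
          (by positivity)
      have x0 : 0 ≤ m * (N (d + 1) - N a) := mul_nonneg hm (by linarith)
      have y0 : 0 ≤ m * (N c - N (d + 1)) := mul_nonneg hm (by linarith)
      have hL0 : (0 : ℝ) ≤ (L : ℝ) := Nat.cast_nonneg L
      have e2 : m * (N c - N a) = m * (N (d + 1) - N a) + m * (N c - N (d + 1)) := by ring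
      rw [e2]
      push_cast
      nlinarith [mul_nonneg hL0 x0, mul_nonneg hL0 y0, x0, y0, i1, i3, i8, i9, i10]

/-- **square sum along a nested sequence** -/
theorem nest_le {q : ℕ → V → ℝ} (hq : ∀ k, QS (q k)) {m : ℝ} (hm : 0 ≤ m) {w : ℕ → V}
    {N : ℕ → ℝ} {n : ℕ} (hN : ∀ a c, a ≤ c → c ≤ n → N a ≤ N c) (hN0 : 0 ≤ N 0)
    (h0 : ∀ k, q k 0 = 0)
    (hst : ∀ a c, a ≤ c → c ≤ n → ∑ k ∈ range (n + 1), q k (w c - w a) ≤ m * (N c - N a))
    (hs0 : ∑ k ∈ range (n + 1), q k (w 0) ≤ m * N 0) {L : ℕ} (hL : jmp w 0 n < 2 ^ L) :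
    ∑ k ∈ range (n + 1), q k (w k) ≤ ((L : ℝ) + 2) ^ 2 * (m * N n) := by
  have hLp : (0 : ℝ) < (L : ℝ) + 1 := by positivity
  have h1 := nest_core hq hm hN h0 hst L 0 n (Nat.zero_le n) le_rfl hL
  have hr : Icc 0 n = range (n + 1) := by
    ext k
    simp only [mem_Icc, mem_range]
    omega
  rw [hr] at h1
  have h2 : ∑ k ∈ range (n + 1), q k (w k) ≤
      (1 + ((L : ℝ) + 1)) * ∑ k ∈ range (n + 1), q k (w 0)
        + (1 + ((L : ℝ) + 1)⁻¹) * ∑ k ∈ range (n + 1), q k (w k - w 0) := by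
    rw [mul_sum, mul_sum, ← sum_add_distrib]
    refine sum_le_sum fun k _ => ?_
    have h := (hq k).2 (w 0) (w k - w 0) ((L : ℝ) + 1) hLp
    have e1 : w 0 + (w k - w 0) = w k := by abel
    rwa [e1] at h
  have h3 : (1 + ((L : ℝ) + 1)) * ∑ k ∈ range (n + 1), q k (w 0) ≤
      (1 + ((L : ℝ) + 1)) * (m * N 0) := mul_le_mul_of_nonneg_left hs0 (by positivity)
  have hb : (1 + ((L : ℝ) + 1)⁻¹) * (((L : ℝ) + 1) ^ 2 * (m * (N n - N 0)))
      = ((L : ℝ) + 1) * ((L : ℝ) + 2) * (m * (N n - N 0)) := by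
    field_simp
    ring
  have h4 : (1 + ((L : ℝ) + 1)⁻¹) * ∑ k ∈ range (n + 1), q k (w k - w 0) ≤
      ((L : ℝ) + 1) * ((L : ℝ) + 2) * (m * (N n - N 0)) := by
    rw [← hb]
    exact mul_le_mul_of_nonneg_left h1 (by positivity)
  have x0 : 0 ≤ m * N 0 := mul_nonneg hm hN0
  have y0 : 0 ≤ m * (N n - N 0) := mul_nonneg hm (sub_nonneg.2 (hN 0 n (Nat.zero_le n) le_rfl))
  have e2 : m * N n = m * N 0 + m * (N n - N 0) := by ring
  rw [e2]
  have hL0 : (0 : ℝ) ≤ (L : ℝ) := Nat.cast_nonneg L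
  nlinarith [mul_nonneg hL0 x0, mul_nonneg hL0 y0, mul_nonneg (mul_nonneg hL0 hL0) x0]

/-! ### nested projections -/

section proj

variable {ι : Type*} [Fintype ι] [DecidableEq ι]

omit [DecidableEq ι] in
/-- a nonzero projection has trace at least one -/
theorem one_le_trace {Q : Matrix ι ι ℝ} (hs : Qᵀ = Q) (hp : Q * Q = Q) (h : Q ≠ 0) :
    1 ≤ Q.trace := by
  obtain ⟨i, j, hij⟩ : ∃ i j, Q i j ≠ 0 := by
    by_contra hc
    push Not at hc
    exact h (Matrix.ext hc)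
  let u : ι → ℝ := fun l => Q l j
  have hu : ∀ l, u l = ∑ r, Q l r * u r := fun l => by
    have := congrFun (congrFun hp l) j
    rw [Matrix.mul_apply] at this
    exact this.symm
  have hd : ∀ l, ∑ r, Q l r ^ 2 = Q l l := fun l => by
    have := congrFun (congrFun hp l) l
    rw [Matrix.mul_apply] at this
    rw [← this]
    refine sum_congr rfl fun r _ => ?_
    have e : Q r l = Q l r := by
      conv_lhs => rw [← hs]
      rfl
    rw [e, pow_two]
  have h1 : ∀ l, u l ^ 2 ≤ Q l l * ∑ r, u r ^ 2 := fun l => by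
    have h2 := sum_mul_sq_le_sq_mul_sq univ (fun r => Q l r) u
    rw [hd, ← hu] at h2
    exact h2
  have hpos : 0 < ∑ r, u r ^ 2 := by
    have h3 : u i ^ 2 ≤ ∑ r, u r ^ 2 :=
      single_le_sum (f := fun r => u r ^ 2) (fun r _ => sq_nonneg _) (mem_univ i)
    have h4 : 0 < u i ^ 2 := by
      have : u i ≠ 0 := hij
      positivity
    linarith
  have h5 : ∑ l, u l ^ 2 ≤ Q.trace * ∑ r, u r ^ 2 := by
    rw [Matrix.trace, sum_mul]
    exact sum_le_sum fun l _ => h1 l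
  by_contra hc
  have h6 : Q.trace * ∑ r, u r ^ 2 < 1 * ∑ r, u r ^ 2 :=
    mul_lt_mul_of_pos_right (not_le.1 hc) hpos
  linarith

variable {P : ℕ → Matrix ι ι ℝ} {n : ℕ}

omit [DecidableEq ι] in
theorem diff_proj (hs : ∀ k ≤ n, (P k)ᵀ = P k)
    (hn : ∀ a c, a ≤ c → c ≤ n → P a * P c = P c) {a c : ℕ} (hac : a ≤ c) (hc : c ≤ n) :
    (P a - P c)ᵀ = P a - P c ∧ (P a - P c) * (P a - P c) = P a - P c := by
  have h1 := hn a c hac hc
  have h2 : P c * P a = P c := by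
    have := congrArg Matrix.transpose h1
    rwa [transpose_mul, hs c hc, hs a (hac.trans hc)] at this
  have h3 := hn a a le_rfl (hac.trans hc)
  have h4 := hn c c le_rfl hc
  refine ⟨by rw [transpose_sub, hs a (hac.trans hc), hs c hc], ?_⟩
  rw [Matrix.sub_mul, Matrix.mul_sub, Matrix.mul_sub, h1, h2, h3, h4]
  abel

omit [DecidableEq ι] in
theorem diff_dot (hs : ∀ k ≤ n, (P k)ᵀ = P k)
    (hn : ∀ a c, a ≤ c → c ≤ n → P a * P c = P c) {a c : ℕ} (hac : a ≤ c) (hc : c ≤ n)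
    (v : ι → ℝ) : (P a *ᵥ v - P c *ᵥ v) ⬝ᵥ (P a *ᵥ v - P c *ᵥ v)
      = v ⬝ᵥ P a *ᵥ v - v ⬝ᵥ P c *ᵥ v := by
  obtain ⟨h1, h2⟩ := diff_proj hs hn hac hc
  rw [← Matrix.sub_mulVec, ← dotProduct_sub, ← Matrix.sub_mulVec]
  calc ((P a - P c) *ᵥ v) ⬝ᵥ ((P a - P c) *ᵥ v)
      = v ⬝ᵥ ((P a - P c)ᵀ * (P a - P c)) *ᵥ v := by
        rw [← Matrix.mulVec_mulVec, dotProduct_mulVec v, Matrix.vecMul_transpose]
    _ = _ := by rw [h1, h2]

omit [DecidableEq ι] in
theorem proj_dot (hs : ∀ k ≤ n, (P k)ᵀ = P k)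
    (hn : ∀ a c, a ≤ c → c ≤ n → P a * P c = P c) {k : ℕ} (hk : k ≤ n) (v : ι → ℝ) :
    (v - P k *ᵥ v) ⬝ᵥ (v - P k *ᵥ v) = v ⬝ᵥ v - v ⬝ᵥ P k *ᵥ v := by
  have h1 : (P k *ᵥ v) ⬝ᵥ (P k *ᵥ v) = v ⬝ᵥ P k *ᵥ v := by
    calc (P k *ᵥ v) ⬝ᵥ (P k *ᵥ v) = v ⬝ᵥ ((P k)ᵀ * P k) *ᵥ v := by
          rw [← Matrix.mulVec_mulVec, dotProduct_mulVec v, Matrix.vecMul_transpose]
      _ = _ := by rw [hs k hk, hn k k le_rfl hk]
  rw [sub_dotProduct, dotProduct_sub, dotProduct_sub, h1, dotProduct_comm (P k *ᵥ v) v]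
  ring

/-- jumps of `v - P k v` are at most the trace of the finest projection -/
theorem jmp_le_trace (hs : ∀ k ≤ n, (P k)ᵀ = P k)
    (hn : ∀ a c, a ≤ c → c ≤ n → P a * P c = P c) (v : ι → ℝ) :
    (jmp (fun k => v - P k *ᵥ v) 0 n : ℝ) ≤ (P 0).trace := by
  classical
  have h1 : ∀ j, j < n → (if (v - P (j + 1) *ᵥ v ≠ v - P j *ᵥ v) then (1 : ℝ) else 0) ≤
      (P j).trace - (P (j + 1)).trace := by
    intro j hj
    obtain ⟨h1, h2⟩ := diff_proj hs hn (Nat.le_succ j) hj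
    rw [← trace_sub]
    split_ifs with h
    · refine one_le_trace h1 h2 fun h0 => h ?_
      rw [sub_eq_zero] at h0
      rw [h0]
    · have h3 : (P j - P (j + 1)).trace = ∑ i, ∑ r, (P j - P (j + 1)) i r ^ 2 := by
        conv_lhs => rw [← h2]
        rw [Matrix.trace]
        refine sum_congr rfl fun i _ => ?_
        rw [Matrix.diag_apply, Matrix.mul_apply]
        refine sum_congr rfl fun r _ => ?_
        have e : (P j - P (j + 1)) r i = (P j - P (j + 1)) i r := by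
          conv_lhs => rw [← h1]
          rfl
        rw [e, pow_two]
      rw [h3]
      exact sum_nonneg fun i _ => sum_nonneg fun r _ => sq_nonneg _
  have h2 : (jmp (fun k => v - P k *ᵥ v) 0 n : ℝ)
      = ∑ j ∈ range n, if (v - P (j + 1) *ᵥ v ≠ v - P j *ᵥ v) then (1 : ℝ) else 0 := by
    unfold jmp
    rw [Nat.Ico_zero_eq_range, card_filter]
    push_cast
    refine sum_congr rfl fun j _ => ?_
    split_ifs <;> rfl
  have h3 : ∑ j ∈ range n, ((P j).trace - (P (j + 1)).trace) = (P 0).trace - (P n).trace := by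
    rw [sum_range_sub']
  have h4 : 0 ≤ (P n).trace := by
    have hp := hn n n le_rfl le_rfl
    have hsn := hs n le_rfl
    have h5 : (P n).trace = ∑ i, ∑ r, P n i r ^ 2 := by
      conv_lhs => rw [← hp]
      rw [Matrix.trace]
      refine sum_congr rfl fun i _ => ?_
      rw [Matrix.diag_apply, Matrix.mul_apply]
      refine sum_congr rfl fun r _ => ?_
      have e : P n r i = P n i r := by
        conv_lhs => rw [← hsn]
        rfl
      rw [e, pow_two]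
    rw [h5]
    exact sum_nonneg fun i _ => sum_nonneg fun r _ => sq_nonneg _
  rw [h2]
  refine (sum_le_sum fun j hj => h1 j (mem_range.1 hj)).trans ?_
  rw [h3]
  linarith

/-- **nested projections**: static bound `m |u|²` for every fixed label vector ==> square sum of
`(1 - P k) v` at most `(L + 2)² m |v|²` -/
theorem nest_proj {q : ℕ → (ι → ℝ) → ℝ} (hq : ∀ k, QS (q k)) {m : ℝ} (hm : 0 ≤ m)
    (h0 : ∀ k, q k 0 = 0) (hst : ∀ u, ∑ k ∈ range (n + 1), q k u ≤ m * (u ⬝ᵥ u))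
    (hs : ∀ k ≤ n, (P k)ᵀ = P k) (hn : ∀ a c, a ≤ c → c ≤ n → P a * P c = P c) (v : ι → ℝ)
    {L : ℕ} (hL : (P 0).trace < 2 ^ L) :
    ∑ k ∈ range (n + 1), q k (v - P k *ᵥ v) ≤ ((L : ℝ) + 2) ^ 2 * (m * (v ⬝ᵥ v)) := by
  have hN : ∀ a c, a ≤ c → c ≤ n →
      v ⬝ᵥ v - v ⬝ᵥ P a *ᵥ v ≤ v ⬝ᵥ v - v ⬝ᵥ P c *ᵥ v := fun a c hac hc => by
    have h1 := diff_dot hs hn hac hc v
    have h2 : 0 ≤ (P a *ᵥ v - P c *ᵥ v) ⬝ᵥ (P a *ᵥ v - P c *ᵥ v) := by
      simp only [dotProduct]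
      exact sum_nonneg fun i _ => mul_self_nonneg _
    linarith
  have h2 : ∀ u : ι → ℝ, 0 ≤ u ⬝ᵥ u := fun u => by
    simp only [dotProduct]
    exact sum_nonneg fun i _ => mul_self_nonneg _
  have hj : jmp (fun k => v - P k *ᵥ v) 0 n < 2 ^ L := by
    have h1 := (jmp_le_trace hs hn v).trans_lt hL
    exact_mod_cast h1
  have h3 := nest_le hq hm (w := fun k => v - P k *ᵥ v)
    (N := fun k => v ⬝ᵥ v - v ⬝ᵥ P k *ᵥ v) (n := n) hN
    (by
      have := h2 (v - P 0 *ᵥ v)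
      rw [proj_dot hs hn (Nat.zero_le n) v] at this
      exact this) h0
    (fun a c hac hc => by
      refine (hst _).trans (le_of_eq ?_)
      have e : v - P c *ᵥ v - (v - P a *ᵥ v) = P a *ᵥ v - P c *ᵥ v := by abel
      rw [e, diff_dot hs hn hac hc v]
      ring)
    (by
      refine (hst _).trans (le_of_eq ?_)
      rw [proj_dot hs hn (Nat.zero_le n) v]) hj
  refine h3.trans ?_
  refine mul_le_mul_of_nonneg_left (mul_le_mul_of_nonneg_left ?_ hm) (by positivity)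
  have h4 : 0 ≤ v ⬝ᵥ P n *ᵥ v := by
    have h5 := proj_dot hs hn (le_refl n) v
    have h6 : (P n *ᵥ v) ⬝ᵥ (P n *ᵥ v) = v ⬝ᵥ P n *ᵥ v := by
      calc (P n *ᵥ v) ⬝ᵥ (P n *ᵥ v) = v ⬝ᵥ ((P n)ᵀ * P n) *ᵥ v := by
            rw [← Matrix.mulVec_mulVec, dotProduct_mulVec v, Matrix.vecMul_transpose]
        _ = _ := by rw [hs n le_rfl, hn n n le_rfl le_rfl]
    rw [← h6]
    exact h2 _
  linarith

end proj

/-! ### the mean of the logarithmic factor -/

/-- `(log₂ p + 3)² ≤ (4 / δ + 3)² (1 + p) ^ δ` -/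
theorem log_sq_le {δ : ℝ} (hδ : 0 < δ) (p : ℕ) :
    ((Nat.log 2 p : ℝ) + 3) ^ 2 ≤ (4 / δ + 3) ^ 2 * (1 + (p : ℝ)) ^ δ := by
  have hx : (1 : ℝ) ≤ 1 + (p : ℝ) := by linarith [(Nat.cast_nonneg p : (0 : ℝ) ≤ p)]
  have hx0 : (0 : ℝ) ≤ 1 + (p : ℝ) := by linarith
  have h1 : (Nat.log 2 p : ℝ) ≤ 2 * Real.log (1 + p) := by
    rcases Nat.eq_zero_or_pos p with rfl | hp
    · simp
    have h2 : (2 : ℝ) ^ (Nat.log 2 p) ≤ p := by
      exact_mod_cast Nat.pow_log_le_self 2 hp.ne'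
    have h3 : Real.log ((2 : ℝ) ^ (Nat.log 2 p)) ≤ Real.log (1 + p) :=
      Real.log_le_log (by positivity) (by linarith)
    rw [Real.log_pow] at h3
    have h4 : (1 / 2 : ℝ) ≤ Real.log 2 := by
      have := Real.log_two_gt_d9
      linarith
    have h5 : (Nat.log 2 p : ℝ) * (1 / 2) ≤ (Nat.log 2 p : ℝ) * Real.log 2 :=
      mul_le_mul_of_nonneg_left h4 (Nat.cast_nonneg _)
    linarith
  have h6 : Real.log (1 + p) ≤ (1 + (p : ℝ)) ^ (δ / 2) / (δ / 2) :=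
    Real.log_le_rpow_div hx0 (by positivity)
  have h7 : (1 : ℝ) ≤ (1 + (p : ℝ)) ^ (δ / 2) := Real.one_le_rpow hx (by positivity)
  have h8 : (Nat.log 2 p : ℝ) + 3 ≤ (4 / δ + 3) * (1 + (p : ℝ)) ^ (δ / 2) := by
    have e : 2 * ((1 + (p : ℝ)) ^ (δ / 2) / (δ / 2)) = 4 / δ * (1 + (p : ℝ)) ^ (δ / 2) := by
      field_simp
      ring
    nlinarith
  have h9 : ((Nat.log 2 p : ℝ) + 3) ^ 2 ≤ ((4 / δ + 3) * (1 + (p : ℝ)) ^ (δ / 2)) ^ 2 :=
    pow_le_pow_left₀ (by positivity) h8 2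
  refine h9.trans (le_of_eq ?_)
  rw [mul_pow, ← Real.rpow_natCast ((1 + (p : ℝ)) ^ (δ / 2)) 2, ← Real.rpow_mul hx0]
  congr 2
  push_cast
  ring

/-- Jensen for the power `δ ≤ 1` -/
theorem mean_rpow_le {α : Type*} (s : Finset α) {μ x : α → ℝ} (hμ : ∀ i ∈ s, 0 ≤ μ i)
    (hx : ∀ i ∈ s, 0 ≤ x i) {δ : ℝ} (h0 : 0 < δ) (h1 : δ ≤ 1) :
    ∑ i ∈ s, μ i * x i ^ δ ≤ (∑ i ∈ s, μ i) ^ (1 - δ) * (∑ i ∈ s, μ i * x i) ^ δ := by
  have hM : 0 ≤ ∑ i ∈ s, μ i := sum_nonneg hμ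
  rcases hM.eq_or_lt with hz | hpos
  · have h2 : ∀ i ∈ s, μ i = 0 := (sum_eq_zero_iff_of_nonneg hμ).1 hz.symm
    have h3 : ∑ i ∈ s, μ i * x i ^ δ = 0 := sum_eq_zero fun i hi => by rw [h2 i hi, zero_mul]
    rw [h3]
    exact mul_nonneg (Real.rpow_nonneg hM _)
      (Real.rpow_nonneg (sum_nonneg fun i hi => mul_nonneg (hμ i hi) (hx i hi)) _)
  set M := ∑ i ∈ s, μ i with hMd
  have h4 := Real.rpow_arith_mean_le_arith_mean_rpow s (fun i => μ i / M) (fun i => x i ^ δ)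
    (fun i hi => div_nonneg (hμ i hi) hM) (by rw [← sum_div, ← hMd, div_self hpos.ne'])
    (fun i hi => Real.rpow_nonneg (hx i hi) _) (p := δ⁻¹) ((one_le_inv₀ h0).2 h1)
  have h5 : ∑ i ∈ s, μ i / M * (x i ^ δ) ^ δ⁻¹ = (∑ i ∈ s, μ i * x i) / M := by
    rw [sum_div]
    refine sum_congr rfl fun i hi => ?_
    rw [← Real.rpow_mul (hx i hi), mul_inv_cancel₀ h0.ne', Real.rpow_one]
    ring
  have h6 : ∑ i ∈ s, μ i / M * x i ^ δ = (∑ i ∈ s, μ i * x i ^ δ) / M := by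
    rw [sum_div]
    exact sum_congr rfl fun i _ => by ring
  rw [h5, h6] at h4
  have hA : 0 ≤ (∑ i ∈ s, μ i * x i ^ δ) / M :=
    div_nonneg (sum_nonneg fun i hi => mul_nonneg (hμ i hi) (Real.rpow_nonneg (hx i hi) _)) hM
  have hB : 0 ≤ ∑ i ∈ s, μ i * x i := sum_nonneg fun i hi => mul_nonneg (hμ i hi) (hx i hi)
  have h7 := Real.rpow_le_rpow (Real.rpow_nonneg hA _) h4 h0.le
  rw [← Real.rpow_mul hA, inv_mul_cancel₀ h0.ne', Real.rpow_one, Real.div_rpow hB hM] at h7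
  rw [div_le_iff₀ hpos] at h7
  refine h7.trans (le_of_eq ?_)
  rw [Real.rpow_sub hpos, Real.rpow_one]
  have : M ^ δ ≠ 0 := (Real.rpow_pos_of_pos hpos _).ne'
  field_simp

/-- **the mean of the factor of `nest_proj`**: values `Q i ≤ (L + 2)² m μ i` for every `L` with
`T i < 2 ^ L` have the sum `C(δ) m (Σ μ) ^ (1 - δ) (Σ μ (1 + T)) ^ δ` -/
theorem nest_mean {α : Type*} (s : Finset α) {Q μ T : α → ℝ} {m : ℝ} (hm : 0 ≤ m)
    (hμ : ∀ i ∈ s, 0 ≤ μ i) (hT : ∀ i ∈ s, 0 ≤ T i)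
    (hQ : ∀ i ∈ s, ∀ L : ℕ, T i < 2 ^ L → Q i ≤ ((L : ℝ) + 2) ^ 2 * (m * μ i))
    {δ : ℝ} (h0 : 0 < δ) (h1 : δ ≤ 1) :
    ∑ i ∈ s, Q i ≤ (4 / δ + 3) ^ 2 * m *
      ((∑ i ∈ s, μ i) ^ (1 - δ) * (∑ i ∈ s, μ i * (1 + T i)) ^ δ) := by
  have h2 : ∀ i ∈ s, Q i ≤ (4 / δ + 3) ^ 2 * m * (μ i * (1 + T i) ^ δ) := by
    intro i hi
    have h3 : T i < 2 ^ (Nat.log 2 ⌊T i⌋₊ + 1) := by
      have h4 : T i < (⌊T i⌋₊ : ℝ) + 1 := Nat.lt_floor_add_one _
      have h5 : ⌊T i⌋₊ < 2 ^ (Nat.log 2 ⌊T i⌋₊ + 1) := Nat.lt_pow_succ_log_self (by norm_num) _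
      have h6 : (⌊T i⌋₊ : ℝ) + 1 ≤ 2 ^ (Nat.log 2 ⌊T i⌋₊ + 1) := by exact_mod_cast h5
      linarith
    have h7 := hQ i hi _ h3
    have h8 := log_sq_le h0 ⌊T i⌋₊
    have h9 : (1 + (⌊T i⌋₊ : ℝ)) ^ δ ≤ (1 + T i) ^ δ :=
      Real.rpow_le_rpow (by positivity) (by linarith [Nat.floor_le (hT i hi)]) h0.le
    have hmμ := mul_nonneg hm (hμ i hi)
    have e : ((((Nat.log 2 ⌊T i⌋₊ + 1 : ℕ) : ℝ)) + 2) ^ 2
        = ((Nat.log 2 ⌊T i⌋₊ : ℝ) + 3) ^ 2 := by
      push_cast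
      ring
    rw [e] at h7
    calc Q i ≤ ((Nat.log 2 ⌊T i⌋₊ : ℝ) + 3) ^ 2 * (m * μ i) := h7
      _ ≤ ((4 / δ + 3) ^ 2 * (1 + T i) ^ δ) * (m * μ i) :=
          mul_le_mul_of_nonneg_right
            (h8.trans (mul_le_mul_of_nonneg_left h9 (by positivity))) hmμ
      _ = _ := by ring
  refine (sum_le_sum h2).trans ?_
  rw [← mul_sum]
  refine mul_le_mul_of_nonneg_left ?_ (by positivity)
  exact mean_rpow_le s hμ (fun i hi => by linarith [hT i hi]) h0 h1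

end

end Vale.Agent.P141.H483
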