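import Vale.Agent.P141.H505.Node
import Vale.Agent.P141.H389.PlaneV
import Vale.Agent.P141.H442.Lip
import Vale.Agent.P141.H258.Wt
import Vale.Agent.P141.H585.PairCh

/-!
# P141, line (A): own energy of a moving slot, the multipliers act at the outer scale

`F a x y` : the slot at the outer scale `a`, `x` the hub variable, `y` the outer variable, values
in label space. On the two halves of the outer cell `n` of scale `a + 1` the slot moves by
`1 ± M (a+1) x n`. The Gram matrices live on (hub cell of scale `k`) × (labels).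
-/

namespace Vale.Agent.P141.H483

open Finset Matrix Vale.Agent.P075 Vale.Agent.P141.PL Vale.Agent.P141.H505
open Vale.Agent.P141.H389 (lvV SV SVM TV)

noncomputable section

variable {κ : Type*} [Fintype κ] [DecidableEq κ]

/-- samples: rows = (hub position, label), columns = outer positions -/
def sm (a k : ℕ) (f : ℤ → ℤ → κ → ℝ) (n m : ℤ) : Matrix (Ix k × κ) (Ix a) ℝ :=
  fun i j => f (2 ^ k * m + val k i.1) (2 ^ a * n + val a j) i.2

/-- Gram matrix on (hub cell `m` of scale `k`) × labels, outer cell `n` of scale `a` -/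
def GH (a k : ℕ) (f : ℤ → ℤ → κ → ℝ) (n m : ℤ) : Matrix (Ix k × κ) (Ix k × κ) ℝ :=
  ((2 : ℝ) ^ a * 2 ^ k)⁻¹ • (sm a k f n m * (sm a k f n m)ᵀ)

theorem GH_psd (a k : ℕ) (f : ℤ → ℤ → κ → ℝ) (n m : ℤ) : (GH a k f n m).PosSemidef :=
  (psd_mul_transpose (sm a k f n m)).smul (by positivity)

theorem GH_apply (a k : ℕ) (f : ℤ → ℤ → κ → ℝ) (n m : ℤ) (i i' : Ix k × κ) :
    GH a k f n m i i' = ((2 : ℝ) ^ a * 2 ^ k)⁻¹ * ∑ y ∈ iv a n,
      f (2 ^ k * m + val k i.1) y i.2 * f (2 ^ k * m + val k i'.1) y i'.2 := by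
  rw [H588.sum_iv a n fun y =>
    f (2 ^ k * m + val k i.1) y i.2 * f (2 ^ k * m + val k i'.1) y i'.2]
  simp only [GH, Matrix.smul_apply, smul_eq_mul, Matrix.mul_apply, Matrix.transpose_apply, sm]

/-- outer split -/
theorem GH_row (a k : ℕ) (f : ℤ → ℤ → κ → ℝ) (n m : ℤ) :
    GH (a + 1) k f n m = (1 / 2 : ℝ) • (GH a k f (2 * n) m + GH a k f (2 * n + 1) m) := by
  ext i i'
  rw [GH_apply, Matrix.smul_apply, Matrix.add_apply, GH_apply, GH_apply, H103.sum_iv_two,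
    smul_eq_mul, pow_succ]
  have : ((2 : ℝ) ^ a * 2 * 2 ^ k)⁻¹ = (1 / 2) * ((2 : ℝ) ^ a * 2 ^ k)⁻¹ := by
    rw [show (2 : ℝ) ^ a * 2 * 2 ^ k = 2 * ((2 : ℝ) ^ a * 2 ^ k) by ring, mul_inv]
    norm_num
  rw [this]
  ring

/-- trace of the Gram matrix -/
theorem tr_GH (a k : ℕ) (f : ℤ → ℤ → κ → ℝ) (n m : ℤ) :
    (GH a k f n m).trace = ((2 : ℝ) ^ a * 2 ^ k)⁻¹ *
      ∑ x ∈ iv k m, ∑ y ∈ iv a n, f x y ⬝ᵥ f x y := by
  rw [H588.sum_iv k m fun x => ∑ y ∈ iv a n, f x y ⬝ᵥ f x y]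
  simp only [Matrix.trace, Matrix.diag_apply, GH_apply]
  rw [← Finset.mul_sum, Fintype.sum_prod_type]
  congr 1
  refine Finset.sum_congr rfl fun i _ => ?_
  rw [Finset.sum_comm]
  rfl

/-! ### the middle split -/

/-- the two halves of the hub cell -/
def eqv (k : ℕ) (κ : Type*) : (Ix k × κ) ⊕ (Ix k × κ) ≃ Ix (k + 1) × κ :=
  (Equiv.sumProdDistrib (Ix k) (Ix k) κ).symm

/-- reindexed Gram matrix -/
def GS (a k : ℕ) (f : ℤ → ℤ → κ → ℝ) (n m : ℤ) :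
    Matrix ((Ix k × κ) ⊕ (Ix k × κ)) ((Ix k × κ) ⊕ (Ix k × κ)) ℝ :=
  (GH a (k + 1) f n m).submatrix (eqv k κ) (eqv k κ)

theorem GX_sub {p q : Type*} [Fintype p] [DecidableEq p] [Fintype q] [DecidableEq q]
    (e : p ≃ q) (X : Matrix q q ℝ) : GX (X.submatrix e e) = GX X := by
  have h1 : (X.submatrix e e).trace = X.trace := by
    simp only [Matrix.trace, Matrix.diag_apply, Matrix.submatrix_apply]
    exact Equiv.sum_comp e fun i => X i i
  have h2 : ld (X.submatrix e e) = ld X := by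
    rw [ld, ld]
    congr 1
    have : (1 : Matrix p p ℝ) + X.submatrix e e = (1 + X).submatrix e e := by
      ext i j
      simp [Matrix.one_apply]
    rw [this, Matrix.det_submatrix_equiv_self]
  rw [GX, GX, h1, h2]

theorem GS_psd (a k : ℕ) (f : ℤ → ℤ → κ → ℝ) (n m : ℤ) : (GS a k f n m).PosSemidef :=
  (GH_psd a (k + 1) f n m).submatrix _

theorem GS_ll (a k : ℕ) (f : ℤ → ℤ → κ → ℝ) (n m : ℤ) :
    (GS a k f n m).toBlocks₁₁ = (1 / 2 : ℝ) • GH a k f n (2 * m) := by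
  ext i i'
  have h : (GS a k f n m).toBlocks₁₁ i i' = ((2 : ℝ) ^ a * 2 ^ (k + 1))⁻¹ * ∑ y ∈ iv a n,
      f (2 ^ (k + 1) * m + val k i.1) y i.2 * f (2 ^ (k + 1) * m + val k i'.1) y i'.2 :=
    GH_apply a (k + 1) f n m (Sum.inl i.1, i.2) (Sum.inl i'.1, i'.2)
  rw [h, Matrix.smul_apply, GH_apply, smul_eq_mul, H588.half_pow, mul_assoc,
    show (2 : ℤ) ^ (k + 1) * m = 2 ^ k * (2 * m) by ring]

theorem GS_rr (a k : ℕ) (f : ℤ → ℤ → κ → ℝ) (n m : ℤ) :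
    (GS a k f n m).toBlocks₂₂ = (1 / 2 : ℝ) • GH a k f n (2 * m + 1) := by
  ext i i'
  have h : (GS a k f n m).toBlocks₂₂ i i' = ((2 : ℝ) ^ a * 2 ^ (k + 1))⁻¹ * ∑ y ∈ iv a n,
      f (2 ^ (k + 1) * m + ((2 ^ k + val k i.1 : ℕ) : ℤ)) y i.2
        * f (2 ^ (k + 1) * m + ((2 ^ k + val k i'.1 : ℕ) : ℤ)) y i'.2 :=
    GH_apply a (k + 1) f n m (Sum.inr i.1, i.2) (Sum.inr i'.1, i'.2)
  rw [h, Matrix.smul_apply, GH_apply, smul_eq_mul, H588.half_pow, mul_assoc]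
  have e : ∀ j : Ix k, (2 : ℤ) ^ (k + 1) * m + ((2 ^ k + val k j : ℕ) : ℤ)
      = 2 ^ k * (2 * m + 1) + val k j := by
    intro j
    push_cast; ring
  rw [e, e]

/-- the two halves -/
theorem GS_split (a k : ℕ) (f : ℤ → ℤ → κ → ℝ) (n m : ℤ) (μ : ℝ) :
    μ • GS a k f n m + rad (Ix k × κ) * (μ • GS a k f n m) * rad (Ix k × κ)
      = bd (μ • GH a k f n (2 * m)) (μ • GH a k f n (2 * m + 1)) := by
  rw [R.refl_add]
  have e1 : (μ • GS a k f n m).toBlocks₁₁ = μ • (GS a k f n m).toBlocks₁₁ := rfl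
  have e2 : (μ • GS a k f n m).toBlocks₂₂ = μ • (GS a k f n m).toBlocks₂₂ := rfl
  rw [e1, e2, GS_ll, GS_rr, smul_smul, smul_smul, smul_smul, smul_smul]
  congr 2 <;> ring

/-- middle split, one level -/
theorem GX_hub (a k : ℕ) (f : ℤ → ℤ → κ → ℝ) (n m : ℤ) {μ : ℝ} (hμ : 0 ≤ μ) :
    GX (μ • GH a (k + 1) f n m)
      ≤ (1 / 2) * (GX (μ • GH a k f n (2 * m)) + GX (μ • GH a k f n (2 * m + 1))) := by
  have hX : (μ • GS a k f n m).PosSemidef := smul_psd (GS_psd a k f n m) hμ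
  have h := R.GX_col hX (smul_psd (GH_psd a k f n (2 * m)) hμ)
    (smul_psd (GH_psd a k f n (2 * m + 1)) hμ) (GS_split a k f n m μ)
  have h0 : 0 ≤ (phi (μ • GS a k f n m)
      * (rad (Ix k × κ) * phi (μ • GS a k f n m) * rad (Ix k × κ))).trace :=
    trace_mul_nonneg (phi_psd hX) (psd_conj_symm (phi_psd hX) rad_symm)
  have e : GX (μ • GS a k f n m) = GX (μ • GH a (k + 1) f n m) := by
    rw [← GX_sub (eqv k κ) (μ • GH a (k + 1) f n m)]
    rfl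
  rw [e] at h
  linarith

/-- middle split, all levels -/
theorem SG_hub (a k : ℕ) (f : ℤ → ℤ → κ → ℝ) (n m : ℤ) {μ : ℝ} (hμ : 0 < μ) (J : ℕ) :
    SG μ J (GH a (k + 1) f n m)
      ≤ (1 / 2) * (SG μ J (GH a k f n (2 * m)) + SG μ J (GH a k f n (2 * m + 1))) := by
  unfold SG
  rw [← Finset.sum_add_distrib, Finset.mul_sum]
  refine Finset.sum_le_sum fun j _ => ?_
  have h := GX_hub a k f n m (μ := μ / 4 ^ j) (by positivity)
  have h2 := mul_le_mul_of_nonneg_left h (show (0 : ℝ) ≤ (μ / 4 ^ j)⁻¹ by positivity)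
  linarith

/-! ### the move -/

/-- the move of the slot between two outer scales -/
structure MvF (N : ℕ) (F : ℕ → ℤ → ℤ → κ → ℝ) (M : ℕ → ℤ → ℤ → Matrix κ κ ℝ) : Prop where
  left : ∀ a < N, ∀ x n, ∀ y ∈ iv a (2 * n),
    F a x y = F (a + 1) x y + M (a + 1) x n *ᵥ F (a + 1) x y
  right : ∀ a < N, ∀ x n, ∀ y ∈ iv a (2 * n + 1),
    F a x y = F (a + 1) x y - M (a + 1) x n *ᵥ F (a + 1) x y

/-- label matrices on the rows of a hub cell -/
def BM (k : ℕ) (m : ℤ) (L : ℤ → Matrix κ κ ℝ) : Matrix (Ix k × κ) (Ix k × κ) ℝ :=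
  fun i i' => if i.1 = i'.1 then L (2 ^ k * m + val k i.1) i.2 i'.2 else 0

theorem BM_transpose (k : ℕ) (m : ℤ) (L : ℤ → Matrix κ κ ℝ) :
    (BM k m L)ᵀ = BM k m fun x => (L x)ᵀ := by
  ext i i'
  simp only [BM, Matrix.transpose_apply]
  by_cases h : i.1 = i'.1
  · rw [if_pos h, if_pos h.symm, h]
  · rw [if_neg h, if_neg (Ne.symm h)]

theorem BM_mul {ι : Type*} [Fintype ι] (k : ℕ) (m : ℤ) (L : ℤ → Matrix κ κ ℝ)
    (S : Matrix (Ix k × κ) ι ℝ) (i : Ix k × κ) (j : ι) :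
    (BM k m L * S) i j = (L (2 ^ k * m + val k i.1) *ᵥ fun l => S (i.1, l) j) i.2 := by
  rw [Matrix.mul_apply, Fintype.sum_prod_type, Finset.sum_eq_single i.1]
  · simp [BM, Matrix.mulVec, dotProduct]
  · intro b _ hb
    refine Finset.sum_eq_zero fun l _ => ?_
    simp [BM, Ne.symm hb]
  · intro h
    exact absurd (mem_univ _) h

theorem pos_mem (a : ℕ) (n : ℤ) (j : Ix a) : 2 ^ a * n + (val a j : ℤ) ∈ iv a n := by
  have h := val_lt a j
  have h2 : ((val a j : ℕ) : ℤ) < 2 ^ a := by exact_mod_cast h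
  rw [iv, mem_Ico]
  constructor <;> linarith [Int.natCast_nonneg (val a j)]

theorem sm_move {a k : ℕ} {f g : ℤ → ℤ → κ → ℝ} {n m : ℤ} {L : ℤ → Matrix κ κ ℝ}
    (h : ∀ x, ∀ y ∈ iv a n, g x y = f x y + L x *ᵥ f x y) :
    sm a k g n m = (1 + BM k m L) * sm a k f n m := by
  rw [Matrix.add_mul, Matrix.one_mul]
  ext i j
  rw [Matrix.add_apply, BM_mul]
  simp only [sm]
  rw [h _ _ (pos_mem a n j)]
  rfl

theorem GH_move {a k : ℕ} {f g : ℤ → ℤ → κ → ℝ} {n m : ℤ} {L : ℤ → Matrix κ κ ℝ}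
    (h : ∀ x, ∀ y ∈ iv a n, g x y = f x y + L x *ᵥ f x y) :
    GH a k g n m = (1 + BM k m L) * GH a k f n m * (1 + BM k m L)ᵀ := by
  rw [GH, GH, sm_move h, Matrix.mul_smul, Matrix.smul_mul, transpose_mul]
  simp only [Matrix.mul_assoc]

theorem tr_BM (a k : ℕ) (f : ℤ → ℤ → κ → ℝ) (n m : ℤ) (L : ℤ → Matrix κ κ ℝ) :
    (BM k m L * GH a k f n m * (BM k m L)ᵀ).trace = ((2 : ℝ) ^ a * 2 ^ k)⁻¹ *
      ∑ x ∈ iv k m, ∑ y ∈ iv a n, (L x *ᵥ f x y) ⬝ᵥ (L x *ᵥ f x y) := by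
  have e : BM k m L * GH a k f n m * (BM k m L)ᵀ
      = ((2 : ℝ) ^ a * 2 ^ k)⁻¹ • ((BM k m L * sm a k f n m) * (BM k m L * sm a k f n m)ᵀ) := by
    rw [GH, Matrix.mul_smul, Matrix.smul_mul, transpose_mul]
    simp only [Matrix.mul_assoc]
  rw [e, trace_smul, smul_eq_mul]
  congr 1
  rw [H588.sum_iv k m fun x => ∑ y ∈ iv a n, (L x *ᵥ f x y) ⬝ᵥ (L x *ᵥ f x y)]
  simp only [Matrix.trace, Matrix.diag_apply, Matrix.mul_apply (M := BM k m L * sm a k f n m),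
    Matrix.transpose_apply, BM_mul, sm]
  rw [Fintype.sum_prod_type]
  refine Finset.sum_congr rfl fun i _ => ?_
  rw [H588.sum_iv a n fun y => (L (2 ^ k * m + val k i) *ᵥ f (2 ^ k * m + val k i) y)
    ⬝ᵥ (L (2 ^ k * m + val k i) *ᵥ f (2 ^ k * m + val k i) y), Finset.sum_comm]
  rfl

/-- energy of `L f` on a box, `L` a row matrix -/
def bx (a k : ℕ) (L : ℤ → Matrix κ κ ℝ) (f : ℤ → ℤ → κ → ℝ) (n m : ℤ) : ℝ :=
  ∑ x ∈ iv k m, ∑ y ∈ iv a n, (L x *ᵥ f x y) ⬝ᵥ (L x *ᵥ f x y)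

theorem bx_nonneg (a k : ℕ) (L : ℤ → Matrix κ κ ℝ) (f : ℤ → ℤ → κ → ℝ) (n m : ℤ) :
    0 ≤ bx a k L f n m :=
  Finset.sum_nonneg fun _ _ => Finset.sum_nonneg fun _ _ => H258.dp_nonneg _

/-- **node inequality** -/
theorem SG_move {N : ℕ} {F : ℕ → ℤ → ℤ → κ → ℝ} {M : ℕ → ℤ → ℤ → Matrix κ κ ℝ}
    (h : MvF N F M) {a : ℕ} (ha : a < N) (k : ℕ) (n m : ℤ) {μ : ℝ} (hμ : 0 < μ) (J : ℕ)
    (cap : ∀ n, (1 - (μ / 4 ^ J) • GH a k (F (a + 1)) n m).PosSemidef) :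
    SG μ J (GH (a + 1) k (F (a + 1)) n m)
        + (1 / 4) * SD μ J (GH a k (F (a + 1)) (2 * n) m) (GH a k (F (a + 1)) (2 * n + 1) m)
      ≤ (1 / 2) * (SG μ J (GH a k (F a) (2 * n) m) + SG μ J (GH a k (F a) (2 * n + 1) m))
        + 128 * ((J : ℝ) + 1) ^ 3 * (((2 : ℝ) ^ a * 2 ^ k)⁻¹
          * (bx a k (fun x => (M (a + 1) x n)ᵀ) (F (a + 1)) (2 * n) m
            + bx a k (fun x => M (a + 1) x n) (F (a + 1)) (2 * n + 1) m)) := by
  have q := SG_outer (GH_psd a k (F (a + 1)) (2 * n) m) (GH_psd a k (F (a + 1)) (2 * n + 1) m)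
    hμ J (cap _) (cap _) (BM k m fun x => M (a + 1) x n)
  have e0 := GH_move (k := k) (m := m) (h.left a ha · n)
  have e1 : GH a k (F a) (2 * n + 1) m = (1 - BM k m fun x => M (a + 1) x n)
      * GH a k (F (a + 1)) (2 * n + 1) m * (1 - BM k m fun x => M (a + 1) x n)ᵀ := by
    have e2 : (1 : Matrix (Ix k × κ) (Ix k × κ) ℝ) - BM k m (fun x => M (a + 1) x n)
        = 1 + BM k m fun x => -M (a + 1) x n := by
      rw [sub_eq_add_neg]
      congr 1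
      ext i i'
      simp only [BM, Matrix.neg_apply]
      split_ifs <;> simp
    rw [e2]
    refine GH_move fun x y hy => ?_
    rw [h.right a ha x n y hy, Matrix.neg_mulVec, sub_eq_add_neg]
  rw [← e0, ← e1, ← GH_row] at q
  have t0 := tr_BM a k (F (a + 1)) (2 * n) m fun x => (M (a + 1) x n)ᵀ
  rw [← BM_transpose, transpose_transpose] at t0
  have t1 := tr_BM a k (F (a + 1)) (2 * n + 1) m fun x => M (a + 1) x n
  rw [t0, t1] at q
  unfold bx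
  refine q.trans (le_of_eq ?_)
  ring

/-! ### energies -/

/-- energy of the family, outer scale `a`, hub scale `k`; roots: outer `T`, hub `S` -/
def ES (μ : ℝ) (J N : ℕ) (T S : ℤ) (F : ℕ → ℤ → ℤ → κ → ℝ) (a k : ℕ) : ℝ :=
  (2 : ℝ) ^ a * 2 ^ k * ∑ m ∈ iv (N - k) S, ∑ n ∈ iv (N - a) T, SG μ J (GH a k (F a) n m)

/-- gain of the outer split `a → a + 1` -/
def gnD (μ : ℝ) (J N : ℕ) (T S : ℤ) (F : ℕ → ℤ → ℤ → κ → ℝ) (a k : ℕ) : ℝ :=
  (2 : ℝ) ^ (a + 1) * 2 ^ k * ∑ m ∈ iv (N - k) S, ∑ n ∈ iv (N - (a + 1)) T,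
    SD μ J (GH a k (F (a + 1)) (2 * n) m) (GH a k (F (a + 1)) (2 * n + 1) m)

/-- energy of the moves at the outer scale `a` -/
def qD (N : ℕ) (T S : ℤ) (F : ℕ → ℤ → ℤ → κ → ℝ) (M : ℕ → ℤ → ℤ → Matrix κ κ ℝ) (a : ℕ) : ℝ :=
  ∑ x ∈ iv N S, ∑ y ∈ iv N T,
    ((M a x (ix a y) *ᵥ F a x y) ⬝ᵥ (M a x (ix a y) *ᵥ F a x y)
      + ((M a x (ix a y))ᵀ *ᵥ F a x y) ⬝ᵥ ((M a x (ix a y))ᵀ *ᵥ F a x y))

/-- energy of the slot at the outer scale `a` -/
def hD (N : ℕ) (T S : ℤ) (F : ℕ → ℤ → ℤ → κ → ℝ) (a : ℕ) : ℝ :=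
  ∑ x ∈ iv N S, ∑ y ∈ iv N T, F a x y ⬝ᵥ F a x y

theorem qD_nonneg (N : ℕ) (T S : ℤ) (F : ℕ → ℤ → ℤ → κ → ℝ) (M : ℕ → ℤ → ℤ → Matrix κ κ ℝ)
    (a : ℕ) : 0 ≤ qD N T S F M a :=
  Finset.sum_nonneg fun _ _ => Finset.sum_nonneg fun _ _ =>
    add_nonneg (H258.dp_nonneg _) (H258.dp_nonneg _)

/-- all boxes together -/
theorem sum_box {N a k : ℕ} (ha : a ≤ N) (hk : k ≤ N) (T S : ℤ) (w : ℤ → ℤ → ℤ → ℝ) :
    ∑ m ∈ iv (N - k) S, ∑ n ∈ iv (N - a) T, ∑ x ∈ iv k m, ∑ y ∈ iv a n, w n x y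
      = ∑ x ∈ iv N S, ∑ y ∈ iv N T, w (ix a y) x y := by
  have h1 : ∀ m, ∑ n ∈ iv (N - a) T, ∑ x ∈ iv k m, ∑ y ∈ iv a n, w n x y
      = ∑ x ∈ iv k m, ∑ y ∈ iv N T, w (ix a y) x y := by
    intro m
    rw [Finset.sum_comm]
    exact Finset.sum_congr rfl fun x _ => H258.sum_sub ha T fun n y => w n x y
  rw [Finset.sum_congr rfl fun m _ => h1 m]
  exact H258.sum_sub hk S fun _ x => ∑ y ∈ iv N T, w (ix a y) x y

/-- **outer step** -/
theorem ES_outer {N : ℕ} {F : ℕ → ℤ → ℤ → κ → ℝ} {M : ℕ → ℤ → ℤ → Matrix κ κ ℝ}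
    (h : MvF N F M) {a k : ℕ} (ha : a < N) (hk : k ≤ N) (T S : ℤ) {μ : ℝ} (hμ : 0 < μ) (J : ℕ)
    (cap : ∀ n m, (1 - (μ / 4 ^ J) • GH a k (F (a + 1)) n m).PosSemidef) :
    ES μ J N T S F (a + 1) k + (1 / 4) * gnD μ J N T S F a k
      ≤ ES μ J N T S F a k + 256 * ((J : ℝ) + 1) ^ 3 * qD N T S F M (a + 1) := by
  have e : N - a = (N - (a + 1)) + 1 := by omega
  set b : ℤ → ℤ → ℝ := fun n m => bx a k (fun x => (M (a + 1) x n)ᵀ) (F (a + 1)) (2 * n) m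
    + bx a k (fun x => M (a + 1) x n) (F (a + 1)) (2 * n + 1) m with hb
  have h1 : ∀ m n, SG μ J (GH (a + 1) k (F (a + 1)) n m)
      + (1 / 4) * SD μ J (GH a k (F (a + 1)) (2 * n) m) (GH a k (F (a + 1)) (2 * n + 1) m)
      ≤ (1 / 2) * (SG μ J (GH a k (F a) (2 * n) m) + SG μ J (GH a k (F a) (2 * n + 1) m))
        + 128 * ((J : ℝ) + 1) ^ 3 * (((2 : ℝ) ^ a * 2 ^ k)⁻¹ * b n m) := fun m n =>
    SG_move h ha k n m hμ J fun n => cap n m
  have h2 : (2 : ℝ) ^ (a + 1) * 2 ^ k * ∑ m ∈ iv (N - k) S, ∑ n ∈ iv (N - (a + 1)) T,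
      (SG μ J (GH (a + 1) k (F (a + 1)) n m)
        + (1 / 4) * SD μ J (GH a k (F (a + 1)) (2 * n) m) (GH a k (F (a + 1)) (2 * n + 1) m))
      ≤ (2 : ℝ) ^ (a + 1) * 2 ^ k * ∑ m ∈ iv (N - k) S, ∑ n ∈ iv (N - (a + 1)) T,
      ((1 / 2) * (SG μ J (GH a k (F a) (2 * n) m) + SG μ J (GH a k (F a) (2 * n + 1) m))
        + 128 * ((J : ℝ) + 1) ^ 3 * (((2 : ℝ) ^ a * 2 ^ k)⁻¹ * b n m)) :=
    mul_le_mul_of_nonneg_left (Finset.sum_le_sum fun m _ => Finset.sum_le_sum fun n _ => h1 m n)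
      (by positivity)
  have h3 : ∑ m ∈ iv (N - k) S, ∑ n ∈ iv (N - (a + 1)) T, b n m ≤ qD N T S F M (a + 1) := by
    have h4 := sum_box (show a + 1 ≤ N by omega) hk T S fun n x y =>
      (M (a + 1) x n *ᵥ F (a + 1) x y) ⬝ᵥ (M (a + 1) x n *ᵥ F (a + 1) x y)
        + ((M (a + 1) x n)ᵀ *ᵥ F (a + 1) x y) ⬝ᵥ ((M (a + 1) x n)ᵀ *ᵥ F (a + 1) x y)
    unfold qD
    rw [← h4]
    refine Finset.sum_le_sum fun m _ => Finset.sum_le_sum fun n _ => ?_
    simp only [hb, bx]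
    rw [← Finset.sum_add_distrib]
    refine Finset.sum_le_sum fun x _ => ?_
    rw [H103.sum_iv_two]
    refine add_le_add (Finset.sum_le_sum fun y _ => ?_) (Finset.sum_le_sum fun y _ => ?_)
    · linarith [H258.dp_nonneg (M (a + 1) x n *ᵥ F (a + 1) x y)]
    · linarith [H258.dp_nonneg ((M (a + 1) x n)ᵀ *ᵥ F (a + 1) x y)]
  have h5 : ES μ J N T S F a k = (2 : ℝ) ^ a * 2 ^ k * ∑ m ∈ iv (N - k) S,
      ∑ n ∈ iv (N - (a + 1)) T,
        (SG μ J (GH a k (F a) (2 * n) m) + SG μ J (GH a k (F a) (2 * n + 1) m)) := by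
    unfold ES
    rw [e]
    simp only [H588.sum_iv_succ (N - (a + 1)) T]
  have h6 := mul_le_mul_of_nonneg_left h3
    (show (0 : ℝ) ≤ 256 * ((J : ℝ) + 1) ^ 3 by positivity)
  have h7 : ES μ J N T S F (a + 1) k + (1 / 4) * gnD μ J N T S F a k
      = (2 : ℝ) ^ (a + 1) * 2 ^ k * ∑ m ∈ iv (N - k) S, ∑ n ∈ iv (N - (a + 1)) T,
      (SG μ J (GH (a + 1) k (F (a + 1)) n m)
        + (1 / 4) * SD μ J (GH a k (F (a + 1)) (2 * n) m) (GH a k (F (a + 1)) (2 * n + 1) m)) := by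
    unfold ES gnD
    simp only [Finset.sum_add_distrib, ← Finset.mul_sum]
    ring
  have h8 : (2 : ℝ) ^ (a + 1) * 2 ^ k * ∑ m ∈ iv (N - k) S, ∑ n ∈ iv (N - (a + 1)) T,
      ((1 / 2) * (SG μ J (GH a k (F a) (2 * n) m) + SG μ J (GH a k (F a) (2 * n + 1) m))
        + 128 * ((J : ℝ) + 1) ^ 3 * (((2 : ℝ) ^ a * 2 ^ k)⁻¹ * b n m))
      = ES μ J N T S F a k + 256 * ((J : ℝ) + 1) ^ 3
        * ∑ m ∈ iv (N - k) S, ∑ n ∈ iv (N - (a + 1)) T, b n m := by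
    rw [h5]
    have hne : (2 : ℝ) ^ a * 2 ^ k ≠ 0 := by positivity
    simp only [Finset.sum_add_distrib, ← Finset.mul_sum]
    rw [pow_succ]
    field_simp
    ring
  rw [h7]
  rw [h8] at h2
  linarith

/-- **middle step** -/
theorem ES_mid (a : ℕ) {N k : ℕ} (hk : k < N) (T S : ℤ) (F : ℕ → ℤ → ℤ → κ → ℝ) {μ : ℝ}
    (hμ : 0 < μ) (J : ℕ) : ES μ J N T S F a (k + 1) ≤ ES μ J N T S F a k := by
  have e : N - k = (N - (k + 1)) + 1 := by omega
  unfold ES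
  rw [e, H588.sum_iv_succ]
  have h1 : (2 : ℝ) ^ a * 2 ^ (k + 1) * ∑ m ∈ iv (N - (k + 1)) S, ∑ n ∈ iv (N - a) T,
      SG μ J (GH a (k + 1) (F a) n m)
      ≤ (2 : ℝ) ^ a * 2 ^ (k + 1) * ∑ m ∈ iv (N - (k + 1)) S, ∑ n ∈ iv (N - a) T,
      (1 / 2) * (SG μ J (GH a k (F a) n (2 * m)) + SG μ J (GH a k (F a) n (2 * m + 1))) :=
    mul_le_mul_of_nonneg_left (Finset.sum_le_sum fun m _ => Finset.sum_le_sum fun n _ =>
      SG_hub a k (F a) n m hμ J) (by positivity)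
  refine h1.trans (le_of_eq ?_)
  simp only [Finset.sum_add_distrib, ← Finset.mul_sum]
  rw [pow_succ]
  ring

theorem ld_nonneg' {n : Type*} [Fintype n] [DecidableEq n] {X : Matrix n n ℝ}
    (hX : X.PosSemidef) : 0 ≤ ld X := by
  have h1 := det_le_exp (res_psd hX)
  have h2 := (phi_psd hX).trace_nonneg
  rw [phi, trace_sub, trace_one] at h2
  have h3 : Real.exp ((res X).trace - Fintype.card n) ≤ 1 := by
    rw [← Real.exp_zero]
    exact Real.exp_le_exp.2 (by linarith)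
  rw [det_res hX] at h1
  have h4 := inv_le_one₀ (det_pos_one_add hX)
  exact Real.log_nonneg (h4.1 (h1.trans h3))

/-- `μ⁻¹ GX (μ X) ≤ tr X` -/
theorem GX_le_tr {n : Type*} [Fintype n] [DecidableEq n] {X : Matrix n n ℝ} (hX : X.PosSemidef)
    {μ : ℝ} (hμ : 0 < μ) : μ⁻¹ * GX (μ • X) ≤ X.trace := by
  have h := ld_nonneg' (smul_psd hX hμ.le)
  have e : μ⁻¹ * (μ • X).trace = X.trace := by
    rw [trace_smul, smul_eq_mul]
    field_simp
  rw [GX, mul_sub, e]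
  have : 0 ≤ μ⁻¹ * ld (μ • X) := mul_nonneg (inv_nonneg.2 hμ.le) h
  linarith

theorem SG_nonneg {n : Type*} [Fintype n] [DecidableEq n] {X : Matrix n n ℝ} (hX : X.PosSemidef)
    {μ : ℝ} (hμ : 0 < μ) (J : ℕ) : 0 ≤ SG μ J X :=
  Finset.sum_nonneg fun j _ => mul_nonneg (by positivity)
    (GX_nonneg (smul_psd hX (by positivity)))

theorem SG_le_tr {n : Type*} [Fintype n] [DecidableEq n] {X : Matrix n n ℝ} (hX : X.PosSemidef)
    {μ : ℝ} (hμ : 0 < μ) (J : ℕ) : SG μ J X ≤ ((J : ℝ) + 1) * X.trace := by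
  unfold SG
  refine (Finset.sum_le_sum fun j _ => GX_le_tr hX (μ := μ / 4 ^ j) (by positivity)).trans
    (le_of_eq ?_)
  rw [Finset.sum_const, card_range, nsmul_eq_mul]
  push_cast
  ring

theorem ES_nonneg (μ : ℝ) (hμ : 0 < μ) (J N : ℕ) (T S : ℤ) (F : ℕ → ℤ → ℤ → κ → ℝ) (a k : ℕ) :
    0 ≤ ES μ J N T S F a k :=
  mul_nonneg (by positivity) (Finset.sum_nonneg fun _ _ => Finset.sum_nonneg fun _ _ =>
    SG_nonneg (GH_psd ..) hμ J)

/-- trace sum of the family -/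
theorem tr_sum {N a k : ℕ} (ha : a ≤ N) (hk : k ≤ N) (T S : ℤ) (F : ℕ → ℤ → ℤ → κ → ℝ) :
    (2 : ℝ) ^ a * 2 ^ k * ∑ m ∈ iv (N - k) S, ∑ n ∈ iv (N - a) T, (GH a k (F a) n m).trace
      = hD N T S F a := by
  have h := sum_box ha hk T S fun _ x y => F a x y ⬝ᵥ F a x y
  unfold hD
  rw [← h]
  simp only [tr_GH, ← Finset.mul_sum]
  have hne : (2 : ℝ) ^ a * 2 ^ k ≠ 0 := by positivity
  rw [← mul_assoc, mul_inv_cancel₀ hne, one_mul]

theorem ES_le {N a k : ℕ} (ha : a ≤ N) (hk : k ≤ N) (T S : ℤ) (F : ℕ → ℤ → ℤ → κ → ℝ) {μ : ℝ}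
    (hμ : 0 < μ) (J : ℕ) : ES μ J N T S F a k ≤ ((J : ℝ) + 1) * hD N T S F a := by
  rw [← tr_sum ha hk T S F]
  unfold ES
  have h1 : (2 : ℝ) ^ a * 2 ^ k * ∑ m ∈ iv (N - k) S, ∑ n ∈ iv (N - a) T,
      SG μ J (GH a k (F a) n m)
      ≤ (2 : ℝ) ^ a * 2 ^ k * ∑ m ∈ iv (N - k) S, ∑ n ∈ iv (N - a) T,
      ((J : ℝ) + 1) * (GH a k (F a) n m).trace :=
    mul_le_mul_of_nonneg_left (Finset.sum_le_sum fun m _ => Finset.sum_le_sum fun n _ =>
      SG_le_tr (GH_psd ..) hμ J) (by positivity)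
  refine h1.trans (le_of_eq ?_)
  simp only [← Finset.mul_sum]
  ring

/-- **all gains on the diagonal `a = k + r`** -/
theorem gain_le {N : ℕ} {F : ℕ → ℤ → ℤ → κ → ℝ} {M : ℕ → ℤ → ℤ → Matrix κ κ ℝ}
    (h : MvF N F M) (T S : ℤ) {μ : ℝ} (hμ : 0 < μ) (J : ℕ)
    (cap : ∀ a k, k ≤ a → a < N → ∀ n m, (1 - (μ / 4 ^ J) • GH a k (F (a + 1)) n m).PosSemidef)
    {H : ℝ} (hH : ∀ a ≤ N, hD N T S F a ≤ H) (k₀ r : ℕ) :
    (1 / 4) * ∑ k ∈ (Ico k₀ N).filter (fun k => k + r < N), gnD μ J N T S F (k + r) k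
      ≤ ((J : ℝ) + 1) * H + 256 * ((J : ℝ) + 1) ^ 3 * ∑ a ∈ Icc 1 N, qD N T S F M a := by
  have q0 : ∀ s : Finset ℕ, 0 ≤ ∑ a ∈ s, qD N T S F M a := fun s =>
    Finset.sum_nonneg fun a _ => qD_nonneg N T S F M a
  have H0 : 0 ≤ H := by
    refine le_trans ?_ (hH N le_rfl)
    exact Finset.sum_nonneg fun _ _ => Finset.sum_nonneg fun _ _ => H258.dp_nonneg _
  have key : ∀ K, k₀ ≤ K → K + r ≤ N →
      (1 / 4) * ∑ k ∈ Ico k₀ K, gnD μ J N T S F (k + r) k + ES μ J N T S F (K + r) K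
        ≤ ES μ J N T S F (k₀ + r) k₀
          + 256 * ((J : ℝ) + 1) ^ 3 * ∑ k ∈ Ico k₀ K, qD N T S F M (k + r + 1) := by
    intro K hK
    induction K, hK using Nat.le_induction with
    | base => intro _; simp
    | succ K hK ih =>
      intro hKN
      have q := ih (by omega)
      have q1 := ES_outer h (a := K + r) (k := K) (by omega) (by omega) T S hμ J
        (cap (K + r) K (by omega) (by omega))
      have q2 := ES_mid (K + r + 1) (k := K) (N := N) (by omega) T S F hμ J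
      rw [sum_Ico_succ_top hK, sum_Ico_succ_top hK]
      have e : K + 1 + r = K + r + 1 := by omega
      rw [e]
      linarith
  rcases le_or_gt (k₀ + r) N with hc | hc
  · have hs : (Ico k₀ N).filter (fun k => k + r < N) = Ico k₀ (N - r) := by
      ext k
      simp only [mem_filter, mem_Ico]
      omega
    have q := key (N - r) (by omega) (by omega)
    have q1 := ES_nonneg μ hμ J N T S F (N - r + r) (N - r)
    have q2 := ES_le (a := k₀ + r) (k := k₀) hc (by omega) T S F hμ J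
    have q3 : ∑ k ∈ Ico k₀ (N - r), qD N T S F M (k + r + 1) ≤ ∑ a ∈ Icc 1 N, qD N T S F M a := by
      rw [← Finset.sum_image (s := Ico k₀ (N - r)) (g := fun k => k + r + 1)
        (f := fun a => qD N T S F M a) (fun a _ b _ hab => by
          have : a + r + 1 = b + r + 1 := hab
          omega)]
      refine sum_le_sum_of_subset_of_nonneg ?_ fun i _ _ => qD_nonneg N T S F M i
      intro x hx
      obtain ⟨k, hk, rfl⟩ := mem_image.mp hx
      rw [mem_Ico] at hk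
      rw [mem_Icc]
      omega
    have q4 := mul_le_mul_of_nonneg_left q3
      (show (0 : ℝ) ≤ 256 * ((J : ℝ) + 1) ^ 3 by positivity)
    have q5 := mul_le_mul_of_nonneg_left (hH (k₀ + r) hc)
      (show (0 : ℝ) ≤ (J : ℝ) + 1 by positivity)
    rw [hs]
    linarith
  · have hs : (Ico k₀ N).filter (fun k => k + r < N) = ∅ := by
      ext k
      simp only [mem_filter, mem_Ico, notMem_empty, iff_false]
      omega
    rw [hs, sum_empty, mul_zero]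
    have := q0 (Icc 1 N)
    positivity

/-! ### levels -/

/-- the family at level `s` (`s` = square of the level) -/
def PF (s : ℝ) (F : ℕ → ℤ → ℤ → κ → ℝ) (k a : ℕ) (n m : ℤ) :
    Matrix (Ix k × κ) (Ix k × κ) ℝ := H585.PairCh.phs s (GH a k (F a) n m)

theorem phs_symm' {n : Type*} [Fintype n] [DecidableEq n] {X : Matrix n n ℝ}
    (hX : X.PosSemidef) {s : ℝ} (hs : 0 < s) :
    (H585.PairCh.phs s X)ᵀ = H585.PairCh.phs s X := by
  rw [H585.PairCh.phs, transpose_smul, phi_symm (smul_psd hX (inv_nonneg.2 hs.le))]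

theorem PF_symm {s : ℝ} (hs : 0 < s) (F : ℕ → ℤ → ℤ → κ → ℝ) (k a : ℕ) (n m : ℤ) :
    (PF s F k a n m)ᵀ = PF s F k a n m := phs_symm' (GH_psd ..) hs

/-- `|phs s X|² ≤ s tr X` -/
theorem sq_phs_le {n : Type*} [Fintype n] [DecidableEq n] {X : Matrix n n ℝ}
    (hX : X.PosSemidef) {s : ℝ} (hs : 0 < s) :
    (H585.PairCh.phs s X * H585.PairCh.phs s X).trace ≤ s * X.trace := by
  have h := (H585.PairCh.phi_sq_le (smul_psd hX (inv_nonneg.2 hs.le))).trace_nonneg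
  rw [trace_sub, trace_smul, smul_eq_mul] at h
  rw [H585.PairCh.phs, Matrix.smul_mul, Matrix.mul_smul, trace_smul, trace_smul, smul_eq_mul,
    smul_eq_mul]
  have h2 := mul_le_mul_of_nonneg_left (sub_nonneg.1 h) (show (0 : ℝ) ≤ s * s by positivity)
  have e : s * s * (s⁻¹ * X.trace) = s * X.trace := by field_simp
  rw [e] at h2
  linarith

/-- Lipschitz step of one half -/
theorem sq_lip {a k : ℕ} {f g : ℤ → ℤ → κ → ℝ} {n m : ℤ} {L : ℤ → Matrix κ κ ℝ}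
    (h : ∀ x, ∀ y ∈ iv a n, g x y = f x y + L x *ᵥ f x y) {s : ℝ} (hs : 0 < s) :
    H389.sq (H585.PairCh.phs s (GH a k g n m) - H585.PairCh.phs s (GH a k f n m))
      ≤ s * (((2 : ℝ) ^ a * 2 ^ k)⁻¹ * bx a k L f n m) := by
  set c : ℝ := ((2 : ℝ) ^ a * 2 ^ k)⁻¹ with hc
  have c0 : 0 < c := by positivity
  have hG : ∀ u : ℤ → ℤ → κ → ℝ, GH a k u n m
      = (Real.sqrt c • sm a k u n m) * (Real.sqrt c • sm a k u n m)ᵀ := by
    intro u
    rw [GH, transpose_smul, Matrix.smul_mul, Matrix.mul_smul, smul_smul,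
      Real.mul_self_sqrt c0.le]
  have hl := H442.phi_lip_level (Real.sqrt_pos.2 hs) (Real.sqrt c • sm a k f n m)
    (Real.sqrt c • sm a k g n m)
  rw [← hG, ← hG, Real.sq_sqrt hs.le] at hl
  have e1 : Real.sqrt c • sm a k g n m - Real.sqrt c • sm a k f n m
      = Real.sqrt c • (BM k m L * sm a k f n m) := by
    rw [sm_move h, Matrix.add_mul, Matrix.one_mul, smul_add, add_sub_cancel_left]
  rw [e1, H442.hs_smul, Real.sq_sqrt c0.le] at hl
  have e2 : H442.hs (BM k m L * sm a k f n m) = bx a k L f n m := by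
    have h3 := tr_BM a k f n m L
    have e : BM k m L * GH a k f n m * (BM k m L)ᵀ
        = c • ((BM k m L * sm a k f n m) * (BM k m L * sm a k f n m)ᵀ) := by
      rw [GH, Matrix.mul_smul, Matrix.smul_mul, transpose_mul]
      simp only [Matrix.mul_assoc, hc]
    rw [e, trace_smul, smul_eq_mul, ← H442.hs_eq_trace] at h3
    exact mul_left_cancel₀ c0.ne' h3
  rw [e2] at hl
  have e3 : H389.sq (H585.PairCh.phs s (GH a k g n m) - H585.PairCh.phs s (GH a k f n m))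
      = H442.hs (s • phi (s⁻¹ • GH a k g n m) - s • phi (s⁻¹ • GH a k f n m)) := by
    rw [H442.hs_eq_trace, transpose_sub, transpose_smul, transpose_smul,
      phi_symm (smul_psd (GH_psd ..) (inv_nonneg.2 hs.le)),
      phi_symm (smul_psd (GH_psd ..) (inv_nonneg.2 hs.le))]
    rfl
  rw [e3]
  exact hl

/-- the static part -/
theorem sq_static {n : Type*} [Fintype n] [DecidableEq n] {X₀ X₁ : Matrix n n ℝ}
    (h0 : X₀.PosSemidef) (h1 : X₁.PosSemidef) {s : ℝ} (hs : 0 < s) :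
    H389.sq (H585.PairCh.phs s X₀ - H585.PairCh.phs s ((1 / 2 : ℝ) • (X₀ + X₁)))
      + H389.sq (H585.PairCh.phs s X₁ - H585.PairCh.phs s ((1 / 2 : ℝ) • (X₀ + X₁)))
      ≤ 4 * (s ^ 2 * (delt (s⁻¹ • X₀) (s⁻¹ • X₁)).trace) := by
  have p0 := smul_psd h0 (inv_nonneg.2 hs.le)
  have p1 := smul_psd h1 (inv_nonneg.2 hs.le)
  have eW : s⁻¹ • ((1 / 2 : ℝ) • (X₀ + X₁)) = (1 / 2 : ℝ) • (s⁻¹ • X₀ + s⁻¹ • X₁) := by module
  have a1 := R.hdiff_sq_le p0 p1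
  have a2 := R.delt_sq_le p0 p1
  set D := delt (s⁻¹ • X₀) (s⁻¹ • X₁) with hD
  set E := hdiff (s⁻¹ • X₀) (s⁻¹ • X₁) with hE
  have e0 : H585.PairCh.phs s X₀ - H585.PairCh.phs s ((1 / 2 : ℝ) • (X₀ + X₁)) = s • (E - D) := by
    rw [H585.PairCh.phs, H585.PairCh.phs, eW, hE, hD, hdiff, delt]
    module
  have e1 : H585.PairCh.phs s X₁ - H585.PairCh.phs s ((1 / 2 : ℝ) • (X₀ + X₁))
      = s • (-E - D) := by
    rw [H585.PairCh.phs, H585.PairCh.phs, eW, hE, hD, hdiff, delt]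
    module
  have e2 : H389.sq (s • (E - D)) + H389.sq (s • (-E - D))
      = s ^ 2 * (2 * (E * E).trace + 2 * (D * D).trace) := by
    rw [H389.sq_smul, H389.sq_smul]
    unfold H389.sq
    simp only [Matrix.sub_mul, Matrix.mul_sub, Matrix.neg_mul, Matrix.mul_neg, trace_sub,
      trace_neg]
    ring
  rw [e0, e1, e2]
  have h2 := mul_le_mul_of_nonneg_left (add_le_add a1 a2) (show (0 : ℝ) ≤ 2 * s ^ 2 by positivity)
  linarith

/-- `|u + v|² ≤ 2 |u|² + 2 |v|²` -/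
theorem sq_add_le {n : Type*} [Fintype n] [DecidableEq n] {A B : Matrix n n ℝ} (hA : Aᵀ = A)
    (hB : Bᵀ = B) : H389.sq (A + B) ≤ 2 * H389.sq A + 2 * H389.sq B := R.trace_sq_add_le hA hB

/-- one level is a part of all levels -/
theorem lev_le_SD {n : Type*} [Fintype n] [DecidableEq n] {X₀ X₁ : Matrix n n ℝ}
    (h0 : X₀.PosSemidef) (h1 : X₁.PosSemidef) {μ : ℝ} (hμ : 0 < μ) {J j : ℕ} (hj : j ≤ J) :
    (μ / 4 ^ j)⁻¹ ^ 2 * (delt ((μ / 4 ^ j)⁻¹⁻¹ • X₀) ((μ / 4 ^ j)⁻¹⁻¹ • X₁)).trace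
      ≤ (μ / 4 ^ j)⁻¹ * SD μ J X₀ X₁ := by
  rw [inv_inv, pow_two, mul_assoc]
  refine mul_le_mul_of_nonneg_left ?_ (by positivity)
  unfold SD
  refine Finset.single_le_sum (f := fun j => (μ / 4 ^ j)⁻¹
    * (delt ((μ / 4 ^ j) • X₀) ((μ / 4 ^ j) • X₁)).trace) (fun i _ => ?_)
    (Finset.mem_range.2 (by omega))
  exact mul_nonneg (by positivity) (delt_psd (smul_psd h0 (by positivity))
    (smul_psd h1 (by positivity))).trace_nonneg

/-- **distances to the next outer scale** -/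
theorem lv_le {N : ℕ} {F : ℕ → ℤ → ℤ → κ → ℝ} {M : ℕ → ℤ → ℤ → Matrix κ κ ℝ}
    (h : MvF N F M) {a k : ℕ} (ha : a < N) (hk : k ≤ N) (T S : ℤ) {μ : ℝ} (hμ : 0 < μ)
    {J j : ℕ} (hj : j ≤ J) :
    2 ^ k * ∑ m ∈ iv (N - k) S, lvV N T (fun a n => PF (μ / 4 ^ j)⁻¹ F k a n m) a
      ≤ (μ / 4 ^ j)⁻¹ * (2 * qD N T S F M (a + 1) + 4 * gnD μ J N T S F a k) := by
  set s : ℝ := (μ / 4 ^ j)⁻¹ with hs'
  have hs : 0 < s := by positivity
  have node : ∀ m n, H389.sq (PF s F k a (2 * n) m - PF s F k (a + 1) n m)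
      + H389.sq (PF s F k a (2 * n + 1) m - PF s F k (a + 1) n m)
      ≤ 2 * (s * (((2 : ℝ) ^ a * 2 ^ k)⁻¹ * (bx a k (fun x => M (a + 1) x n) (F (a + 1)) (2 * n) m
          + bx a k (fun x => M (a + 1) x n) (F (a + 1)) (2 * n + 1) m)))
        + 8 * (s * SD μ J (GH a k (F (a + 1)) (2 * n) m) (GH a k (F (a + 1)) (2 * n + 1) m)) := by
    intro m n
    have p0 := GH_psd a k (F (a + 1)) (2 * n) m
    have p1 := GH_psd a k (F (a + 1)) (2 * n + 1) m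
    have l0 := sq_lip (k := k) (m := m) (h.left a ha · n) hs
    have l1 : H389.sq (H585.PairCh.phs s (GH a k (F a) (2 * n + 1) m)
        - H585.PairCh.phs s (GH a k (F (a + 1)) (2 * n + 1) m))
        ≤ s * (((2 : ℝ) ^ a * 2 ^ k)⁻¹
          * bx a k (fun x => M (a + 1) x n) (F (a + 1)) (2 * n + 1) m) := by
      have q := sq_lip (k := k) (m := m) (f := F (a + 1)) (g := F a)
        (L := fun x => -M (a + 1) x n) (n := 2 * n + 1) (fun x y hy => by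
          rw [h.right a ha x n y hy, Matrix.neg_mulVec, sub_eq_add_neg]) hs
      have e : bx a k (fun x => -M (a + 1) x n) (F (a + 1)) (2 * n + 1) m
          = bx a k (fun x => M (a + 1) x n) (F (a + 1)) (2 * n + 1) m := by
        unfold bx
        simp only [Matrix.neg_mulVec, neg_dotProduct_neg]
      rw [e] at q
      exact q
    have st := sq_static p0 p1 hs
    have lv := lev_le_SD p0 p1 hμ hj
    rw [← hs'] at lv
    have w0 : PF s F k a (2 * n) m - PF s F k (a + 1) n m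
        = (H585.PairCh.phs s (GH a k (F a) (2 * n) m)
            - H585.PairCh.phs s (GH a k (F (a + 1)) (2 * n) m))
          + (H585.PairCh.phs s (GH a k (F (a + 1)) (2 * n) m)
            - H585.PairCh.phs s ((1 / 2 : ℝ) • (GH a k (F (a + 1)) (2 * n) m
              + GH a k (F (a + 1)) (2 * n + 1) m))) := by
      rw [PF, PF, GH_row]
      abel
    have w1 : PF s F k a (2 * n + 1) m - PF s F k (a + 1) n m
        = (H585.PairCh.phs s (GH a k (F a) (2 * n + 1) m)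
            - H585.PairCh.phs s (GH a k (F (a + 1)) (2 * n + 1) m))
          + (H585.PairCh.phs s (GH a k (F (a + 1)) (2 * n + 1) m)
            - H585.PairCh.phs s ((1 / 2 : ℝ) • (GH a k (F (a + 1)) (2 * n) m
              + GH a k (F (a + 1)) (2 * n + 1) m))) := by
      rw [PF, PF, GH_row]
      abel
    have sy : ∀ {X : Matrix (Ix k × κ) (Ix k × κ) ℝ}, X.PosSemidef →
        ∀ {Y : Matrix (Ix k × κ) (Ix k × κ) ℝ}, Y.PosSemidef →
        (H585.PairCh.phs s X - H585.PairCh.phs s Y)ᵀ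
          = H585.PairCh.phs s X - H585.PairCh.phs s Y := by
      intro X hX Y hY
      rw [transpose_sub, phs_symm' hX hs, phs_symm' hY hs]
    have pW := half_psd p0 p1
    have r0 := sq_add_le (sy (GH_psd a k (F a) (2 * n) m) p0) (sy p0 pW)
    have r1 := sq_add_le (sy (GH_psd a k (F a) (2 * n + 1) m) p1) (sy p1 pW)
    rw [w0, w1, mul_add ((2 : ℝ) ^ a * 2 ^ k)⁻¹]
    linarith
  set b : ℤ → ℤ → ℝ := fun n m => bx a k (fun x => M (a + 1) x n) (F (a + 1)) (2 * n) m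
    + bx a k (fun x => M (a + 1) x n) (F (a + 1)) (2 * n + 1) m with hb
  have h3 : ∑ m ∈ iv (N - k) S, ∑ n ∈ iv (N - (a + 1)) T, b n m ≤ qD N T S F M (a + 1) := by
    have h4 := sum_box (show a + 1 ≤ N by omega) hk T S fun n x y =>
      (M (a + 1) x n *ᵥ F (a + 1) x y) ⬝ᵥ (M (a + 1) x n *ᵥ F (a + 1) x y)
        + ((M (a + 1) x n)ᵀ *ᵥ F (a + 1) x y) ⬝ᵥ ((M (a + 1) x n)ᵀ *ᵥ F (a + 1) x y)
    unfold qD
    rw [← h4]
    refine Finset.sum_le_sum fun m _ => Finset.sum_le_sum fun n _ => ?_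
    simp only [hb, bx]
    rw [← Finset.sum_add_distrib]
    refine Finset.sum_le_sum fun x _ => ?_
    rw [H103.sum_iv_two]
    refine add_le_add (Finset.sum_le_sum fun y _ => ?_) (Finset.sum_le_sum fun y _ => ?_)
    · linarith [H258.dp_nonneg ((M (a + 1) x n)ᵀ *ᵥ F (a + 1) x y)]
    · linarith [H258.dp_nonneg ((M (a + 1) x n)ᵀ *ᵥ F (a + 1) x y)]
  have h5 : 2 ^ k * ∑ m ∈ iv (N - k) S, lvV N T (fun a n => PF s F k a n m) a
      ≤ (2 : ℝ) ^ k * ∑ m ∈ iv (N - k) S, (2 ^ a * ∑ n ∈ iv (N - (a + 1)) T,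
        (2 * (s * (((2 : ℝ) ^ a * 2 ^ k)⁻¹ * b n m))
          + 8 * (s * SD μ J (GH a k (F (a + 1)) (2 * n) m)
            (GH a k (F (a + 1)) (2 * n + 1) m)))) := by
    refine mul_le_mul_of_nonneg_left (Finset.sum_le_sum fun m _ => ?_) (by positivity)
    unfold H389.lvV
    exact mul_le_mul_of_nonneg_left (Finset.sum_le_sum fun n _ => node m n) (by positivity)
  have h6 : (2 : ℝ) ^ k * ∑ m ∈ iv (N - k) S, (2 ^ a * ∑ n ∈ iv (N - (a + 1)) T,
        (2 * (s * (((2 : ℝ) ^ a * 2 ^ k)⁻¹ * b n m))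
          + 8 * (s * SD μ J (GH a k (F (a + 1)) (2 * n) m)
            (GH a k (F (a + 1)) (2 * n + 1) m))))
      = s * (2 * (∑ m ∈ iv (N - k) S, ∑ n ∈ iv (N - (a + 1)) T, b n m)
        + 4 * gnD μ J N T S F a k) := by
    unfold gnD
    simp only [Finset.sum_add_distrib, ← Finset.mul_sum, mul_add]
    rw [pow_succ]
    field_simp
    ring
  rw [h6] at h5
  refine h5.trans (mul_le_mul_of_nonneg_left ?_ hs.le)
  linarith

/-! ### all scales -/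

theorem geo_le (n : ℕ) : ∑ r ∈ range n, (3 / 4 : ℝ) ^ r ≤ 4 := by
  have h : ∀ n : ℕ, ∑ r ∈ range n, (3 / 4 : ℝ) ^ r = 4 - 4 * (3 / 4) ^ n := by
    intro n
    induction n with
    | zero => norm_num
    | succ n ih => rw [sum_range_succ, ih, pow_succ]; ring
  rw [h n]
  have : (0 : ℝ) ≤ (3 / 4) ^ n := by positivity
  linarith

theorem geo_le' (n : ℕ) : ∑ k ∈ range n, (3 / 4 : ℝ) ^ (n - k) ≤ 3 := by
  induction n with
  | zero => norm_num
  | succ n ih =>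
    rw [sum_range_succ]
    have e : ∑ k ∈ range n, (3 / 4 : ℝ) ^ (n + 1 - k) = (3 / 4) * ∑ k ∈ range n, (3 / 4) ^ (n - k) := by
      rw [Finset.mul_sum]
      refine Finset.sum_congr rfl fun k hk => ?_
      rw [mem_range] at hk
      rw [show n + 1 - k = (n - k) + 1 by omega, pow_succ]
      ring
    rw [e, show n + 1 - n = 1 by omega, pow_one]
    linarith

/-- own sum at one level -/
theorem EW_PF_le {N a k : ℕ} (ha : a ≤ N) (hk : k ≤ N) (T S : ℤ) (F : ℕ → ℤ → ℤ → κ → ℝ) {s : ℝ}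
    (hs : 0 < s) : H103.EW N T S k (PF s F k) a ≤ s * hD N T S F a := by
  rw [← tr_sum ha hk T S F]
  unfold H103.EW
  have h1 : (2 : ℝ) ^ a * 2 ^ k * ∑ m ∈ iv (N - k) S, ∑ n ∈ iv (N - a) T,
      (PF s F k a n m * PF s F k a n m).trace
      ≤ (2 : ℝ) ^ a * 2 ^ k * ∑ m ∈ iv (N - k) S, ∑ n ∈ iv (N - a) T,
      s * (GH a k (F a) n m).trace :=
    mul_le_mul_of_nonneg_left (Finset.sum_le_sum fun m _ => Finset.sum_le_sum fun n _ =>
      sq_phs_le (GH_psd ..) hs) (by positivity)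
  refine h1.trans (le_of_eq ?_)
  simp only [← Finset.mul_sum]
  ring

/-- the top term -/
theorem top_PF_le {N k : ℕ} (hk : k ≤ N) (T S : ℤ) (F : ℕ → ℤ → ℤ → κ → ℝ) {s : ℝ}
    (hs : 0 < s) : 2 ^ k * ∑ m ∈ iv (N - k) S, H103.eW N T (fun a n => PF s F k a n m) N
      ≤ s * hD N T S F N := by
  have h := EW_PF_le le_rfl hk T S F hs
  rw [H103.EW_eq] at h
  exact h

/-- **own energy of the family over all scales**, any level `s = (μ / 4 ^ j)⁻¹` -/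
theorem TV_own {k₀ N : ℕ} (hkN : k₀ ≤ N) {F : ℕ → ℤ → ℤ → κ → ℝ}
    {M : ℕ → ℤ → ℤ → Matrix κ κ ℝ} (h : MvF N F M) (T S : ℤ) {μ : ℝ} (hμ : 0 < μ) {J j : ℕ}
    (hj : j ≤ J)
    (cap : ∀ a k, k ≤ a → a < N → ∀ n m, (1 - (μ / 4 ^ J) • GH a k (F (a + 1)) n m).PosSemidef)
    {H q : ℝ} (hH : ∀ a ≤ N, hD N T S F a ≤ H) (hq : ∑ a ∈ Icc 1 N, qD N T S F M a ≤ q) :
    TV k₀ N T S (fun k => PF (μ / 4 ^ j)⁻¹ F k)
      ≤ 300000 * (μ / 4 ^ j)⁻¹ * ((J : ℝ) + 1) ^ 3 * (H + q) := by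
  set s : ℝ := (μ / 4 ^ j)⁻¹ with hs'
  have hs : 0 < s := by positivity
  have H0 : 0 ≤ H := le_trans (Finset.sum_nonneg fun _ _ => Finset.sum_nonneg fun _ _ =>
    H258.dp_nonneg _) (hH N le_rfl)
  have q0 : 0 ≤ q := le_trans (Finset.sum_nonneg fun a _ => qD_nonneg N T S F M a) hq
  have hJ : (1 : ℝ) ≤ (J : ℝ) + 1 := by
    have : (0 : ℝ) ≤ J := Nat.cast_nonneg J
    linarith
  set X : ℕ → ℕ → ℝ := fun k r =>
    2 ^ k * ∑ m ∈ iv (N - k) S, lvV N T (fun a n => PF s F k a n m) (k + r) with hX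
  set B : ℝ := s * (2 * q + 16 * (((J : ℝ) + 1) * H + 256 * ((J : ℝ) + 1) ^ 3 * q)) with hB
  -- one diagonal
  have diag : ∀ r, ∑ k ∈ (Ico k₀ N).filter (fun k => k + r < N), X k r ≤ B := by
    intro r
    have g := gain_le h T S hμ J cap hH k₀ r
    have h1 : ∑ k ∈ (Ico k₀ N).filter (fun k => k + r < N), X k r
        ≤ ∑ k ∈ (Ico k₀ N).filter (fun k => k + r < N),
          s * (2 * qD N T S F M (k + r + 1) + 4 * gnD μ J N T S F (k + r) k) := by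
      refine Finset.sum_le_sum fun k hk => ?_
      rw [mem_filter, mem_Ico] at hk
      exact lv_le h hk.2 (by omega) T S hμ hj
    have h2 : ∑ k ∈ (Ico k₀ N).filter (fun k => k + r < N), qD N T S F M (k + r + 1) ≤ q := by
      refine le_trans ?_ hq
      rw [← Finset.sum_image (s := (Ico k₀ N).filter (fun k => k + r < N))
        (g := fun k => k + r + 1) (f := fun a => qD N T S F M a) (fun a _ b _ hab => by
          have : a + r + 1 = b + r + 1 := hab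
          omega)]
      refine sum_le_sum_of_subset_of_nonneg ?_ fun i _ _ => qD_nonneg N T S F M i
      intro x hx
      obtain ⟨k, hk, rfl⟩ := mem_image.mp hx
      rw [mem_filter, mem_Ico] at hk
      rw [mem_Icc]
      omega
    refine h1.trans ?_
    rw [← Finset.mul_sum, Finset.sum_add_distrib, ← Finset.mul_sum, ← Finset.mul_sum]
    refine mul_le_mul_of_nonneg_left ?_ hs.le
    have h3 : 256 * ((J : ℝ) + 1) ^ 3 * ∑ a ∈ Icc 1 N, qD N T S F M a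
        ≤ 256 * ((J : ℝ) + 1) ^ 3 * q := mul_le_mul_of_nonneg_left hq (by positivity)
    linarith
  -- exchange of the sums
  have sw : ∑ k ∈ Ico k₀ N, ∑ r ∈ range (N - k), (3 / 4 : ℝ) ^ r * X k r
      = ∑ r ∈ range N, (3 / 4 : ℝ) ^ r * ∑ k ∈ (Ico k₀ N).filter (fun k => k + r < N), X k r := by
    simp only [Finset.mul_sum]
    refine Finset.sum_comm' fun k r => ?_
    simp only [mem_Ico, mem_range, mem_filter]
    omega
  have B0 : 0 ≤ B := by positivity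
  have h4 : ∑ r ∈ range N, (3 / 4 : ℝ) ^ r
      * ∑ k ∈ (Ico k₀ N).filter (fun k => k + r < N), X k r ≤ 4 * B := by
    calc _ ≤ ∑ r ∈ range N, (3 / 4 : ℝ) ^ r * B :=
          Finset.sum_le_sum fun r _ => mul_le_mul_of_nonneg_left (diag r) (by positivity)
      _ = (∑ r ∈ range N, (3 / 4 : ℝ) ^ r) * B := by rw [Finset.sum_mul]
      _ ≤ 4 * B := mul_le_mul_of_nonneg_right (geo_le N) B0
  have h5 : ∑ k ∈ Ico k₀ N, (3 / 4 : ℝ) ^ (N - k)
      * (2 ^ k * ∑ m ∈ iv (N - k) S, H103.eW N T (fun a n => PF s F k a n m) N)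
      ≤ 3 * (s * H) := by
    calc _ ≤ ∑ k ∈ Ico k₀ N, (3 / 4 : ℝ) ^ (N - k) * (s * H) := by
          refine Finset.sum_le_sum fun k hk => mul_le_mul_of_nonneg_left ?_ (by positivity)
          rw [mem_Ico] at hk
          exact (top_PF_le (by omega) T S F hs).trans
            (mul_le_mul_of_nonneg_left (hH N le_rfl) hs.le)
      _ = (∑ k ∈ Ico k₀ N, (3 / 4 : ℝ) ^ (N - k)) * (s * H) := by rw [Finset.sum_mul]
      _ ≤ (∑ k ∈ range N, (3 / 4 : ℝ) ^ (N - k)) * (s * H) := by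
          refine mul_le_mul_of_nonneg_right ?_ (by positivity)
          refine sum_le_sum_of_subset_of_nonneg ?_ fun i _ _ => by positivity
          intro k hk
          rw [mem_Ico] at hk
          rw [mem_range]
          omega
      _ ≤ 3 * (s * H) := mul_le_mul_of_nonneg_right (geo_le' N) (by positivity)
  have h6 : ∑ k ∈ Ico k₀ N, SVM N k T S (PF s F k)
      = ∑ k ∈ Ico k₀ N, ∑ r ∈ range (N - k), (3 / 4 : ℝ) ^ r * X k r
        + ∑ k ∈ Ico k₀ N, (3 / 4 : ℝ) ^ (N - k)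
          * (2 ^ k * ∑ m ∈ iv (N - k) S, H103.eW N T (fun a n => PF s F k a n m) N) := by
    rw [← Finset.sum_add_distrib]
    refine Finset.sum_congr rfl fun k _ => ?_
    unfold H389.SVM H389.SV
    rw [Finset.sum_add_distrib, mul_add, Finset.sum_comm]
    congr 1
    · rw [Finset.mul_sum]
      refine Finset.sum_congr rfl fun r _ => ?_
      rw [← Finset.mul_sum]
      simp only [hX]
      ring
    · rw [← Finset.mul_sum]
      ring
  have h7 := EW_PF_le hkN hkN T S F hs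
  have h8 := EW_PF_le (le_refl N) (le_refl N) T S F hs
  have h9 := mul_le_mul_of_nonneg_left (hH k₀ hkN) hs.le
  have h10 := mul_le_mul_of_nonneg_left (hH N le_rfl) hs.le
  have h11 : TV k₀ N T S (fun k => PF s F k) ≤ s * H + s * H + 18 * (4 * B + 3 * (s * H)) := by
    unfold H389.TV
    rw [h6, sw]
    linarith
  refine h11.trans ?_
  rw [hB]
  have j3 : ((J : ℝ) + 1) ≤ ((J : ℝ) + 1) ^ 3 := by
    calc ((J : ℝ) + 1) = ((J : ℝ) + 1) ^ 1 := (pow_one _).symm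
      _ ≤ ((J : ℝ) + 1) ^ 3 := pow_le_pow_right₀ hJ (by norm_num)
  have j0 : (1 : ℝ) ≤ ((J : ℝ) + 1) ^ 3 := one_le_pow₀ hJ
  set U : ℝ := ((J : ℝ) + 1) ^ 3 with hU
  have a1 : ((J : ℝ) + 1) * H ≤ U * H := mul_le_mul_of_nonneg_right j3 H0
  have a2 : H ≤ U * H := le_mul_of_one_le_left H0 j0
  have a3 : q ≤ U * q := le_mul_of_one_le_left q0 j0
  have a4 : 0 ≤ U * H := by positivity
  have a5 : 0 ≤ U * q := by positivity
  have a6 : H + H + 18 * (4 * (2 * q + 16 * (((J : ℝ) + 1) * H + 256 * U * q)) + 3 * H)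
      ≤ 300000 * U * (H + q) := by
    linarith
  calc s * H + s * H + 18 * (4 * (s * (2 * q + 16 * (((J : ℝ) + 1) * H + 256 * U * q)))
        + 3 * (s * H))
      = s * (H + H + 18 * (4 * (2 * q + 16 * (((J : ℝ) + 1) * H + 256 * U * q)) + 3 * H)) := by
        ring
    _ ≤ s * (300000 * U * (H + q)) := mul_le_mul_of_nonneg_left a6 hs.le
    _ = _ := by ring

end

end Vale.Agent.P141.H483
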